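import Vale.Agent.P365.E913.Det

set_option linter.all false

/-!
# P365 T1, soft end: the sites are all active or none (fixed energy)
-/

namespace P365L.E913

open MeasureTheory ProbabilityTheory Complex Filter Topology P365L.Inf
open scoped ENNReal InnerProductSpace

/-- the spectral parameters `E + i 2^{-n}` -/
noncomputable def zz (E : ℝ) (n : ℕ) : ℂ := (E : ℂ) + (((1 / 2 : ℝ) ^ n : ℝ) : ℂ) * I

theorem zz_im (E : ℝ) (n : ℕ) : (zz E n).im = (1 / 2 : ℝ) ^ n := by
  unfold zz
  simp only [add_im, ofReal_im, mul_im, ofReal_re, I_im, mul_one, I_re, mul_zero, add_zero, zero_add]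

theorem zz_pos (E : ℝ) (n : ℕ) : 0 < (zz E n).im := by
  rw [zz_im]; positivity

theorem zz_re (E : ℝ) (n : ℕ) : (zz E n).re = E := by
  unfold zz
  simp only [add_re, ofReal_re, mul_re, I_re, mul_zero, ofReal_im, I_im, mul_one, sub_self, add_zero]

theorem measurable_gg (E : ℝ) (n : ℕ) (x y : Site) :
    Measurable fun V : Site → ℝ => gg V (zz E n) x y :=
  measurable_Res (fun V : Site → ℝ => V) (fun _ => zz E n) (fun x => measurable_pi_apply x)
    measurable_const (fun _ => zz_pos E n) y x

theorem measurable_gg_prod (n : ℕ) (x y : Site) :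
    Measurable fun p : (Site → ℝ) × ℝ => gg p.1 (zz p.2 n) x y := by
  refine measurable_Res (fun p : (Site → ℝ) × ℝ => p.1) (fun p => zz p.2 n)
    (fun x => (measurable_pi_apply x).comp measurable_fst) ?_ (fun p => zz_pos p.2 n) y x
  unfold zz
  exact (Complex.measurable_ofReal.comp measurable_snd).add_const _

/-- density of states at `x` along the sequence -/
noncomputable def lf (E : ℝ) (x : Site) (V : Site → ℝ) : ℝ≥0∞ :=
  liminf (fun n => ENNReal.ofReal (gg V (zz E n) x x).im) atTop

theorem measurable_lf (E : ℝ) (x : Site) : Measurable (lf E x) := by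
  unfold lf
  exact Measurable.liminf fun n => (Complex.measurable_im.comp (measurable_gg E n x x)).ennreal_ofReal

theorem measurable_lf_prod (x : Site) : Measurable fun p : (Site → ℝ) × ℝ => lf p.2 x p.1 := by
  unfold lf
  exact Measurable.liminf fun n =>
    (Complex.measurable_im.comp (measurable_gg_prod n x x)).ennreal_ofReal

/-- the Lebesgue point property of the energy `E` for the potential `V` -/
def Conv (E : ℝ) (V : Site → ℝ) : Prop :=
  ∀ x, (∃ l : ℝ, Tendsto (fun n => (gg V (zz E n) x x).im) atTop (𝓝 l)) ∧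
    Tendsto (fun n => ((zz E n).im : ℂ) * (Res V (zz E n) (Res V (zz E n) (dl x))) x) atTop
      (𝓝 0) ∧
    Tendsto (fun n => gg V (zz E (n + 1)) x x - gg V (zz E n) x x) atTop (𝓝 0)

theorem lf_eq {E : ℝ} {x : Site} {V : Site → ℝ} {l : ℝ}
    (h : Tendsto (fun n => (gg V (zz E n) x x).im) atTop (𝓝 l)) : lf E x V = ENNReal.ofReal l :=
  (ENNReal.tendsto_ofReal h).liminf_eq

theorem tendsto_lf {E : ℝ} {V : Site → ℝ} (h : Conv E V) (x : Site) :
    Tendsto (fun n => (gg V (zz E n) x x).im) atTop (𝓝 (lf E x V).toReal) ∧ lf E x V ≠ ∞ := by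
  obtain ⟨l, hl⟩ := (h x).1
  have h0 : 0 ≤ l := ge_of_tendsto' hl fun n => (gg_im_pos (zz_pos E n) x).le
  rw [lf_eq hl]
  exact ⟨by rwa [ENNReal.toReal_ofReal h0], ENNReal.ofReal_ne_top⟩

theorem tendsto_zero_of_lf {E : ℝ} {V : Site → ℝ} (h : Conv E V) {x : Site} (h0 : lf E x V = 0) :
    Tendsto (fun n => (gg V (zz E n) x x).im) atTop (𝓝 0) := by
  have := (tendsto_lf h x).1
  rwa [h0, ENNReal.toReal_zero] at this

variable {P : Measure (Site → ℝ)} [IsProbabilityMeasure P] {ν : Measure ℝ}
  [IsProbabilityMeasure ν]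

/-- resampling at `y` preserves the law -/
def Resample (P : Measure (Site → ℝ)) (ν : Measure ℝ) : Prop :=
  ∀ y : Site, MeasurePreserving (fun p : (Site → ℝ) × ℝ => Function.update p.1 y p.2) (P.prod ν) P

/-- if an event has positive probability, given the other potentials an independent copy of `V_y`
is also in the event with positive probability -/
theorem pos_copy (hres : Resample P ν) (y : Site) {B : Set (Site → ℝ)} (hB : MeasurableSet B) :
    ∀ᵐ V ∂P, V ∈ B → ν {t | Function.update V y t ∈ B} ≠ 0 := by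
  set φ : (Site → ℝ) × ℝ → (Site → ℝ) := fun p => Function.update p.1 y p.2 with hφ
  have hφm : Measurable φ := (hres y).measurable
  set β : (Site → ℝ) → ℝ≥0∞ := fun V => ν {t | Function.update V y t ∈ B} with hβ
  have hβm : Measurable β := by
    have := measurable_measure_prodMk_left (ν := ν) (hφm hB)
    exact this
  have hβu : ∀ (V : Site → ℝ) (t : ℝ), β (Function.update V y t) = β V := by
    intro V t
    simp only [hβ, Function.update_idem]
  have hS : MeasurableSet (B ∩ {V | β V = 0}) := hB.inter (measurableSet_eq_fun hβm measurable_const)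
  have h1 : P (B ∩ {V | β V = 0}) = 0 := by
    rw [← (hres y).measure_preimage hS.nullMeasurableSet, Measure.prod_apply (hφm hS)]
    rw [lintegral_eq_zero_iff (measurable_measure_prodMk_left (hφm hS))]
    refine Eventually.of_forall fun V => ?_
    simp only [Pi.zero_apply]
    by_cases h : β V = 0
    · refine measure_mono_null ?_ h
      intro t ht
      exact ht.1
    · convert measure_empty (μ := ν)
      ext t
      simp only [Set.mem_preimage, Set.mem_inter_iff, Set.mem_ofPred_eq, Set.mem_empty_iff_false,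
        iff_false, not_and]
      intro _
      show ¬ β (Function.update V y t) = 0
      rw [hβu]
      exact h
  have h2 : ∀ᵐ V ∂P, V ∉ B ∩ {V | β V = 0} := measure_eq_zero_iff_ae_notMem.1 h1
  filter_upwards [h2] with V hV hVB h0
  exact hV ⟨hVB, h0⟩

/-- a property which holds almost surely holds almost surely after resampling -/
theorem ae_update (hres : Resample P ν) (y : Site) {p : (Site → ℝ) → Prop} (h : ∀ᵐ V ∂P, p V) :
    ∀ᵐ V ∂P, ∀ᵐ t ∂ν, p (Function.update V y t) :=
  Measure.ae_ae_of_ae_prod ((hres y).quasiMeasurePreserving.ae h)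

/-- fixed energy: an active and an inactive site decouple -/
theorem decouple (hres : Resample P ν) (hna : ∀ t, ν {t} = 0) {E : ℝ}
    (hconv : ∀ᵐ V ∂P, Conv E V) (x y : Site) :
    ∀ᵐ V ∂P, lf E x V = 0 → 0 < lf E y V →
      Tendsto (fun n => gg V (zz E n) x y) atTop (𝓝 0) := by
  have hB : MeasurableSet {V : Site → ℝ | lf E x V = 0 ∧ 0 < lf E y V} :=
    (measurableSet_eq_fun (measurable_lf E x) measurable_const).inter
      (measurableSet_lt measurable_const (measurable_lf E y))
  filter_upwards [hconv, ae_update hres y hconv, pos_copy hres y hB] with V h1 h2 h3 hx hy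
  have h4 := h3 ⟨hx, hy⟩
  -- choose a good value
  have h5 : ∀ᵐ t ∂ν, t ≠ V y := by
    rw [ae_iff]
    simpa using hna (V y)
  obtain ⟨t, ht1, ht2, ht3⟩ : ∃ t, Function.update V y t ∈ {V : Site → ℝ | lf E x V = 0 ∧
      0 < lf E y V} ∧ Conv E (Function.update V y t) ∧ t ≠ V y := by
    by_contra hc
    push Not at hc
    apply h4
    have h6 := h2.and h5
    rw [ae_iff] at h6
    refine measure_mono_null ?_ h6
    intro t ht hh
    exact hh.2 (hc t ht hh.1)
  set V' := Function.update V y t with hV'
  have e0 : V' = Function.update V y (V y + (t - V y)) := by rw [add_sub_cancel]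
  have m1 := tendsto_zero_of_lf h1 hx
  have m2 := tendsto_zero_of_lf ht2 ht1.1
  have m3 := (tendsto_lf ht2 y).1
  have m4 : 0 < (lf E y V').toReal := ENNReal.toReal_pos ht1.2.ne' (tendsto_lf ht2 y).2
  have hh : 0 < (t - V y) ^ 2 := by
    have : t - V y ≠ 0 := sub_ne_zero.2 ht3
    positivity
  have key : ∀ n, ‖gg V (zz E n) x y‖ ^ 2 * ((gg V' (zz E n) y y).im * (t - V y) ^ 2) ≤
      2 * ((gg V (zz E n) x x).im + (gg V' (zz E n) x x).im) := by
    intro n
    have := two_point (V := V) (zz_pos E n) x y (t - V y)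
    rw [← e0] at this
    linarith
  have h7 : Tendsto (fun n => 2 * ((gg V (zz E n) x x).im + (gg V' (zz E n) x x).im) /
      ((gg V' (zz E n) y y).im * (t - V y) ^ 2)) atTop (𝓝 0) := by
    have h := ((m1.add m2).const_mul 2).div (m3.mul_const ((t - V y) ^ 2)) (by positivity)
    rw [add_zero, mul_zero, zero_div] at h
    exact h
  have h8 : Tendsto (fun n => ‖gg V (zz E n) x y‖ ^ 2) atTop (𝓝 0) := by
    refine squeeze_zero (fun n => sq_nonneg _) (fun n => ?_) h7
    rw [le_div_iff₀ (mul_pos (gg_im_pos (zz_pos E n) y) hh)]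
    exact key n
  rw [tendsto_zero_iff_norm_tendsto_zero]
  have h9 := h8.sqrt
  simpa [Real.sqrt_sq (norm_nonneg _)] using h9

end P365L.E913
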