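import Vale.Agent.P365.E913.All

set_option linter.all false

/-!
# P365 T1, soft end: all sites are active or none, and this does not depend on one potential
-/

namespace P365L.E913

open MeasureTheory ProbabilityTheory Complex Filter Topology P365L.Inf
open scoped ENNReal InnerProductSpace

/-- neighbours in `ℤ²` -/
def Nb (x y : Site) : Prop := (x.1 - y.1).natAbs + (x.2 - y.2).natAbs = 1

theorem all_of_step {f : Site → Prop} (h : ∀ x y, Nb x y → (f x ↔ f y)) (x : Site) :
    f x ↔ f (0, 0) := by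
  obtain ⟨a, b⟩ := x
  have h1 : ∀ b : ℤ, f (a, b) ↔ f (a, 0) := by
    intro b
    induction b using Int.induction_on with
    | zero => rfl
    | succ i ih =>
      rw [← ih]
      apply h
      simp [Nb]
    | pred i ih =>
      rw [← ih]
      apply h
      simp only [Nb]
      omega
  have h2 : ∀ a : ℤ, f (a, 0) ↔ f (0, 0) := by
    intro a
    induction a using Int.induction_on with
    | zero => rfl
    | succ i ih =>
      rw [← ih]
      apply h
      simp [Nb]
    | pred i ih =>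
      rw [← ih]
      apply h
      simp only [Nb]
      omega
  rw [h1, h2]

/-- the facts about the law which are used -/
structure Law (P : Measure (Site → ℝ)) (ν : Measure ℝ) (K L : ℝ) : Prop where
  K0 : 0 < K
  L0 : 0 ≤ L
  res : Resample P ν
  shiftP : ∀ a : Site, MeasurePreserving (fun V : Site → ℝ => shift a V) P P
  bdd : ∀ᵐ V ∂P, ∀ x, |V x| ≤ L
  nuK : ν ≤ ENNReal.ofReal K • (volume : Measure ℝ)
  nuL : ∀ᵐ t ∂ν, |t| ≤ L
  avg : ∀ (V : Site → ℝ) (z : ℂ) (x : Site), 0 < z.im →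
    ∫⁻ t, ENNReal.ofReal (gg (Function.update V x t) z x x).im ∂ν ≤ ENNReal.ofReal (Real.pi * K)
  tail : ∀ (z : ℂ) (x : Site) (T : ℝ), 0 < z.im → 0 < T →
    P {V | T < ‖gg V z x x‖} ≤ ENNReal.ofReal (2 * K / T)

variable {P : Measure (Site → ℝ)} [IsProbabilityMeasure P] {ν : Measure ℝ}
  [IsProbabilityMeasure ν] {K L : ℝ}

theorem Law.noatom (hP : Law P ν K L) (t : ℝ) : ν {t} = 0 := by
  have h := hP.nuK {t}
  simp only [Measure.smul_apply, smul_eq_mul, Real.volume_singleton, mul_zero] at h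
  exact le_antisymm h bot_le

theorem measurableSet_conv0 {Ω : Type*} [MeasurableSpace Ω] {f : ℕ → Ω → ℂ}
    (hf : ∀ n, Measurable (f n)) (c : ℂ) :
    MeasurableSet {p | Tendsto (fun n => f n p) atTop (𝓝 c)} :=
  measurableSet_tendsto (𝓝 c) hf

/-- non-degeneracy of the entries, exchanged -/
theorem uniq_swap (hP : Law P ν K L)
    (huniq : ∀ V : Site → ℝ, (∀ x, |V x| ≤ L) → ∀ x y, Nb x y →
      ∀ᵐ E : ℝ, ¬ Tendsto (fun n => gg V (zz E n) x y) atTop (𝓝 0)) :
    ∀ᵐ E : ℝ, ∀ᵐ V ∂P, ∀ x y, Nb x y →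
      ¬ Tendsto (fun n => gg V (zz E n) x y) atTop (𝓝 0) := by
  have h1 : ∀ x y, Nb x y → ∀ᵐ E : ℝ, ∀ᵐ V ∂P,
      ¬ Tendsto (fun n => gg V (zz E n) x y) atTop (𝓝 0) := by
    intro x y hxy
    have hm : MeasurableSet {p : (Site → ℝ) × ℝ |
        ¬ Tendsto (fun n => gg p.1 (zz p.2 n) x y) atTop (𝓝 0)} :=
      (measurableSet_conv0 (fun n => measurable_gg_prod n x y) 0).compl
    have h2 : ∀ᵐ V ∂P, ∀ᵐ E : ℝ, ¬ Tendsto (fun n => gg V (zz E n) x y) atTop (𝓝 0) := by
      filter_upwards [hP.bdd] with V hV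
      exact huniq V hV x y hxy
    exact (Measure.ae_ae_comm (p := fun V E =>
      ¬ Tendsto (fun n => gg V (zz E n) x y) atTop (𝓝 0)) hm).1 h2
  have h3 : ∀ᵐ E : ℝ, ∀ x y, Nb x y → ∀ᵐ V ∂P,
      ¬ Tendsto (fun n => gg V (zz E n) x y) atTop (𝓝 0) := by
    rw [ae_all_iff]; intro x
    rw [ae_all_iff]; intro y
    by_cases hxy : Nb x y
    · filter_upwards [h1 x y hxy] with E hE _
      exact hE
    · exact Eventually.of_forall fun E h => absurd h hxy
  filter_upwards [h3] with E hE
  rw [ae_all_iff]; intro x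
  rw [ae_all_iff]; intro y
  by_cases hxy : Nb x y
  · filter_upwards [hE x y hxy] with V hV _
    exact hV
  · exact Eventually.of_forall fun V h => absurd h hxy

/-- (E3) at a fixed energy: all sites are active or none -/
theorem all_or_none (hP : Law P ν K L) {E : ℝ} (hconv : ∀ᵐ V ∂P, Conv E V)
    (huniq : ∀ᵐ V ∂P, ∀ x y, Nb x y → ¬ Tendsto (fun n => gg V (zz E n) x y) atTop (𝓝 0)) :
    ∀ᵐ V ∂P, ∀ x, (0 < lf E x V ↔ 0 < lf E (0, 0) V) := by
  have h1 : ∀ᵐ V ∂P, ∀ x y, lf E x V = 0 → 0 < lf E y V →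
      Tendsto (fun n => gg V (zz E n) x y) atTop (𝓝 0) := by
    rw [ae_all_iff]; intro x
    rw [ae_all_iff]; intro y
    exact decouple hP.res hP.noatom hconv x y
  filter_upwards [h1, huniq] with V h2 h3
  refine all_of_step (f := fun x => 0 < lf E x V) fun x y hxy => ?_
  constructor
  · intro hx
    by_contra hy
    have hy' : lf E y V = 0 := by
      rcases eq_or_lt_of_le (zero_le (a := lf E y V)) with h | h
      · exact h.symm
      · exact absurd h hy
    have hyx : Nb y x := by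
      unfold Nb at hxy ⊢
      omega
    exact h3 y x hyx (h2 y x hy' hx)
  · intro hy
    by_contra hx
    have hx' : lf E x V = 0 := by
      rcases eq_or_lt_of_le (zero_le (a := lf E x V)) with h | h
      · exact h.symm
      · exact absurd h hx
    exact h3 x y hxy (h2 x y hx' hy)

/-- the active event, exactly shift invariant -/
def Act (E : ℝ) : Set (Site → ℝ) := {V | ∀ x, 0 < lf E x V}

theorem measurable_Act (E : ℝ) : MeasurableSet (Act E) := by
  have : Act E = ⋂ x : Site, {V | 0 < lf E x V} := by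
    ext V; simp [Act]
  rw [this]
  exact MeasurableSet.iInter fun x => measurableSet_lt measurable_const (measurable_lf E x)

/-- the diagonal entry does not tend to infinity -/
theorem not_infty (hP : Law P ν K L) (E : ℝ) (x : Site) :
    ∀ᵐ V ∂P, ¬ Tendsto (fun n => ‖gg V (zz E n) x x‖) atTop atTop := by
  rw [ae_iff]
  simp only [not_not]
  have h1 : ∀ T : ℝ, 0 < T → P {V | Tendsto (fun n => ‖gg V (zz E n) x x‖) atTop atTop} ≤
      ENNReal.ofReal (2 * K / T) := by
    intro T hT
    set A : ℕ → Set (Site → ℝ) := fun N => {V | ∀ n, N ≤ n → T < ‖gg V (zz E n) x x‖} with hA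
    have hmono : Monotone A := by
      intro N M hNM V hV n hn
      exact hV n (hNM.trans hn)
    have hsub : {V | Tendsto (fun n => ‖gg V (zz E n) x x‖) atTop atTop} ⊆ ⋃ N, A N := by
      intro V hV
      have : ∀ᶠ n in atTop, T < ‖gg V (zz E n) x x‖ := hV.eventually_gt_atTop T
      obtain ⟨N, hN⟩ := eventually_atTop.1 this
      exact Set.mem_iUnion.2 ⟨N, hN⟩
    refine (measure_mono hsub).trans ?_
    rw [hmono.measure_iUnion]
    refine iSup_le fun N => ?_
    refine (measure_mono ?_).trans (hP.tail (zz E N) x T (zz_pos E N) hT)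
    intro V hV
    exact hV N le_rfl
  have h2 : Tendsto (fun n : ℕ => ENNReal.ofReal (2 * K / ((n : ℝ) + 1))) atTop (𝓝 0) := by
    have h3 : Tendsto (fun n : ℕ => 2 * K / ((n : ℝ) + 1)) atTop (𝓝 0) := by
      have := (tendsto_one_div_add_atTop_nhds_zero_nat (𝕜 := ℝ)).const_mul (2 * K)
      rw [mul_zero] at this
      exact this.congr fun n => mul_one_div _ _
    have := ENNReal.tendsto_ofReal h3
    rwa [ENNReal.ofReal_zero] at this
  exact le_antisymm (ge_of_tendsto' h2 fun n => h1 _ (by positivity)) bot_le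

/-- a resampled active configuration comes from an active configuration -/
theorem act_update (hP : Law P ν K L) {E : ℝ} (hconv : ∀ᵐ V ∂P, Conv E V)
    (hall : ∀ᵐ V ∂P, ∀ x, (0 < lf E x V ↔ 0 < lf E (0, 0) V)) (w : Site) :
    ∀ᵐ p ∂(P.prod ν), Function.update p.1 w p.2 ∈ Act E → p.1 ∈ Act E := by
  have q1 := (Measure.quasiMeasurePreserving_fst (μ := P) (ν := ν)).ae hconv
  have q2 := (hP.res w).quasiMeasurePreserving.ae hconv
  have q3 := (Measure.quasiMeasurePreserving_fst (μ := P) (ν := ν)).ae hall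
  have q4 := (hP.res w).quasiMeasurePreserving.ae hall
  have q5 := (hP.res w).quasiMeasurePreserving.ae (not_infty hP E w)
  filter_upwards [q1, q2, q3, q5] with p c1 c2 a1 n2 hact
  set V := p.1 with hV
  set t := p.2 with ht
  set V' := Function.update V w t with hV'
  have hw' : 0 < lf E w V' := hact w
  suffices hw : 0 < lf E w V by
    intro x
    rw [a1 x]
    exact (a1 w).1 hw
  by_contra hw
  have hw0 : lf E w V = 0 := by
    rcases eq_or_lt_of_le (zero_le (a := lf E w V)) with h | h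
    · exact h.symm
    · exact absurd h hw
  have m0 := tendsto_zero_of_lf c1 hw0
  obtain ⟨m1, m1top⟩ := tendsto_lf c2 w
  have ml : 0 < (lf E w V').toReal := ENNReal.toReal_pos hw'.ne' m1top
  apply n2
  set l := (lf E w V').toReal with hl
  set g : ℕ → ℂ := fun n => gg V (zz E n) w w with hg
  set g' : ℕ → ℂ := fun n => gg V' (zz E n) w w with hg'
  have e0 : V' = Function.update V w (V w + (t - V w)) := by rw [add_sub_cancel]
  have hinv : ∀ n, (g' n)⁻¹ = (g n)⁻¹ + ((t - V w : ℝ) : ℂ) := by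
    intro n
    simp only [hg, hg', e0]
    rw [gg_update_inv (zz_pos E n) w (t - V w)]
    try ring
  have himp : ∀ n, (g' n).im / ‖g' n‖ ^ 2 = (g n).im / ‖g n‖ ^ 2 := by
    intro n
    have h1 := imp_update' (V := V) (zz_pos E n) w t
    rw [imp_eq, imp_eq] at h1
    exact h1
  -- `‖g‖` is bounded below
  have hev : ∀ᶠ n in atTop, l / 2 < (g' n).im := m1.eventually_const_lt (by linarith)
  set C := 2 / l + |t - V w| with hC
  have hC0 : 0 < C := by positivity
  have hb : ∀ᶠ n in atTop, ‖(g n)⁻¹‖ ≤ C := by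
    filter_upwards [hev] with n hn
    have h1 : (g n)⁻¹ = (g' n)⁻¹ - ((t - V w : ℝ) : ℂ) := by rw [hinv n]; ring
    rw [h1]
    refine (norm_sub_le _ _).trans ?_
    rw [Complex.norm_real, Real.norm_eq_abs, hC]
    refine add_le_add ?_ le_rfl
    rw [norm_inv]
    have h2 : l / 2 ≤ ‖g' n‖ := hn.le.trans ((le_abs_self _).trans (Complex.abs_im_le_norm _))
    calc ‖g' n‖⁻¹ ≤ (l / 2)⁻¹ := inv_anti₀ (by positivity) h2
      _ = 2 / l := by rw [inv_div]
  -- hence `‖g'‖²` is large
  have hlow : ∀ᶠ n in atTop, l / (2 * C ^ 2) * (1 / (g n).im) ≤ ‖g' n‖ ^ 2 := by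
    filter_upwards [hev, hb] with n h1 h2
    have p1 : 0 < (g n).im := gg_im_pos (zz_pos E n) w
    have p2 : 0 < ‖g n‖ := norm_pos_iff.2 (gg_ne_zero (zz_pos E n) w)
    have p3 : 0 < ‖g' n‖ := norm_pos_iff.2 (gg_ne_zero (zz_pos E n) w)
    have h3 := himp n
    rw [div_eq_div_iff (by positivity) (by positivity)] at h3
    rw [norm_inv, inv_le_comm₀ p2 hC0] at h2
    have h5 : l / 2 * (1 / C) ^ 2 ≤ (g' n).im * ‖g n‖ ^ 2 := by
      refine mul_le_mul h1.le ?_ (by positivity) (by linarith)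
      refine pow_le_pow_left₀ (by positivity) ?_ 2
      rw [one_div]; exact h2
    rw [h3] at h5
    rw [mul_one_div, div_le_iff₀ p1]
    calc l / (2 * C ^ 2) = l / 2 * (1 / C) ^ 2 := by field_simp
      _ ≤ (g n).im * ‖g' n‖ ^ 2 := h5
      _ = _ := by ring
  have hsq : Tendsto (fun n => ‖g' n‖ ^ 2) atTop atTop := by
    refine tendsto_atTop_mono' _ hlow ?_
    refine Tendsto.const_mul_atTop (by positivity) ?_
    have h1 : Tendsto (fun n => (g n).im) atTop (𝓝[>] 0) :=
      tendsto_nhdsWithin_iff.2 ⟨m0, Eventually.of_forall fun n => gg_im_pos (zz_pos E n) w⟩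
    refine h1.inv_tendsto_nhdsGT_zero.congr fun n => ?_
    rw [one_div]
    rfl
  have h6 := (Real.tendsto_sqrt_atTop).comp hsq
  refine h6.congr fun n => ?_
  show Real.sqrt (‖g' n‖ ^ 2) = ‖g' n‖
  exact Real.sqrt_sq (norm_nonneg _)

end P365L.E913
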