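import Vale.Agent.P365.S6.Cau
import Vale.Agent.P365.Bdl.B1
import Mathlib.Analysis.Complex.JensenFormula

set_option linter.all false

/-!
# P365 T1, soft end: boundary uniqueness for bounded analytic functions, along a sequence
-/

namespace P365L.E913

open MeasureTheory Complex Filter Topology Metric P365S6
open scoped Real Interval

/-- Jensen's inequality -/
theorem jensen_le {g : ℂ → ℂ} {R : ℝ} (hR : 0 < R) (hg : AnalyticOnNhd ℂ g (closedBall 0 |R|))
    (h0 : g 0 ≠ 0) :
    Real.log ‖g 0‖ ≤ Real.circleAverage (fun z => Real.log ‖g z‖) 0 R := by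
  have hm : MeromorphicOn g (closedBall 0 |R|) := hg.meromorphicOn
  have h := MeromorphicOn.circleAverage_log_norm hR.ne' hm
  rw [h]
  have hc : (0 : ℂ) ∈ closedBall (0 : ℂ) |R| := by simp
  have h1 : meromorphicTrailingCoeffAt g 0 = g 0 :=
    (hg 0 hc).meromorphicTrailingCoeffAt_of_ne_zero h0
  have h2 : MeromorphicOn.divisor g (closedBall 0 |R|) 0 = 0 := by
    have hh : analyticOrderAt g 0 = 0 := AnalyticAt.analyticOrderAt_eq_zero (hg 0 hc) |>.2 h0
    rw [MeromorphicOn.AnalyticOnNhd.divisor_apply hg hc, hh]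
    rfl
  have h3 : 0 ≤ ∑ᶠ u, (MeromorphicOn.divisor g (closedBall 0 |R|) u : ℝ) *
      Real.log (R * ‖(0 : ℂ) - u‖⁻¹) := by
    refine finsum_nonneg fun u => ?_
    have h4 : 0 ≤ MeromorphicOn.divisor g (closedBall 0 |R|) u :=
      MeromorphicOn.AnalyticOnNhd.divisor_nonneg hg u
    rcases eq_or_lt_of_le h4 with h5 | h5
    · rw [← h5]
      simp
    · have hu : u ∈ closedBall (0 : ℂ) |R| := by
        by_contra hu
        have : MeromorphicOn.divisor g (closedBall 0 |R|) u = 0 :=
          Function.locallyFinsuppWithin.apply_eq_zero_of_notMem _ hu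
        omega
      rcases eq_or_ne u 0 with h6 | h6
      · rw [h6]
        simp
      · have h7 : 0 < ‖(0 : ℂ) - u‖ := by simpa using h6
        have h8 : ‖(0 : ℂ) - u‖ ≤ R := by
          rw [mem_closedBall, dist_comm, dist_eq_norm, abs_of_pos hR] at hu
          exact hu
        refine mul_nonneg (by exact_mod_cast h4) (Real.log_nonneg ?_)
        rw [← div_eq_mul_inv, le_div_iff₀ h7]
        linarith
  rw [h1, h2]
  simp only [Int.cast_zero, zero_mul, add_zero]
  linarith

/-- truncated logarithm -/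
noncomputable def lc (a : ℝ) (z : ℂ) : ℝ := Real.log (max ‖z‖ a)

theorem continuous_lc {a : ℝ} (ha : 0 < a) : Continuous (lc a) := by
  unfold lc
  refine Continuous.log (by fun_prop) fun z => ?_
  exact (lt_of_lt_of_le ha (le_max_right _ _)).ne'

theorem lc_le {a C : ℝ} (ha : 0 < a) {z : ℂ} (hz : ‖z‖ ≤ C) : lc a z ≤ Real.log (max C a) :=
  Real.log_le_log (lt_of_lt_of_le ha (le_max_right _ _)) (max_le_max hz le_rfl)

theorem le_lc {a : ℝ} (ha : 0 < a) (z : ℂ) : Real.log a ≤ lc a z :=
  Real.log_le_log ha (le_max_right _ _)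

theorem log_le_lc {a : ℝ} (ha : 0 < a) {z : ℂ} : Real.log ‖z‖ ≤ max (lc a z) 0 := by
  rcases eq_or_ne z 0 with h | h
  · rw [h, norm_zero, Real.log_zero]
    exact le_max_right _ _
  · exact (Real.log_le_log (norm_pos_iff.2 h) (le_max_left _ _)).trans (le_max_left _ _)

theorem norm_lc_le {a C : ℝ} (ha : 0 < a) {z : ℂ} (hz : ‖z‖ ≤ C) :
    ‖lc a z‖ ≤ |Real.log a| + |Real.log (max C a)| := by
  rw [Real.norm_eq_abs, abs_le]
  constructor
  · have h1 := le_lc ha z
    have h2 := neg_abs_le (Real.log a)
    have h3 := abs_nonneg (Real.log (max C a))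
    linarith
  · have h1 := lc_le ha hz
    have h2 := le_abs_self (Real.log (max C a))
    have h3 := abs_nonneg (Real.log a)
    linarith

/-- circle averages converge -/
theorem tendsto_circleAverage_cay {F : Type*} [NormedAddCommGroup F] [NormedSpace ℝ F]
    {h : ℂ → F} (hc : ContinuousOn h {z | z.im ≤ 0}) {C : ℝ}
    (hb : ∀ z : ℂ, z.im ≤ 0 → ‖h z‖ ≤ C) :
    Tendsto (fun r : ℝ => Real.circleAverage (fun u => h (cay u)) 0 r) (𝓝[<] 1)
      (𝓝 (Real.circleAverage (fun u => h (cay u)) 0 1)) := by
  simp only [Real.circleAverage_def]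
  refine Tendsto.const_smul ?_ _
  have hI : ∀ᶠ r : ℝ in 𝓝[<] 1, 0 < r ∧ r < 1 :=
    (eventually_nhdsWithin_of_eventually_nhds (lt_mem_nhds one_pos)).and
      (eventually_mem_nhdsWithin)
  refine intervalIntegral.tendsto_integral_filter_of_dominated_convergence (fun _ => C) ?_ ?_ ?_ ?_
  · filter_upwards [hI] with r hr
    have hcont : Continuous fun θ : ℝ => h (cay (circleMap 0 r θ)) := by
      rw [continuous_iff_continuousAt]
      intro θ
      have hm : ‖circleMap 0 r θ‖ < 1 := by
        simp only [norm_circleMap_zero, abs_of_pos hr.1, hr.2]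
      have h1 := cay_im_neg hm
      have h2 : ContinuousAt h (cay (circleMap 0 r θ)) :=
        (hc _ h1.le).continuousAt (mem_of_superset
          ((isOpen_lt Complex.continuous_im continuous_const).mem_nhds h1)
          fun z (hz : z.im < 0) => (le_of_lt hz : z.im ≤ 0))
      have h3 : ContinuousAt cay (circleMap 0 r θ) :=
        (cay_differentiableAt (one_add_ne hm)).continuousAt
      exact (h2.comp h3).comp (f := circleMap 0 r) (continuous_circleMap 0 r).continuousAt
    exact hcont.aestronglyMeasurable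
  · filter_upwards [hI] with r hr
    refine Eventually.of_forall fun θ _ => ?_
    refine hb _ (cay_im_neg ?_).le
    simp only [norm_circleMap_zero, abs_of_pos hr.1, hr.2]
  · exact intervalIntegrable_const
  · have hne : ∀ᵐ θ : ℝ, θ ∈ Ι (0 : ℝ) (2 * π) → circleMap 0 1 θ ≠ -1 := by
      have h1 : ∀ᵐ θ : ℝ, θ ≠ π := Measure.ae_ne volume π
      filter_upwards [h1] with θ hθ hm h2
      rw [Set.uIoc_of_le (by positivity)] at hm
      apply hθ
      have h3 := congrArg Complex.re h2
      simp only [circleMap, zero_add, ofReal_one, one_mul, Complex.exp_ofReal_mul_I_re,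
        neg_re, one_re] at h3
      rw [Real.cos_eq_neg_one_iff] at h3
      obtain ⟨k, hk⟩ := h3
      have hk0 : (k : ℝ) = 0 := by
        have h4 : (-1 : ℝ) < k := by
          by_contra h
          rw [not_lt] at h
          nlinarith [hm.1, Real.pi_pos]
        have h5 : (k : ℝ) < 1 := by
          by_contra h
          rw [not_lt] at h
          nlinarith [hm.2, Real.pi_pos]
        have h6 : -1 < k := by exact_mod_cast h4
        have h7 : k < 1 := by exact_mod_cast h5
        have : k = 0 := by omega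
        exact_mod_cast this
      rw [hk0] at hk
      linarith
    filter_upwards [hne] with θ hθ hm
    have h1 := hθ hm
    have h2 : Tendsto (fun r : ℝ => circleMap 0 r θ) (𝓝[<] 1) (𝓝 (circleMap 0 1 θ)) := by
      have : Continuous fun r : ℝ => circleMap 0 r θ := by
        unfold circleMap
        fun_prop
      exact (this.tendsto 1).mono_left nhdsWithin_le_nhds
    have h3 : ContinuousAt cay (circleMap 0 1 θ) := by
      refine (cay_differentiableAt ?_).continuousAt
      intro h
      apply h1
      linear_combination h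
    have h4 : (cay (circleMap 0 1 θ)).im ≤ 0 := by
      rw [cay_circleMap, ofReal_im]
    refine (hc _ h4).tendsto.comp (tendsto_nhdsWithin_iff.2 ⟨h3.tendsto.comp h2, ?_⟩)
    filter_upwards [hI] with r hr
    refine (cay_im_neg ?_).le
    simp only [norm_circleMap_zero, abs_of_pos hr.1, hr.2]

/-- sub-mean value property of the truncated logarithm -/
theorem nu_sub_mean {F : ℂ → ℂ} (hd : DifferentiableOn ℂ F {z | z.im < 0})
    (hc : ContinuousOn F {z | z.im ≤ 0}) {C : ℝ} (hb : ∀ z : ℂ, z.im ≤ 0 → ‖F z‖ ≤ C)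
    (h0 : F (-I) ≠ 0) {a : ℝ} (ha : 0 < a) :
    Real.log ‖F (-I)‖ ≤ ∫ t : ℝ, lc a (F t) ∂nu := by
  rw [nu_integral_circle (fun z => lc a (F z))]
  have hlim := tendsto_circleAverage_cay (h := fun z => lc a (F z))
    ((continuous_lc ha).comp_continuousOn hc) (fun z hz => norm_lc_le ha (hb z hz))
  refine ge_of_tendsto hlim ?_
  have hI : ∀ᶠ r : ℝ in 𝓝[<] 1, 0 < r ∧ r < 1 :=
    (eventually_nhdsWithin_of_eventually_nhds (lt_mem_nhds one_pos)).and
      (eventually_mem_nhdsWithin)
  filter_upwards [hI] with r hr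
  set g : ℂ → ℂ := fun u => F (cay u) with hg
  have hdg : DifferentiableOn ℂ g (ball 0 1) := by
    intro u hu
    rw [mem_ball_zero_iff] at hu
    have h1 : DifferentiableAt ℂ F (cay u) :=
      (hd (cay u) (cay_im_neg hu)).differentiableAt
        ((isOpen_lt Complex.continuous_im continuous_const).mem_nhds (cay_im_neg hu))
    exact (h1.comp u (cay_differentiableAt (one_add_ne hu))).differentiableWithinAt
  have hsub : closedBall (0 : ℂ) |r| ⊆ ball 0 1 := by
    rw [abs_of_pos hr.1]
    exact closedBall_subset_ball hr.2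
  have han : AnalyticOnNhd ℂ g (closedBall 0 |r|) :=
    (hdg.analyticOnNhd isOpen_ball).mono hsub
  have hg0 : g 0 = F (-I) := by simp only [hg, cay_zero]
  have h1 := jensen_le hr.1 han (by rw [hg0]; exact h0)
  rw [hg0] at h1
  have hs : sphere (0 : ℂ) |r| ⊆ closedBall 0 |r| := sphere_subset_closedBall
  have hm : MeromorphicOn g (sphere 0 |r|) := (han.mono hs).meromorphicOn
  have hci : CircleIntegrable (fun z => Real.log ‖g z‖) 0 r := hm.circleIntegrable_log_norm
  have hcont : ContinuousOn (fun z => lc a (g z)) (sphere 0 |r|) :=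
    (continuous_lc ha).comp_continuousOn ((han.mono hs).continuousOn)
  have hci2 : CircleIntegrable (fun z => lc a (g z)) 0 r := ContinuousOn.circleIntegrable' hcont
  have hcod : {z : ℂ | g z ≠ 0} ∈ codiscreteWithin (sphere (0 : ℂ) |r|) := by
    refine codiscreteWithin_mono (hs.trans hsub) ?_
    exact (hdg.analyticOnNhd isOpen_ball).preimage_zero_mem_codiscreteWithin
      (x := 0) (by rw [hg0]; exact h0) (by simp)
      ((convex_ball (0 : ℂ) 1).isConnected ⟨0, by simp⟩)
  have heq : (fun z => Real.log ‖g z‖) =ᶠ[codiscreteWithin (sphere (0 : ℂ) |r|)]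
      fun z => if g z = 0 then Real.log a else Real.log ‖g z‖ := by
    filter_upwards [hcod] with z hz
    rw [if_neg hz]
  rw [Real.circleAverage_congr_codiscreteWithin heq hr.1.ne'] at h1
  refine h1.trans (Real.circleAverage_mono (hci.congr_codiscreteWithin heq) hci2 fun z _ => ?_)
  split_ifs with hz
  · exact le_lc ha _
  · exact Real.log_le_log (norm_pos_iff.2 hz) (le_max_left _ _)

/-- boundary uniqueness in the lower half plane -/
theorem ae_not_lower {Ψ : ℂ → ℂ} (hd : DifferentiableOn ℂ Ψ {z | z.im < 0}) {C : ℝ}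
    (hb : ∀ z : ℂ, z.im < 0 → ‖Ψ z‖ ≤ C) (h0 : Ψ (-I) ≠ 0) (ε : ℕ → ℝ) (hε : ∀ n, 0 < ε n)
    (hε0 : Tendsto ε atTop (𝓝 0)) :
    ∀ᵐ t : ℝ ∂nu, ¬ Tendsto (fun n => Ψ (t - ε n * I)) atTop (𝓝 0) := by
  have hopen : IsOpen {z : ℂ | z.im < 0} := isOpen_lt Complex.continuous_im continuous_const
  have him : ∀ n (z : ℂ), z.im ≤ 0 → (z - ε n * I).im < 0 := by
    intro n z hz
    have : (z - ε n * I).im = z.im - ε n := by simp
    rw [this]
    linarith [hε n]
  have hcont : ∀ n, ContinuousOn (fun z : ℂ => Ψ (z - ε n * I)) {z | z.im ≤ 0} := by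
    intro n z hz
    have h1 : ContinuousAt Ψ (z - ε n * I) :=
      (hd.differentiableAt (hopen.mem_nhds (him n z hz))).continuousAt
    exact (h1.comp (f := fun z : ℂ => z - ε n * I) (by fun_prop)).continuousWithinAt
  have hdiff : ∀ n, DifferentiableOn ℂ (fun z : ℂ => Ψ (z - ε n * I)) {z | z.im < 0} := by
    intro n z hz
    have h1 : DifferentiableAt ℂ Ψ (z - ε n * I) :=
      hd.differentiableAt (hopen.mem_nhds (him n z (le_of_lt hz)))
    exact (h1.comp z (f := fun z : ℂ => z - ε n * I) (by fun_prop)).differentiableWithinAt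
  have hct : ∀ n, Continuous fun t : ℝ => Ψ (t - ε n * I) := by
    intro n
    have h1 := (hcont n).comp_continuous Complex.continuous_ofReal (fun t => by simp)
    exact h1
  set A : Set ℝ := {t : ℝ | Tendsto (fun n => Ψ (t - ε n * I)) atTop (𝓝 0)} with hA
  have hAm : MeasurableSet A := measurableSet_tendsto _ fun n => (hct n).measurable
  have key : ∀ a : ℝ, 0 < a → a ≤ 1 →
      Real.log ‖Ψ (-I)‖ ≤ (nu.real A) * Real.log a + Real.log (max C 1) := by
    intro a ha ha1
    have hB0 : 0 ≤ Real.log (max C 1) := Real.log_nonneg (le_max_right _ _)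
    have hbd : ∀ n (t : ℝ), lc a (Ψ (t - ε n * I)) ≤ Real.log (max C 1) := fun n t =>
      (lc_le ha (hb _ (him n t (by simp)))).trans
        (Real.log_le_log (lt_of_lt_of_le ha (le_max_right _ _)) (max_le_max le_rfl ha1))
    -- the comparison functions
    set φ : ℕ → ℝ → ℝ := fun n t => A.indicator (fun t => lc a (Ψ (t - ε n * I))) t +
      Real.log (max C 1) with hφ
    have hle : ∀ n t, lc a (Ψ ((t : ℝ) - ε n * I)) ≤ φ n t := by
      intro n t
      simp only [hφ]
      by_cases ht : t ∈ A
      · rw [Set.indicator_of_mem ht]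
        linarith
      · rw [Set.indicator_of_notMem ht, zero_add]
        exact hbd n t
    have hlcm : ∀ n, Measurable fun t : ℝ => lc a (Ψ (t - ε n * I)) := fun n =>
      ((continuous_lc ha).comp (hct n)).measurable
    have hnb : ∀ n (t : ℝ), ‖lc a (Ψ (t - ε n * I))‖ ≤
        |Real.log a| + |Real.log (max C a)| := fun n t =>
      norm_lc_le ha (hb _ (him n t (by simp)))
    have hint : ∀ n, Integrable (fun t : ℝ => lc a (Ψ (t - ε n * I))) nu := fun n =>
      Integrable.of_bound (hlcm n).aestronglyMeasurable _ (ae_of_all _ (hnb n))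
    have hφi : ∀ n, Integrable (φ n) nu := fun n =>
      ((hint n).indicator hAm).add (integrable_const _)
    have hlim : Tendsto (fun n => ∫ t, φ n t ∂nu) atTop
        (𝓝 (∫ t, (A.indicator (fun _ => Real.log a) t + Real.log (max C 1)) ∂nu)) := by
      refine tendsto_integral_of_dominated_convergence
        (fun _ => (|Real.log a| + |Real.log (max C a)|) + |Real.log (max C 1)|)
        (fun n => (hφi n).aestronglyMeasurable) (integrable_const _) ?_ ?_
      · intro n
        refine ae_of_all _ fun t => ?_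
        refine (norm_add_le _ _).trans (add_le_add ?_ le_rfl)
        exact (norm_indicator_le_norm_self _ _).trans (hnb n t)
      · refine ae_of_all _ fun t => ?_
        refine Tendsto.add ?_ tendsto_const_nhds
        by_cases ht : t ∈ A
        · simp only [Set.indicator_of_mem ht]
          have h1 : Tendsto (fun n => lc a (Ψ (t - ε n * I))) atTop (𝓝 (lc a 0)) :=
            ((continuous_lc ha).tendsto 0).comp ht
          have h2 : lc a 0 = Real.log a := by
            unfold lc
            rw [norm_zero, max_eq_right ha.le]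
          rwa [h2] at h1
        · simp only [Set.indicator_of_notMem ht]
          exact tendsto_const_nhds
    have hval : ∫ t, (A.indicator (fun _ => Real.log a) t + Real.log (max C 1)) ∂nu =
        (nu.real A) * Real.log a + Real.log (max C 1) := by
      rw [integral_add ((integrable_const _).indicator hAm) (integrable_const _),
        integral_indicator_const _ hAm, integral_const]
      simp
    rw [hval] at hlim
    have hl2 : Tendsto (fun n => Ψ (-I - ε n * I)) atTop (𝓝 (Ψ (-I))) := by
      have h1 : ContinuousAt Ψ (-I) :=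
        (hd.differentiableAt (hopen.mem_nhds (by simp))).continuousAt
      have h2 : Tendsto (fun n => -I - (ε n : ℂ) * I) atTop (𝓝 (-I)) := by
        have h3 : Tendsto (fun n => (ε n : ℂ)) atTop (𝓝 0) := by
          have h6 := (Complex.continuous_ofReal.tendsto 0).comp hε0
          rw [Complex.ofReal_zero] at h6
          exact h6
        have h4 := (h3.mul_const I).const_sub (-I)
        simpa using h4
      exact h1.tendsto.comp h2
    have hl3 : Tendsto (fun n => Real.log ‖Ψ (-I - ε n * I)‖) atTop (𝓝 (Real.log ‖Ψ (-I)‖)) :=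
      (Real.continuousAt_log (norm_pos_iff.2 h0).ne').tendsto.comp hl2.norm
    refine le_of_tendsto_of_tendsto hl3 hlim ?_
    filter_upwards [hl2.eventually_ne h0] with n hn
    have h5 := nu_sub_mean (F := fun z => Ψ (z - ε n * I)) (hdiff n) (hcont n)
      (fun z hz => hb _ (him n z hz)) hn ha
    exact h5.trans (integral_mono (hint n) (hφi n) (hle n))
  rw [ae_iff]
  simp only [not_not]
  by_contra hpos
  have hp : 0 < nu.real A := by
    rw [Measure.real, ENNReal.toReal_pos_iff]
    exact ⟨pos_iff_ne_zero.2 hpos, measure_lt_top _ _⟩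
  set p := nu.real A with hpdef
  set K := |Real.log ‖Ψ (-I)‖| + Real.log (max C 1) + 1 with hK
  have hK0 : 0 < K := by
    have h1 : 0 ≤ Real.log (max C 1) := Real.log_nonneg (le_max_right _ _)
    have h2 := abs_nonneg (Real.log ‖Ψ (-I)‖)
    linarith
  have h1 := key (Real.exp (-(K / p))) (Real.exp_pos _)
    (Real.exp_le_one_iff.2 (neg_nonpos.2 (div_pos hK0 hp).le))
  rw [Real.log_exp] at h1
  have h2 : p * -(K / p) = -K := by field_simp
  rw [h2] at h1
  have h3 := neg_abs_le (Real.log ‖Ψ (-I)‖)
  linarith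

/-- **boundary uniqueness**: a bounded analytic function in the upper half plane, not identically
zero, does not tend to zero along `E + i ε_n`, for almost every `E` -/
theorem ae_not_tendsto_zero {Φ : ℂ → ℂ} (hd : DifferentiableOn ℂ Φ {z | 0 < z.im}) {C : ℝ}
    (hb : ∀ z : ℂ, 0 < z.im → ‖Φ z‖ ≤ C) (h0 : ∃ z : ℂ, 0 < z.im ∧ Φ z ≠ 0)
    (ε : ℕ → ℝ) (hε : ∀ n, 0 < ε n) (hε0 : Tendsto ε atTop (𝓝 0)) :
    ∀ᵐ E : ℝ ∂volume, ¬ Tendsto (fun n => Φ (E + ε n * I)) atTop (𝓝 0) := by
  obtain ⟨z, hz, hz0⟩ := h0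
  obtain ⟨x0, hx0⟩ : ∃ x0 : ℝ, x0 = z.re := ⟨_, rfl⟩
  obtain ⟨y0, hy0⟩ : ∃ y0 : ℝ, y0 = z.im := ⟨_, rfl⟩
  have hzz : z = x0 + y0 * I := by rw [hx0, hy0, Complex.re_add_im]
  have hy : 0 < y0 := by rw [hy0]; exact hz
  have hyc : (y0 : ℂ) ≠ 0 := Complex.ofReal_ne_zero.2 hy.ne'
  have him : ∀ w : ℂ, w.im < 0 → 0 < ((x0 : ℂ) - y0 * w).im := by
    intro w hw
    simp only [sub_im, ofReal_im, im_ofReal_mul, zero_sub]
    nlinarith
  have hopen : IsOpen {z : ℂ | 0 < z.im} := isOpen_lt continuous_const Complex.continuous_im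
  have h1 := ae_not_lower (Ψ := fun w : ℂ => Φ ((x0 : ℂ) - y0 * w)) (C := C)
    (by
      intro w hw
      have h1 : DifferentiableAt ℂ Φ (x0 - y0 * w) :=
        hd.differentiableAt (hopen.mem_nhds (him w hw))
      exact (h1.comp w (f := fun w : ℂ => x0 - y0 * w) (by fun_prop)).differentiableWithinAt)
    (fun w hw => hb _ (him w hw))
    (by
      have : (x0 : ℂ) - y0 * (-I) = z := by rw [hzz]; ring
      simp only [this]
      exact hz0)
    (fun n => ε n / y0) (fun n => div_pos (hε n) hy) (by simpa using hε0.div_const y0)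
  have h2 : ∀ᵐ t : ℝ ∂volume,
      ¬ Tendsto (fun n => Φ (x0 - y0 * (t - (ε n / y0 : ℝ) * I))) atTop (𝓝 0) :=
    P365L.volume_ac_nu.ae_le h1
  have q1 : Measure.QuasiMeasurePreserving (fun E : ℝ => x0 - E) volume volume :=
    quasiMeasurePreserving_sub_left_of_right_invariant volume x0
  have q2 : Measure.QuasiMeasurePreserving (fun E : ℝ => E * y0⁻¹) volume volume := by
    refine ⟨by fun_prop, ?_⟩
    refine Measure.AbsolutelyContinuous.mk fun s hs h => ?_
    rw [Measure.map_apply (by fun_prop) hs, Real.volume_preimage_mul_right (inv_ne_zero hy.ne'), h,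
      mul_zero]
  have h3 := (q2.comp q1).ae h2
  filter_upwards [h3] with E hE hT
  apply hE
  refine hT.congr fun n => ?_
  congr 1
  simp only [Function.comp_apply]
  push_cast
  field_simp
  ring

end P365L.E913
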