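import Vale.Agent.P365.E913.Green
import Vale.Agent.P365.E913.Uniq

set_option linter.all false

/-!
# P365 T1, soft end: the nearest neighbour Green function does not vanish at the boundary
-/

namespace P365L.E913

open MeasureTheory Complex Filter Topology P365L.Inf
open scoped InnerProductSpace

variable {V : Site → ℝ}

theorem norm_apply_le (u : L2) (x : Site) : ‖u x‖ ≤ ‖u‖ :=
  lp.norm_apply_le_norm (by norm_num) u x

theorem res_tendsto (V : Site → ℝ) {w : ℂ} (hw : 0 < w.im) (φ : L2) (x : Site) :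
    Tendsto (fun z => (Res V z φ) x) (𝓝 w) (𝓝 ((Res V w φ) x)) := by
  rw [tendsto_iff_norm_sub_tendsto_zero]
  have h1 : Tendsto (fun z : ℂ => ‖z - w‖ * (‖Res V w φ‖ / z.im)) (𝓝 w) (𝓝 0) := by
    have h2 : Tendsto (fun z : ℂ => ‖z - w‖) (𝓝 w) (𝓝 0) := by
      have h3 : Continuous fun z : ℂ => ‖z - w‖ := by fun_prop
      have h4 := h3.tendsto w
      rwa [sub_self, norm_zero] at h4
    have h5 : Tendsto (fun z : ℂ => ‖Res V w φ‖ / z.im) (𝓝 w) (𝓝 (‖Res V w φ‖ / w.im)) :=
      tendsto_const_nhds.div (Complex.continuous_im.tendsto w) hw.ne'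
    have h6 := h2.mul h5
    rwa [zero_mul] at h6
  refine tendsto_of_tendsto_of_tendsto_of_le_of_le' tendsto_const_nhds h1
    (Eventually.of_forall fun _ => norm_nonneg _) ?_
  filter_upwards [(isOpen_lt continuous_const Complex.continuous_im).mem_nhds hw] with z hz
  have hz' : 0 < z.im := hz
  have h7 := res_identity (V := V) hz' hw φ
  have h8 : (Res V z φ) x - (Res V w φ) x = (z - w) * (Res V z (Res V w φ)) x := by
    have h9 := congrArg (fun u : L2 => u x) h7
    simp only [lp.coeFn_add, Pi.add_apply, lp.coeFn_smul, Pi.smul_apply, smul_eq_mul] at h9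
    rw [h9]
    ring
  rw [h8, norm_mul]
  exact mul_le_mul_of_nonneg_left ((norm_apply_le _ _).trans (res_norm_le hz' _)) (norm_nonneg _)

theorem hasDerivAt_res (V : Site → ℝ) {w : ℂ} (hw : 0 < w.im) (ψ : L2) (x : Site) :
    HasDerivAt (fun z => (Res V z ψ) x) ((Res V w (Res V w ψ)) x) w := by
  rw [hasDerivAt_iff_tendsto_slope]
  have h1 := (res_tendsto V hw (Res V w ψ) x).mono_left (nhdsWithin_le_nhds (s := {w}ᶜ))
  refine h1.congr' ?_
  have h2 : ∀ᶠ z in 𝓝[≠] w, 0 < z.im :=
    eventually_nhdsWithin_of_eventually_nhds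
      ((isOpen_lt continuous_const Complex.continuous_im).mem_nhds hw)
  filter_upwards [h2, self_mem_nhdsWithin] with z hz hne
  have hne' : z - w ≠ 0 := sub_ne_zero.2 hne
  have h7 := res_identity (V := V) hz hw ψ
  have h9 := congrArg (fun u : L2 => u x) h7
  simp only [lp.coeFn_add, Pi.add_apply, lp.coeFn_smul, Pi.smul_apply, smul_eq_mul] at h9
  rw [slope_def_field, h9, add_sub_cancel_left, mul_div_cancel_left₀ _ hne']

theorem differentiableOn_gg (V : Site → ℝ) (x y : Site) :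
    DifferentiableOn ℂ (fun z => gg V z x y) {z | 0 < z.im} := fun z hz =>
  (hasDerivAt_res V hz (dl y) x).differentiableAt.differentiableWithinAt

theorem norm_dl (y : Site) : ‖dl y‖ = 1 := by
  have h : ‖dl y‖ ^ 2 = 1 := by
    have h1 := L2_hasSum_sq (dl y)
    have h2 : (fun x : Site => ‖(dl y) x‖ ^ 2) = fun x => if x = y then (1 : ℝ) else 0 := by
      funext x
      rw [dl_apply]
      split_ifs <;> simp
    rw [h2] at h1
    exact h1.unique (hasSum_ite_eq y 1)
  have h3 := norm_nonneg (dl y)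
  nlinarith

theorem adj_cases {x y : Site} (h : adj x y = 1) :
    y = (x.1 + 1, x.2) ∨ y = (x.1 - 1, x.2) ∨ y = (x.1, x.2 + 1) ∨ y = (x.1, x.2 - 1) := by
  unfold adj at h
  split_ifs at h with h1
  · obtain ⟨a, b⟩ := x
    obtain ⟨c, d⟩ := y
    simp only [Prod.mk.injEq] at h1 ⊢
    omega
  · exact absurd h (by norm_num)

/-- the nearest neighbour Green function does not vanish high in the upper half plane -/
theorem gg_ne_zero_high (V : Site → ℝ) {x y : Site} (hxy : adj x y = 1) :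
    ∃ z : ℂ, 0 < z.im ∧ gg V z x y ≠ 0 := by
  set η : ℝ := 17 + 12 * |V y| with hη
  have hV0 := abs_nonneg (V y)
  have hη1 : 17 ≤ η := by linarith
  have hη0 : 0 < η := by linarith
  set z : ℂ := η * I with hz
  have hzi : z.im = η := by simp [hz]
  have hz0 : 0 < z.im := by rw [hzi]; exact hη0
  refine ⟨z, hz0, fun h0 => ?_⟩
  set u := Res V z (dl y) with hu
  have hux : u x = 0 := h0
  have hres : ∀ w, hop (fun v => u v) w + ((V w : ℂ) - z) * u w = dl y w :=
    res_spec V hz0 (dl y)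
  have hun : ‖u‖ ≤ 1 / η := by
    have := res_norm_le (V := V) hz0 (dl y)
    rwa [norm_dl, hzi] at this
  have hhop : ∀ w, ‖hop (fun v => u v) w‖ ≤ 4 / η := by
    intro w
    unfold hop
    have h1 := (norm_apply_le u (w.1 + 1, w.2)).trans hun
    have h2 := (norm_apply_le u (w.1 - 1, w.2)).trans hun
    have h3 := (norm_apply_le u (w.1, w.2 + 1)).trans hun
    have h4 := (norm_apply_le u (w.1, w.2 - 1)).trans hun
    have h5 : (4 : ℝ) / η = 1 / η + 1 / η + 1 / η + 1 / η := by ring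
    rw [h5]
    refine (norm_add_le _ _).trans (add_le_add ?_ h4)
    refine (norm_add_le _ _).trans (add_le_add ?_ h3)
    exact (norm_add_le _ _).trans (add_le_add h1 h2)
  have hge : ∀ w, η ≤ ‖(V w : ℂ) - z‖ := by
    intro w
    have h := Complex.abs_im_le_norm ((V w : ℂ) - z)
    rw [sub_im, ofReal_im, zero_sub, abs_neg, hzi, abs_of_pos hη0] at h
    exact h
  have hw : ∀ w, w ≠ y → ‖u w‖ ≤ 4 / η ^ 2 := by
    intro w hwy
    have h1 := hres w
    rw [dl_apply, if_neg hwy] at h1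
    have h2 : ((V w : ℂ) - z) * u w = -hop (fun v => u v) w := by linear_combination h1
    have h3 : ‖(V w : ℂ) - z‖ * ‖u w‖ ≤ 4 / η := by
      rw [← norm_mul, h2, norm_neg]
      exact hhop w
    have h4 : η * ‖u w‖ ≤ 4 / η := (mul_le_mul_of_nonneg_right (hge w) (norm_nonneg _)).trans h3
    rw [le_div_iff₀ (by positivity)]
    rw [le_div_iff₀ hη0] at h4
    linarith [h4, sq η]
  have hy1 : 1 - 4 / η ≤ (|V y| + η) * ‖u y‖ := by
    have h1 := hres y
    rw [dl_apply, if_pos rfl] at h1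
    have h2 : ‖(1 : ℂ)‖ ≤ ‖hop (fun v => u v) y‖ + ‖(V y : ℂ) - z‖ * ‖u y‖ := by
      rw [← h1, ← norm_mul]
      exact norm_add_le _ _
    have h3 : ‖(V y : ℂ) - z‖ ≤ |V y| + η := by
      refine (norm_sub_le _ _).trans (add_le_add ?_ ?_)
      · rw [Complex.norm_real, Real.norm_eq_abs]
      · rw [hz, norm_mul, Complex.norm_I, mul_one, Complex.norm_real, Real.norm_of_nonneg hη0.le]
    rw [norm_one] at h2
    have h4 := mul_le_mul_of_nonneg_right h3 (norm_nonneg (u y))
    linarith [hhop y]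
  have hx1 : hop (fun v => u v) x = 0 := by
    have h1 := hres x
    have hne : x ≠ y := by
      rintro rfl
      unfold adj at hxy
      simp at hxy
    rw [dl_apply, if_neg hne, hux, mul_zero, add_zero] at h1
    exact h1
  have hy2 : ‖u y‖ ≤ 12 / η ^ 2 := by
    unfold hop at hx1
    have h12 : (12 : ℝ) / η ^ 2 = 4 / η ^ 2 + 4 / η ^ 2 + 4 / η ^ 2 := by ring
    have gen : ∀ a b c : ℂ, u y = -(a + b + c) → ‖a‖ ≤ 4 / η ^ 2 → ‖b‖ ≤ 4 / η ^ 2 →
        ‖c‖ ≤ 4 / η ^ 2 → ‖u y‖ ≤ 12 / η ^ 2 := by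
      intro a b c h ha hb hc
      rw [h, norm_neg, h12]
      refine (norm_add_le _ _).trans (add_le_add ?_ hc)
      exact (norm_add_le _ _).trans (add_le_add ha hb)
    have hn : ∀ w : Site, w ≠ y → ‖u w‖ ≤ 4 / η ^ 2 := hw
    rcases adj_cases hxy with h | h | h | h
    · refine gen (u (x.1 - 1, x.2)) (u (x.1, x.2 + 1)) (u (x.1, x.2 - 1)) ?_ (hn _ ?_) (hn _ ?_)
        (hn _ ?_)
      · rw [h]; linear_combination hx1
      all_goals rw [h]; simp only [ne_eq, Prod.mk.injEq]; omega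
    · refine gen (u (x.1 + 1, x.2)) (u (x.1, x.2 + 1)) (u (x.1, x.2 - 1)) ?_ (hn _ ?_) (hn _ ?_)
        (hn _ ?_)
      · rw [h]; linear_combination hx1
      all_goals rw [h]; simp only [ne_eq, Prod.mk.injEq]; omega
    · refine gen (u (x.1 + 1, x.2)) (u (x.1 - 1, x.2)) (u (x.1, x.2 - 1)) ?_ (hn _ ?_) (hn _ ?_)
        (hn _ ?_)
      · rw [h]; linear_combination hx1
      all_goals rw [h]; simp only [ne_eq, Prod.mk.injEq]; omega
    · refine gen (u (x.1 + 1, x.2)) (u (x.1 - 1, x.2)) (u (x.1, x.2 + 1)) ?_ (hn _ ?_) (hn _ ?_)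
        (hn _ ?_)
      · rw [h]; linear_combination hx1
      all_goals rw [h]; simp only [ne_eq, Prod.mk.injEq]; omega
  have hfin : 1 - 4 / η ≤ (|V y| + η) * (12 / η ^ 2) :=
    hy1.trans (mul_le_mul_of_nonneg_left hy2 (by linarith))
  have h20 : η ^ 2 - 4 * η ≤ 12 * (|V y| + η) := by
    have h21 := mul_le_mul_of_nonneg_right hfin (sq_nonneg η)
    have h22 : (1 - 4 / η) * η ^ 2 = η ^ 2 - 4 * η := by field_simp
    have h23 : (|V y| + η) * (12 / η ^ 2) * η ^ 2 = 12 * (|V y| + η) := by field_simp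
    rwa [h22, h23] at h21
  have h24 : η ^ 2 = 17 * η + 12 * |V y| * η := by
    rw [sq]
    nth_rewrite 1 [hη]
    ring
  nlinarith

/-- for almost every energy the nearest neighbour Green function does not tend to zero -/
theorem ae_gg_not_tendsto (V : Site → ℝ) {x y : Site} (hxy : adj x y = 1)
    (ε : ℕ → ℝ) (hε : ∀ n, 0 < ε n) (hε0 : Tendsto ε atTop (𝓝 0)) :
    ∀ᵐ E : ℝ ∂volume, ¬ Tendsto (fun n => gg V (E + ε n * I) x y) atTop (𝓝 0) := by
  set cc : ℂ → ℂ := fun z => gg V z x x + gg V z y y + 2 * gg V z x y with hcc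
  have hI : ∀ a : ℂ, 0 ≤ a.im → 1 ≤ ‖I + a‖ := by
    intro a ha
    have h := Complex.abs_im_le_norm (I + a)
    rw [add_im, I_im, abs_of_nonneg (by linarith)] at h
    linarith
  have hccim : ∀ z : ℂ, 0 < z.im → 0 ≤ (cc z).im := by
    intro z hz
    have h1 := im_sq_le (V := V) hz x y
    have h2 := gg_im_pos (V := V) hz x
    have h3 := gg_im_pos (V := V) hz y
    have h4 : (cc z).im = (gg V z x x).im + (gg V z y y).im + 2 * (gg V z x y).im := by
      simp [hcc]
    rw [h4]
    by_contra hneg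
    rw [not_le] at hneg
    nlinarith [sq_nonneg ((gg V z x x).im - (gg V z y y).im)]
  have hA : ∀ z : ℂ, 0 < z.im → 1 ≤ ‖I + gg V z x x‖ := fun z hz => hI _ (gg_im_pos hz x).le
  have hB : ∀ z : ℂ, 0 < z.im → 1 ≤ ‖I + gg V z y y‖ := fun z hz => hI _ (gg_im_pos hz y).le
  have hC : ∀ z : ℂ, 0 < z.im → 1 ≤ ‖I + cc z‖ := fun z hz => hI _ (hccim z hz)
  have ne : ∀ a : ℂ, 1 ≤ ‖a‖ → a ≠ 0 := by
    intro a ha h
    rw [h, norm_zero] at ha
    linarith
  set Φ : ℂ → ℂ := fun z => gg V z x y / ((I + gg V z x x) * (I + gg V z y y) * (I + cc z)) with hΦ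
  have hcd : DifferentiableOn ℂ cc {z | 0 < z.im} :=
    ((differentiableOn_gg V x x).add (differentiableOn_gg V y y)).add
      ((differentiableOn_gg V x y).const_mul 2)
  have hd : DifferentiableOn ℂ Φ {z | 0 < z.im} := by
    refine (differentiableOn_gg V x y).div ?_ ?_
    · exact (((differentiableOn_gg V x x).const_add I).mul
        ((differentiableOn_gg V y y).const_add I)).mul (hcd.const_add I)
    · intro z hz
      exact mul_ne_zero (mul_ne_zero (ne _ (hA z hz)) (ne _ (hB z hz))) (ne _ (hC z hz))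
  have hb : ∀ z : ℂ, 0 < z.im → ‖Φ z‖ ≤ 2 := by
    intro z hz
    have a1 := hA z hz
    have b1 := hB z hz
    have c1 := hC z hz
    simp only [hΦ]
    rw [norm_div, norm_mul, norm_mul]
    have h1 : gg V z x y = ((I + cc z) - (I + gg V z x x) - (I + gg V z y y) + I) / 2 := by
      simp only [hcc]
      ring
    have h2 : ‖gg V z x y‖ ≤ (‖I + cc z‖ + ‖I + gg V z x x‖ + ‖I + gg V z y y‖ + 1) / 2 := by
      rw [h1, norm_div, Complex.norm_ofNat]
      refine div_le_div_of_nonneg_right ?_ (by norm_num)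
      refine (norm_add_le _ _).trans (add_le_add ?_ (by rw [Complex.norm_I]))
      refine (norm_sub_le _ _).trans (add_le_add ?_ le_rfl)
      exact norm_sub_le _ _
    generalize ‖I + gg V z x x‖ = a at *
    generalize ‖I + gg V z y y‖ = b at *
    generalize ‖I + cc z‖ = c at *
    rw [div_le_iff₀ (by positivity)]
    have h3 : c + a + b + 1 ≤ 4 * (a * b * c) := by
      have hab : 1 ≤ a * b := by nlinarith
      have h4 : c ≤ a * b * c := by nlinarith
      have h5 : a ≤ a * b * c := by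
        have : 1 ≤ b * c := by nlinarith
        nlinarith
      have h6 : b ≤ a * b * c := by
        have : 1 ≤ a * c := by nlinarith
        nlinarith
      have h7 : 1 ≤ a * b * c := by nlinarith
      linarith
    linarith
  have h0 : ∃ z : ℂ, 0 < z.im ∧ Φ z ≠ 0 := by
    obtain ⟨z, hz, hne⟩ := gg_ne_zero_high V hxy
    refine ⟨z, hz, div_ne_zero hne ?_⟩
    exact mul_ne_zero (mul_ne_zero (ne _ (hA z hz)) (ne _ (hB z hz))) (ne _ (hC z hz))
  filter_upwards [ae_not_tendsto_zero hd hb h0 ε hε hε0] with E hE hT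
  apply hE
  have him : ∀ n, 0 < ((E : ℂ) + ε n * I).im := fun n => by simpa using hε n
  rw [tendsto_zero_iff_norm_tendsto_zero] at hT ⊢
  refine tendsto_of_tendsto_of_tendsto_of_le_of_le tendsto_const_nhds hT
    (fun _ => norm_nonneg _) fun n => ?_
  simp only [hΦ]
  rw [norm_div, norm_mul, norm_mul]
  refine div_le_self (norm_nonneg _) ?_
  have a1 := hA _ (him n)
  have b1 := hB _ (him n)
  have c1 := hC _ (him n)
  have hab : 1 ≤ ‖I + gg V (E + ε n * I) x x‖ * ‖I + gg V (E + ε n * I) y y‖ := by nlinarith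
  nlinarith

end P365L.E913
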