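import Vale.Agent.P365.E913.All
import Vale.Agent.P365.E913.UniqG
import Vale.Agent.P365.H755.Leb

set_option linter.all false

/-!
# P365 T1, soft end: almost every energy is a Lebesgue point
-/

namespace P365L.E913

open MeasureTheory ProbabilityTheory Complex Filter Topology P365L.Inf P365E
open scoped ENNReal InnerProductSpace

variable {V : Site → ℝ}

/-- the derivative of the Borel transform -/
theorem hasDerivAt_transform (μ : Measure ℝ) [IsFiniteMeasure μ] {w : ℂ} (hw : 0 < w.im) :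
    HasDerivAt (fun z : ℂ => ∫ t : ℝ, ((t : ℂ) - z)⁻¹ ∂μ) (∫ t : ℝ, (((t : ℂ) - w) ^ 2)⁻¹ ∂μ) w := by
  have hball : ∀ z ∈ Metric.ball w (w.im / 2), w.im / 2 ≤ z.im := by
    intro z hz
    have h1 : |(z - w).im| ≤ ‖z - w‖ := Complex.abs_im_le_norm _
    rw [Metric.mem_ball, dist_eq_norm] at hz
    rw [sub_im] at h1
    have h2 := abs_lt.1 (lt_of_le_of_lt h1 hz)
    linarith [h2.1]
  have hge : ∀ z : ℂ, w.im / 2 ≤ z.im → ∀ t : ℝ, w.im / 2 ≤ ‖(t : ℂ) - z‖ := by
    intro z hz t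
    exact hz.trans (P365L.cau_im_le (by linarith : 0 < z.im) t)
  have hne : ∀ z : ℂ, w.im / 2 ≤ z.im → ∀ t : ℝ, (t : ℂ) - z ≠ 0 := by
    intro z hz t
    exact norm_pos_iff.1 (lt_of_lt_of_le (by linarith) (hge z hz t))
  refine (hasDerivAt_integral_of_dominated_loc_of_deriv_le (μ := μ)
    (F := fun (z : ℂ) (t : ℝ) => ((t : ℂ) - z)⁻¹) (F' := fun (z : ℂ) (t : ℝ) => (((t : ℂ) - z) ^ 2)⁻¹)
    (bound := fun _ => ((w.im / 2) ^ 2)⁻¹) (Metric.ball_mem_nhds w (by linarith : 0 < w.im / 2)) ?_ ?_ ?_ ?_ ?_ ?_).2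
  · exact Eventually.of_forall fun z => (by fun_prop : Measurable fun t : ℝ => ((t : ℂ) - z)⁻¹).aestronglyMeasurable
  · refine Integrable.of_bound (C := (w.im / 2)⁻¹)
      (by fun_prop : Measurable fun t : ℝ => ((t : ℂ) - w)⁻¹).aestronglyMeasurable
      (ae_of_all _ fun t => ?_)
    rw [norm_inv]
    exact inv_anti₀ (by linarith) (hge w (by linarith) t)
  · exact (by fun_prop : Measurable fun t : ℝ => (((t : ℂ) - w) ^ 2)⁻¹).aestronglyMeasurable
  · refine ae_of_all _ fun t z hz => ?_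
    rw [norm_inv, norm_pow]
    exact inv_anti₀ (by positivity) (pow_le_pow_left₀ (by linarith) (hge z (hball z hz) t) 2)
  · exact integrable_const _
  · refine ae_of_all _ fun t z hz => ?_
    have h1 : HasDerivAt (fun z : ℂ => (t : ℂ) - z) (-1) z := by
      simpa using (hasDerivAt_id z).const_sub (t : ℂ)
    have h2 := h1.inv (hne z (hball z hz) t)
    rw [neg_neg, one_div] at h2
    exact h2

theorem gg_eq_transform {μ : Measure ℝ} {x : Site} (hμ : IsSpectralMeasure V (dl x) μ) {z : ℂ}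
    (hz : 0 < z.im) : gg V z x x = ∫ t : ℝ, ((t : ℂ) - z)⁻¹ ∂μ := by
  obtain ⟨u, hu, hu2⟩ := hμ.transform z hz
  rw [← hu2, inner_dl]
  show (Res V z (dl x)) x = u x
  rw [res_unique hz hu]

theorem resres_eq {μ : Measure ℝ} {x : Site} (hμ : IsSpectralMeasure V (dl x) μ) {z : ℂ}
    (hz : 0 < z.im) : (Res V z (Res V z (dl x))) x = ∫ t : ℝ, (((t : ℂ) - z) ^ 2)⁻¹ ∂μ := by
  have := hμ.finite
  have h1 := hasDerivAt_transform μ hz
  have h2 := hasDerivAt_res V hz (dl x) x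
  refine h2.unique (h1.congr_of_eventuallyEq ?_)
  filter_upwards [(isOpen_lt continuous_const Complex.continuous_im).mem_nhds hz] with w hw
  exact gg_eq_transform hμ hw

theorem gg_eq_BT {μ : Measure ℝ} {x : Site} (hμ : IsSpectralMeasure V (dl x) μ) (E : ℝ) (n : ℕ) :
    gg V (zz E n) x x = BT μ E ((1 / 2 : ℝ) ^ n) :=
  gg_eq_transform hμ (zz_pos E n)

theorem tendsto_half : Tendsto (fun n : ℕ => (1 / 2 : ℝ) ^ n) atTop (𝓝[>] 0) := by
  refine tendsto_nhdsWithin_iff.2 ⟨tendsto_pow_atTop_nhds_zero_of_lt_one (by norm_num)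
    (by norm_num), Eventually.of_forall fun n => ?_⟩
  show (0 : ℝ) < (1 / 2) ^ n
  positivity

/-- almost every energy is a Lebesgue point -/
theorem conv_ae' (V : Site → ℝ) : ∀ᵐ E : ℝ, Conv E V := by
  have hsp : ∀ x : Site, ∃ μ : Measure ℝ, IsSpectralMeasure V (dl x) μ := fun x => by
    obtain ⟨μ, hμ, -⟩ := exists_spectralMeasure V (dl x)
    exact ⟨μ, hμ⟩
  choose μ hμ using hsp
  have hall : ∀ᵐ E : ℝ, ∀ x : Site,
      Tendsto (fun ε => (BT (μ x) E ε).im) (𝓝[>] 0) (𝓝 (Real.pi * dens (μ x) E)) ∧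
      Tendsto (fun ε : ℝ => (ε : ℂ) * ∫ t : ℝ, (((t : ℂ) - (E + ε * I)) ^ 2)⁻¹ ∂(μ x))
        (𝓝[>] 0) (𝓝 0) ∧
      Tendsto (fun ε : ℝ => BT (μ x) E ε - BT (μ x) E (1 / 2 * ε)) (𝓝[>] 0) (𝓝 0) := by
    rw [ae_all_iff]
    intro x
    have := (hμ x).finite
    filter_upwards [ae_tendsto_im_BT (μ x), ae_tendsto_sq (μ x), ae_tendsto_BT_sub (μ x)]
      with E h1 h2 h3
    exact ⟨h1, h2, h3 (1 / 2) (by norm_num)⟩
  filter_upwards [hall] with E hE x
  obtain ⟨h1, h2, h3⟩ := hE x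
  refine ⟨⟨_, (h1.comp tendsto_half).congr fun n => ?_⟩, (h2.comp tendsto_half).congr fun n => ?_,
    ?_⟩
  · rw [gg_eq_BT (hμ x)]
    rfl
  · rw [resres_eq (hμ x) (zz_pos E n), zz_im]
    rfl
  · have h4 := (h3.comp tendsto_half).neg
    rw [neg_zero] at h4
    refine h4.congr fun n => ?_
    rw [gg_eq_BT (hμ x), gg_eq_BT (hμ x)]
    simp only [Function.comp_apply]
    have h5 : (1 / 2 : ℝ) * (1 / 2) ^ n = (1 / 2) ^ (n + 1) := by
      rw [pow_succ]; ring
    rw [h5]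
    ring

theorem conv_ae {V : Site → ℝ} {L : ℝ} (hV : ∀ x, |V x| ≤ L) : ∀ᵐ E : ℝ, Conv E V :=
  conv_ae' V

theorem measurable_resres_prod (n : ℕ) (x : Site) :
    Measurable fun p : (Site → ℝ) × ℝ => (Res p.1 (zz p.2 n) (Res p.1 (zz p.2 n) (dl x))) x := by
  refine measurable_of_tendsto_metrizable' (atTop : Filter (Finset Site))
    (f := fun s p => ∑ w ∈ s, gg p.1 (zz p.2 n) x w ^ 2) (fun s => ?_) ?_
  · exact Finset.measurable_sum _ fun w _ => (measurable_gg_prod n x w).pow_const 2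
  · rw [tendsto_pi_nhds]
    intro p
    have h1 := (summable_gg_sq (V := p.1) (zz_pos p.2 n) x).hasSum
    rw [sum_sq (zz_pos p.2 n)] at h1
    exact h1

theorem measurableSet_conv : MeasurableSet {p : (Site → ℝ) × ℝ | Conv p.2 p.1} := by
  unfold Conv
  simp only [Set.setOf_forall]
  refine MeasurableSet.iInter fun x => ?_
  refine MeasurableSet.inter ?_ (MeasurableSet.inter ?_ ?_)
  · exact measurableSet_exists_tendsto fun n =>
      Complex.measurable_im.comp (measurable_gg_prod n x x)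
  · refine measurableSet_tendsto _ fun n => ?_
    refine Measurable.mul ?_ (measurable_resres_prod n x)
    simp only [zz_im]
    exact measurable_const
  · exact measurableSet_tendsto _ fun n =>
      (measurable_gg_prod (n + 1) x x).sub (measurable_gg_prod n x x)

/-- for almost every energy, almost every potential has the Lebesgue point property -/
theorem conv_ae_prod' (P : Measure (Site → ℝ)) [SFinite P] : ∀ᵐ E : ℝ, ∀ᵐ V ∂P, Conv E V := by
  have h1 : ∀ᵐ V ∂P, ∀ᵐ E : ℝ ∂volume, Conv E V := ae_of_all _ fun V => conv_ae' V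
  exact (Measure.ae_ae_comm (μ := P) (ν := (volume : Measure ℝ))
    (p := fun V E => Conv E V) measurableSet_conv).1 h1

theorem conv_ae_prod {P : Measure (Site → ℝ)} [IsProbabilityMeasure P] {L : ℝ}
    (hP : ∀ᵐ V ∂P, ∀ x, |V x| ≤ L) : ∀ᵐ E : ℝ, ∀ᵐ V ∂P, Conv E V :=
  conv_ae_prod' P

/-- for almost every energy, almost every potential: no nearest neighbour Green function vanishes
at the boundary -/
theorem ae_gg_not_tendsto_zz (V : Site → ℝ) {x y : Site} (hxy : adj x y = 1) :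
    ∀ᵐ E : ℝ ∂volume, ¬ Tendsto (fun n => gg V (zz E n) x y) atTop (𝓝 0) :=
  ae_gg_not_tendsto V hxy (fun n => (1 / 2 : ℝ) ^ n) (fun n => by positivity)
    (tendsto_half.mono_right nhdsWithin_le_nhds)

theorem measurableSet_gg_tendsto (x y : Site) :
    MeasurableSet {p : (Site → ℝ) × ℝ | Tendsto (fun n => gg p.1 (zz p.2 n) x y) atTop (𝓝 0)} :=
  measurableSet_tendsto _ fun n => measurable_gg_prod n x y

theorem gg_not_tendsto_prod (P : Measure (Site → ℝ)) [SFinite P] {x y : Site}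
    (hxy : adj x y = 1) :
    ∀ᵐ E : ℝ, ∀ᵐ V ∂P, ¬ Tendsto (fun n => gg V (zz E n) x y) atTop (𝓝 0) := by
  have h1 : ∀ᵐ V ∂P, ∀ᵐ E : ℝ ∂volume, ¬ Tendsto (fun n => gg V (zz E n) x y) atTop (𝓝 0) :=
    ae_of_all _ fun V => ae_gg_not_tendsto_zz V hxy
  exact (Measure.ae_ae_comm (μ := P) (ν := (volume : Measure ℝ))
    (p := fun V E => ¬ Tendsto (fun n => gg V (zz E n) x y) atTop (𝓝 0))
    (measurableSet_gg_tendsto x y).compl).1 h1

end P365L.E913
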