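import Vale.Agent.P365.E913.Green

set_option linter.all false

/-!
# P365 T1, soft end: deterministic one-site inequalities
-/

namespace P365L.E913

open MeasureTheory ProbabilityTheory Complex Filter Topology P365L.Inf
open scoped ENNReal InnerProductSpace

variable {V : Site → ℝ} {z : ℂ}

theorem key_ineq (g q : ℂ) (h : ℝ) :
    ‖g‖ ^ 2 * q.im ^ 2 * h ^ 2 ≤
      2 * ((g * (starRingEnd ℂ) q).im ^ 2 * ‖q + h‖ ^ 2 +
        (g * (starRingEnd ℂ) (q + h)).im ^ 2 * ‖q‖ ^ 2) := by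
  have key : 2 * ((g * (starRingEnd ℂ) q).im ^ 2 * ‖q + h‖ ^ 2 +
        (g * (starRingEnd ℂ) (q + h)).im ^ 2 * ‖q‖ ^ 2) - ‖g‖ ^ 2 * q.im ^ 2 * h ^ 2 =
      (((g * (starRingEnd ℂ) q).im * (q.re + h) + (g * (starRingEnd ℂ) (q + h)).im * q.re) ^ 2 +
        ((g * (starRingEnd ℂ) q).im * q.im + (g * (starRingEnd ℂ) (q + h)).im * q.im) ^ 2) := by
    simp only [← Complex.normSq_eq_norm_sq, Complex.normSq_apply, mul_im, mul_re, add_re, add_im,
      ofReal_re, ofReal_im, map_add, conj_re, conj_im, conj_ofReal]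
    ring
  have h2 := sq_nonneg ((g * (starRingEnd ℂ) q).im * (q.re + h) +
    (g * (starRingEnd ℂ) (q + h)).im * q.re)
  have h3 := sq_nonneg ((g * (starRingEnd ℂ) q).im * q.im + (g * (starRingEnd ℂ) (q + h)).im * q.im)
  linarith

/-- abstract form of the two-point inequality -/
theorem two_point_aux {b d b' d' : ℂ} {h mx mx' : ℝ} (hd : 0 < d.im) (hd' : 0 < d'.im)
    (e1 : d'⁻¹ = d⁻¹ + h) (e2 : b' * d'⁻¹ = b * d⁻¹) (h1 : b.im ^ 2 ≤ mx * d.im)
    (h2 : b'.im ^ 2 ≤ mx' * d'.im) :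
    ‖b‖ ^ 2 * d'.im * h ^ 2 ≤ 2 * (mx + mx') := by
  have hd0 : d ≠ 0 := by rintro rfl; simp at hd
  have hd0' : d' ≠ 0 := by rintro rfl; simp at hd'
  set q := d⁻¹ with hq
  have hq' : d'⁻¹ = q + h := e1
  set g := b * q with hg
  have hq0 : q ≠ 0 := inv_ne_zero hd0
  have hqh0 : q + h ≠ 0 := by rw [← hq']; exact inv_ne_zero hd0'
  have hnq : 0 < ‖q‖ := norm_pos_iff.2 hq0
  have hnq' : 0 < ‖q + h‖ := norm_pos_iff.2 hqh0
  have hdq : d = q⁻¹ := by rw [hq, inv_inv]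
  have hdq' : d' = (q + h)⁻¹ := by rw [← hq', inv_inv]
  have i1 : d.im = -q.im / ‖q‖ ^ 2 := by
    rw [hdq, Complex.inv_im, Complex.normSq_eq_norm_sq]
  have i2 : d'.im = -q.im / ‖q + h‖ ^ 2 := by
    rw [hdq', Complex.inv_im, Complex.normSq_eq_norm_sq]
    simp
  have hqi : q.im < 0 := by
    by_contra hc
    have : d.im ≤ 0 := by
      rw [i1]
      apply div_nonpos_of_nonpos_of_nonneg <;> [linarith; positivity]
    linarith
  have j1 : (g * (starRingEnd ℂ) q).im = b.im * ‖q‖ ^ 2 := by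
    rw [hg, mul_assoc, Complex.mul_conj, Complex.normSq_eq_norm_sq, Complex.im_mul_ofReal]
  have j2 : (g * (starRingEnd ℂ) (q + h)).im = b'.im * ‖q + h‖ ^ 2 := by
    have : g = b' * (q + h) := by rw [← e2, hq']
    rw [this, mul_assoc, Complex.mul_conj, Complex.normSq_eq_norm_sq, Complex.im_mul_ofReal]
  have hk := key_ineq g q h
  rw [j1, j2] at hk
  have hgn : ‖g‖ ^ 2 = ‖b‖ ^ 2 * ‖q‖ ^ 2 := by rw [hg, norm_mul, mul_pow]
  rw [hgn] at hk
  have k1 : b.im ^ 2 * ‖q‖ ^ 2 ≤ mx * (-q.im) := by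
    have := mul_le_mul_of_nonneg_right h1 (sq_nonneg ‖q‖)
    rw [i1] at this
    have e : mx * (-q.im / ‖q‖ ^ 2) * ‖q‖ ^ 2 = mx * (-q.im) := by field_simp
    rwa [e] at this
  have k2 : b'.im ^ 2 * ‖q + h‖ ^ 2 ≤ mx' * (-q.im) := by
    have := mul_le_mul_of_nonneg_right h2 (sq_nonneg ‖q + h‖)
    rw [i2] at this
    have e : mx' * (-q.im / ‖q + h‖ ^ 2) * ‖q + h‖ ^ 2 = mx' * (-q.im) := by field_simp
    rwa [e] at this
  have k3 : ‖b‖ ^ 2 * ‖q‖ ^ 2 * q.im ^ 2 * h ^ 2 ≤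
      2 * ((mx + mx') * (-q.im) * (‖q‖ ^ 2 * ‖q + h‖ ^ 2)) := by
    have m1 := mul_le_mul_of_nonneg_right k1 (show 0 ≤ ‖q‖ ^ 2 * ‖q + h‖ ^ 2 by positivity)
    have m2 := mul_le_mul_of_nonneg_right k2 (show 0 ≤ ‖q‖ ^ 2 * ‖q + h‖ ^ 2 by positivity)
    nlinarith [hk, m1, m2]
  rw [i2]
  have hpos : 0 < (-q.im) * (‖q‖ ^ 2 * ‖q + h‖ ^ 2) := by
    have : 0 < -q.im := by linarith
    positivity
  refine le_of_mul_le_mul_right ?_ hpos
  calc ‖b‖ ^ 2 * (-q.im / ‖q + h‖ ^ 2) * h ^ 2 * ((-q.im) * (‖q‖ ^ 2 * ‖q + h‖ ^ 2))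
      = ‖b‖ ^ 2 * ‖q‖ ^ 2 * q.im ^ 2 * h ^ 2 := by field_simp
    _ ≤ _ := k3
    _ = 2 * (mx + mx') * ((-q.im) * (‖q‖ ^ 2 * ‖q + h‖ ^ 2)) := by ring

/-- update at `w` by a real number, off-diagonal entries -/
theorem gg_update_row (hz : 0 < z.im) (w : Site) (h : ℝ) (x : Site) :
    gg (Function.update V w (V w + h)) z x w = gg V z x w / (1 + h * gg V z w w) := by
  obtain ⟨h1, h2⟩ := gg_update (V := V) hz w h
  rw [h2 x w]
  field_simp
  ring

theorem gg_update_inv (hz : 0 < z.im) (w : Site) (h : ℝ) :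
    (gg (Function.update V w (V w + h)) z w w)⁻¹ = (gg V z w w)⁻¹ + h := by
  obtain ⟨h1, h2⟩ := gg_update (V := V) hz w h
  have h3 := gg_ne_zero (V := V) hz w
  rw [gg_update_row hz w h w, inv_div]
  field_simp

/-- the two-point inequality: resampling at `y` -/
theorem two_point (hz : 0 < z.im) (x y : Site) (h : ℝ) :
    ‖gg V z x y‖ ^ 2 * (gg (Function.update V y (V y + h)) z y y).im * h ^ 2 ≤
      2 * ((gg V z x x).im + (gg (Function.update V y (V y + h)) z x x).im) := by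
  obtain ⟨h1, h2⟩ := gg_update (V := V) hz y h
  have h3 := gg_ne_zero (V := V) hz y
  refine two_point_aux (b' := gg (Function.update V y (V y + h)) z x y)
    (gg_im_pos hz y) (gg_im_pos hz y) (gg_update_inv hz y h) ?_ (im_sq_le hz x y) (im_sq_le hz x y)
  rw [gg_update_inv hz y h, gg_update_row hz y h x]
  field_simp

/-- resampling at `w` changes the diagonal entry by `h g_{0w} g'_{0w}` -/
theorem diff_diag (hz : 0 < z.im) (x w : Site) (h : ℝ) :
    gg V z x x - gg (Function.update V w (V w + h)) z x x =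
      h * gg V z x w * gg (Function.update V w (V w + h)) z x w := by
  obtain ⟨h1, h2⟩ := gg_update (V := V) hz w h
  rw [h2 x x, gg_update_row hz w h x, gg_symm hz w x]
  field_simp
  ring

/-- imaginary part of the self-energy at `w`: `Im p_w` with `g_ww = 1/(V_w - p_w)` -/
noncomputable def imp (V : Site → ℝ) (z : ℂ) (w : Site) : ℝ := -((gg V z w w)⁻¹).im

theorem imp_update (hz : 0 < z.im) (w : Site) (h : ℝ) :
    imp (Function.update V w (V w + h)) z w = imp V z w := by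
  unfold imp
  rw [gg_update_inv hz w h]
  simp

theorem imp_update' (hz : 0 < z.im) (w : Site) (t : ℝ) :
    imp (Function.update V w t) z w = imp V z w := by
  have := imp_update (V := V) hz w (t - V w)
  rwa [add_sub_cancel] at this

theorem imp_eq (w : Site) : imp V z w = (gg V z w w).im / ‖gg V z w w‖ ^ 2 := by
  unfold imp
  rw [Complex.inv_im, Complex.normSq_eq_norm_sq]
  ring

theorem norm_le_of_imp (hz : 0 < z.im) {w : Site} {τ : ℝ} (hτ : 0 < τ) (h : τ ≤ imp V z w) :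
    ‖gg V z w w‖ ≤ 1 / τ := by
  have h0 : 0 < ‖gg V z w w‖ := norm_pos_iff.2 (gg_ne_zero hz w)
  rw [imp_eq, le_div_iff₀ (by positivity)] at h
  have h1 : (gg V z w w).im ≤ ‖gg V z w w‖ :=
    (le_abs_self _).trans (Complex.abs_im_le_norm _)
  rw [le_div_iff₀ hτ]
  nlinarith

theorem im_le_of_imp (hz : 0 < z.im) {w : Site} {τ : ℝ} (hτ : 0 < τ) (h : τ ≤ imp V z w) :
    (gg V z w w).im ≤ 1 / τ :=
  ((le_abs_self _).trans (Complex.abs_im_le_norm _)).trans (norm_le_of_imp hz hτ h)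

/-- on `Im p_w ≥ τ` the entry is controlled by the change of the diagonal entry -/
theorem sq_le_diff (hz : 0 < z.im) {x w : Site} {τ H h : ℝ} (hτ : 0 < τ) (hp : τ ≤ imp V z w)
    (hh : |h| ≤ H) :
    |h| * ‖gg V z x w‖ ^ 2 ≤
      (1 + H / τ) * ‖gg V z x x - gg (Function.update V w (V w + h)) z x x‖ := by
  have h1 : 1 + (h : ℂ) * gg V z w w ≠ 0 := (gg_update (V := V) hz w h).1
  have hn : 0 < ‖1 + (h : ℂ) * gg V z w w‖ := norm_pos_iff.2 h1
  rw [diff_diag hz x w h, gg_update_row hz w h x, norm_mul, norm_mul, norm_div, Complex.norm_real,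
    Real.norm_eq_abs]
  have h2 : ‖1 + (h : ℂ) * gg V z w w‖ ≤ 1 + H / τ := by
    refine (norm_add_le _ _).trans ?_
    rw [norm_one, norm_mul, Complex.norm_real, Real.norm_eq_abs]
    have h3 := norm_le_of_imp (V := V) hz hτ hp
    have h4 : |h| * ‖gg V z w w‖ ≤ H * (1 / τ) :=
      mul_le_mul hh h3 (norm_nonneg _) ((abs_nonneg _).trans hh)
    have h5 : H * (1 / τ) = H / τ := by ring
    linarith
  calc |h| * ‖gg V z x w‖ ^ 2
      = ‖1 + (h : ℂ) * gg V z w w‖ *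
        (|h| * ‖gg V z x w‖ * (‖gg V z x w‖ / ‖1 + (h : ℂ) * gg V z w w‖)) := by
        field_simp
    _ ≤ _ := by
        refine mul_le_mul_of_nonneg_right h2 ?_
        positivity

/-- the change of the diagonal entry is controlled by the entries before and after -/
theorem norm_diff_le (hz : 0 < z.im) (x w : Site) {H h : ℝ} (hh : |h| ≤ H) :
    ‖gg V z x x - gg (Function.update V w (V w + h)) z x x‖ ≤
      H / 2 * (‖gg V z x w‖ ^ 2 + ‖gg (Function.update V w (V w + h)) z x w‖ ^ 2) := by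
  rw [diff_diag hz x w h, norm_mul, norm_mul, Complex.norm_real, Real.norm_eq_abs]
  set a := ‖gg V z x w‖ with ha
  set b := ‖gg (Function.update V w (V w + h)) z x w‖ with hb
  have h1 : 0 ≤ a := norm_nonneg _
  have h2 : 0 ≤ b := norm_nonneg _
  have h3 : 0 ≤ |h| := abs_nonneg _
  have h4 : a * b ≤ (a ^ 2 + b ^ 2) / 2 := by nlinarith [sq_nonneg (a - b)]
  calc |h| * a * b = |h| * (a * b) := by ring
    _ ≤ H * ((a ^ 2 + b ^ 2) / 2) := mul_le_mul hh h4 (by positivity) (h3.trans hh)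
    _ = _ := by ring

end P365L.E913
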