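import Vale.Agent.P365.E913.PartD
import Vale.Agent.P365.E913.UniqG

set_option linter.all false

/-!
# P365 T1, soft end: bounded diffusion along a sequence excludes absolutely continuous spectrum
-/

namespace P365L.E913

open MeasureTheory ProbabilityTheory Complex Filter Topology P365L.Inf P365L.TL
open scoped ENNReal InnerProductSpace

variable {P : Measure (Site → ℝ)} [IsProbabilityMeasure P] {ν : Measure ℝ}
  [IsProbabilityMeasure ν] {K L : ℝ}

theorem uniqG' (V : Site → ℝ) (x y : Site) (hxy : Nb x y) :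
    ∀ᵐ E : ℝ, ¬ Tendsto (fun n => gg V (zz E n) x y) atTop (𝓝 0) := by
  have h1 : adj x y = 1 := by
    unfold adj
    unfold Nb at hxy
    rw [if_pos hxy]
  exact ae_gg_not_tendsto V h1 (fun n => (1 / 2 : ℝ) ^ n) (fun n => by positivity)
    (tendsto_pow_atTop_nhds_zero_of_lt_one (by norm_num) (by norm_num))

/-- the statement of part A at the energy `E` -/
def PA (P : Measure (Site → ℝ)) (E : ℝ) : Prop :=
  ∀ c : ℝ, 0 < c → ∃ τ : ℝ, 0 < τ ∧ ∀ᶠ n in atTop,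
      ∑' w, ∫⁻ V in Act E ∩ {V | imp V (zz E n) w < τ},
        ENNReal.ofReal ((zz E n).im * (gg V (zz E n) (0, 0) w).im ^ 2) ∂P ≤ ENNReal.ofReal c

/-- the statement of part C at the energy `E` -/
def PC (P : Measure (Site → ℝ)) (E : ℝ) : Prop :=
  P (Act E) ≠ 0 → ∃ c b : ℝ, 0 < c ∧ 0 < b ∧ ∀ᶠ n in atTop, ENNReal.ofReal c <
      ∫⁻ V in Act E ∩ {V | (gg V (zz E n) (0, 0) (0, 0)).im ≤ b},
        ∑' w, ENNReal.ofReal ((zz E n).im * (gg V (zz E n) (0, 0) w).im ^ 2) ∂P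

theorem noAC_of_parts (hP : Law P ν K L)
    (hconv : ∀ᵐ E : ℝ, ∀ᵐ V ∂P, Conv E V)
    (hA : ∀ E : ℝ, (∀ᵐ V ∂P, Conv E V) → (∀ᵐ V ∂P, ∀ x, (0 < lf E x V ↔ 0 < lf E (0, 0) V)) →
      PA P E)
    (hC : ∀ E : ℝ, (∀ᵐ V ∂P, Conv E V) → PC P E)
    (hD : ∀ᵐ E : ℝ, ∃ D : ℝ, ∃ᶠ n : ℕ in atTop,
      DZ P (fun V : Site → ℝ => V) E ((1 / 2) ^ n) ≤ ENNReal.ofReal D) :
    ∀ᵐ V ∂P, ∀ (ψ : L2) (μ : Measure ℝ), IsSpectralMeasure V ψ μ → μ ⟂ₘ (volume : Measure ℝ) := by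
  have hu := uniq_swap (P := P) (ν := ν) (K := K) (L := L) hP (fun V _ x y hxy => uniqG' V x y hxy)
  have h1 : ∀ᵐ E : ℝ, ∀ᵐ V ∂P, ∀ x, Tendsto (fun n => (gg V (zz E n) x x).im) atTop (𝓝 0) := by
    filter_upwards [hconv, hu, hD] with E c1 c2 c3
    have hall := all_or_none hP c1 c2
    have hnull := act_null hP c1 (hA E c1 hall) (hC E c1) c3
    have hnull' : ∀ᵐ V ∂P, V ∉ Act E := measure_eq_zero_iff_ae_notMem.1 hnull
    filter_upwards [c1, hall, hnull'] with V d1 d2 d3 x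
    refine tendsto_zero_of_lf d1 ?_
    by_contra hx
    have hx' : 0 < lf E x V := by
      rcases eq_or_lt_of_le (zero_le (a := lf E x V)) with h | h
      · exact absurd h.symm hx
      · exact h
    exact d3 fun y => (d2 y).2 ((d2 x).1 hx')
  have h2 : ∀ x : Site, ∀ᵐ V ∂P, ∀ᵐ E : ℝ,
      Tendsto (fun n => (gg V (zz E n) x x).im) atTop (𝓝 0) := by
    intro x
    have hm : MeasurableSet {p : (Site → ℝ) × ℝ |
        Tendsto (fun n => (gg p.1 (zz p.2 n) x x).im) atTop (𝓝 0)} :=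
      measurableSet_tendsto (𝓝 0) fun n => Complex.measurable_im.comp (measurable_gg_prod n x x)
    refine (Measure.ae_ae_comm (p := fun V E =>
      Tendsto (fun n => (gg V (zz E n) x x).im) atTop (𝓝 0)) hm).2 ?_
    filter_upwards [h1] with E hE
    filter_upwards [hE] with V hV
    exact hV x
  have h3 : ∀ᵐ V ∂P, ∀ x : Site, ∀ᵐ E : ℝ,
      Tendsto (fun n => (gg V (zz E n) x x).im) atTop (𝓝 0) := ae_all_iff.2 h2
  filter_upwards [h3] with V hV ψ μ hμ
  refine singular_of_sites V (fun n => (1 / 2 : ℝ) ^ n) (fun n => by positivity)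
    (tendsto_pow_atTop_nhds_zero_of_lt_one (by norm_num) (by norm_num)) (fun x => ?_) ψ μ hμ
  filter_upwards [hV x] with E hE u hu
  refine hE.congr fun n => ?_
  have hz : Res V (zz E n) (dl x) = u n := res_unique (zz_pos E n) (hu n)
  rw [← hz]
  rfl

end P365L.E913
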