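import Vale.Agent.P365.Inf.Main

set_option linter.all false

/-!
# P365 T1, soft end: matrix elements of the resolvent in infinite volume
-/

namespace P365L.E913

open MeasureTheory ProbabilityTheory Complex Filter Topology P365L.Inf
open scoped ENNReal InnerProductSpace

/-- matrix element of the resolvent -/
noncomputable def gg (V : Site → ℝ) (z : ℂ) (x y : Site) : ℂ := (Res V z (dl y)) x

variable {V : Site → ℝ} {z : ℂ}

theorem dl_mul_sum (x : Site) (f : Site → ℂ) : HasSum (fun w => dl x w * f w) (f x) := by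
  have h : (fun w => dl x w * f w) = fun w => if w = x then f x else 0 := by
    funext w
    rw [dl_apply]
    split_ifs with h
    · rw [h, one_mul]
    · rw [zero_mul]
  rw [h]
  exact hasSum_ite_eq x (f x)

theorem summable_mul (u v : L2) : Summable fun x : Site => u x * v x := by
  refine Summable.of_norm_bounded ((L2_summable_sq u).add (L2_summable_sq v)) fun x => ?_
  rw [norm_mul]
  nlinarith [sq_nonneg (‖u x‖ - ‖v x‖), sq_nonneg ‖u x‖, sq_nonneg ‖v x‖]

theorem summable_shift_mul (u v : L2) (e : Site) : Summable fun x : Site => u (x + e) * v x := by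
  have h1 := L2_summable_sq u
  have h2 : Summable fun x : Site => ‖u (x + e)‖ ^ 2 :=
    (Equiv.addRight e).summable_iff.mpr h1
  refine Summable.of_norm_bounded (h2.add (L2_summable_sq v)) fun x => ?_
  rw [norm_mul]
  nlinarith [sq_nonneg (‖u (x + e)‖ - ‖v x‖), sq_nonneg ‖u (x + e)‖, sq_nonneg ‖v x‖]

theorem corr_neg (u v : L2) (e : Site) :
    ∑' x : Site, u (x + -e) * v x = ∑' x : Site, v (x + e) * u x := by
  rw [← (Equiv.addRight e).tsum_eq (fun x : Site => u (x + -e) * v x)]
  refine tsum_congr fun x => ?_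
  simp only [Equiv.coe_addRight, add_neg_cancel_right]
  ring

theorem hop_expand (u v : L2) : (fun x : Site => hop (fun y => u y) x * v x) =
    fun x : Site => (u (x + (1, 0)) * v x + u (x + -(1, 0)) * v x) +
      (u (x + (0, 1)) * v x + u (x + -(0, 1)) * v x) := by
  funext x
  obtain ⟨a, b⟩ := x
  simp only [hop, Prod.mk_add_mk, add_zero, Prod.neg_mk, neg_zero, ← sub_eq_add_neg]
  ring

theorem hop_summable (u v : L2) : Summable fun x : Site => hop (fun y => u y) x * v x := by
  rw [hop_expand]
  exact ((summable_shift_mul u v _).add (summable_shift_mul u v _)).add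
    ((summable_shift_mul u v _).add (summable_shift_mul u v _))

theorem hop_tsum (u v : L2) : ∑' x : Site, hop (fun y => u y) x * v x =
    (∑' x : Site, u (x + (1, 0)) * v x + ∑' x : Site, u (x + -(1, 0)) * v x) +
      (∑' x : Site, u (x + (0, 1)) * v x + ∑' x : Site, u (x + -(0, 1)) * v x) := by
  rw [hop_expand, Summable.tsum_add, Summable.tsum_add, Summable.tsum_add]
  · exact summable_shift_mul u v _
  · exact summable_shift_mul u v _
  · exact summable_shift_mul u v _
  · exact summable_shift_mul u v _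
  · exact (summable_shift_mul u v _).add (summable_shift_mul u v _)
  · exact (summable_shift_mul u v _).add (summable_shift_mul u v _)

theorem hop_symm (u v : L2) :
    ∑' x : Site, hop (fun y => u y) x * v x = ∑' x : Site, hop (fun y => v y) x * u x := by
  rw [hop_tsum, hop_tsum, corr_neg u v (1, 0), corr_neg u v (0, 1), corr_neg v u (1, 0),
    corr_neg v u (0, 1)]
  ring

theorem res_symm (hz : 0 < z.im) (ψ φ : L2) :
    ∑' x : Site, (Res V z ψ) x * φ x = ∑' x : Site, ψ x * (Res V z φ) x := by
  set u := Res V z ψ with hu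
  set v := Res V z φ with hv
  have h1 : ∀ x, hop (fun y => u y) x + ((V x : ℂ) - z) * u x = ψ x := res_spec V hz ψ
  have h2 : ∀ x, hop (fun y => v y) x + ((V x : ℂ) - z) * v x = φ x := res_spec V hz φ
  have h3 : ∀ x, u x * φ x - ψ x * v x =
      hop (fun y => v y) x * u x - hop (fun y => u y) x * v x := by
    intro x
    rw [← h1 x, ← h2 x]
    ring
  have h4 : ∑' x : Site, (u x * φ x - ψ x * v x) = 0 := by
    rw [tsum_congr h3, (hop_summable v u).tsum_sub (hop_summable u v), hop_symm, sub_self]
  rw [(summable_mul u φ).tsum_sub (summable_mul ψ v)] at h4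
  exact sub_eq_zero.1 h4

theorem gg_symm (hz : 0 < z.im) (x y : Site) : gg V z x y = gg V z y x := by
  have h := res_symm (V := V) hz (dl y) (dl x)
  have h1 : ∑' w : Site, (Res V z (dl y)) w * (dl x) w = gg V z x y := by
    rw [tsum_congr fun w => mul_comm _ _]
    exact (dl_mul_sum x fun w => (Res V z (dl y)) w).tsum_eq
  have h2 : ∑' w : Site, (dl y) w * (Res V z (dl x)) w = gg V z y x :=
    (dl_mul_sum y fun w => (Res V z (dl x)) w).tsum_eq
  rw [h1, h2] at h
  exact h

theorem gg_def' (hz : 0 < z.im) (x w : Site) : (Res V z (dl x)) w = gg V z x w :=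
  (gg_symm hz w x)

theorem res_apply (hz : 0 < z.im) (φ : L2) (x : Site) :
    (Res V z φ) x = ∑' w : Site, gg V z x w * φ w := by
  have h := res_symm (V := V) hz (dl x) φ
  have h2 : ∑' w : Site, (dl x) w * (Res V z φ) w = (Res V z φ) x :=
    (dl_mul_sum x fun w => (Res V z φ) w).tsum_eq
  rw [h2] at h
  rw [← h]
  exact tsum_congr fun w => by rw [gg_def' hz]

theorem summable_gg_sq (hz : 0 < z.im) (x : Site) : Summable fun w : Site => gg V z x w ^ 2 := by
  refine (summable_mul (Res V z (dl x)) (Res V z (dl x))).congr fun w => ?_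
  rw [gg_def' hz]
  ring

theorem sum_sq (hz : 0 < z.im) (x : Site) :
    ∑' w : Site, gg V z x w ^ 2 = (Res V z (Res V z (dl x))) x := by
  rw [res_apply hz]
  exact tsum_congr fun w => by rw [gg_def' hz]; ring

theorem gg_hasSum (hz : 0 < z.im) (x : Site) :
    HasSum (fun w : Site => ‖gg V z x w‖ ^ 2) (‖Res V z (dl x)‖ ^ 2) := by
  have h := L2_hasSum_sq (Res V z (dl x))
  have h1 : (fun w : Site => ‖(Res V z (dl x)) w‖ ^ 2) = fun w : Site => ‖gg V z x w‖ ^ 2 := by
    funext w
    rw [gg_def' hz]
  rwa [h1] at h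

theorem ward (hz : 0 < z.im) (x : Site) :
    z.im * ∑' w : Site, ‖gg V z x w‖ ^ 2 = (gg V z x x).im := by
  rw [(gg_hasSum hz x).tsum_eq]
  exact res_im V hz x

theorem gg_im_eq (hz : 0 < z.im) (x : Site) :
    (gg V z x x).im = z.im * ‖Res V z (dl x)‖ ^ 2 := (res_im V hz x).symm

theorem res_ne_zero (hz : 0 < z.im) (x : Site) : Res V z (dl x) ≠ 0 := by
  intro h
  have h1 := res_spec V hz (dl x) x
  rw [h, dl_apply, if_pos rfl] at h1
  simp [hop] at h1

theorem gg_im_pos (hz : 0 < z.im) (x : Site) : 0 < (gg V z x x).im := by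
  rw [gg_im_eq hz]
  have := norm_pos_iff.2 (res_ne_zero (V := V) hz x)
  positivity

theorem gg_ne_zero (hz : 0 < z.im) (x : Site) : gg V z x x ≠ 0 := by
  intro h
  have := gg_im_pos (V := V) hz x
  rw [h] at this
  simp at this

theorem im_entry (hz : 0 < z.im) (x y : Site) :
    ((gg V z x y).im : ℂ) = z.im * ⟪Res V z (dl x), Res V z (dl y)⟫_ℂ := by
  have h := res_pol (V := V) hz (dl x) (dl y)
  have h1 : ⟪dl x, Res V z (dl y)⟫_ℂ = gg V z x y := inner_dl x _
  have h2 : ⟪Res V z (dl x), dl y⟫_ℂ = (starRingEnd ℂ) (gg V z x y) := by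
    rw [← inner_conj_symm, inner_dl, gg_def' hz]
  rw [h1, h2, Complex.sub_conj] at h
  have h3 : (2 * I : ℂ) ≠ 0 := by simp
  apply mul_left_cancel₀ h3
  rw [show (2 * I : ℂ) * ((gg V z x y).im : ℂ) = (2 * (gg V z x y).im : ℝ) * I by push_cast; ring, h]
  ring

theorem im_sq_le (hz : 0 < z.im) (x y : Site) :
    (gg V z x y).im ^ 2 ≤ (gg V z x x).im * (gg V z y y).im := by
  have h := im_entry (V := V) hz x y
  have h1 : |(gg V z x y).im| ≤ z.im * (‖Res V z (dl x)‖ * ‖Res V z (dl y)‖) := by
    have h2 : ‖((gg V z x y).im : ℂ)‖ = |(gg V z x y).im| := by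
      rw [Complex.norm_real, Real.norm_eq_abs]
    rw [← h2, h, norm_mul, Complex.norm_real, Real.norm_of_nonneg hz.le]
    exact mul_le_mul_of_nonneg_left (norm_inner_le_norm _ _) hz.le
  rw [gg_im_eq hz, gg_im_eq hz, ← sq_abs]
  calc |(gg V z x y).im| ^ 2 ≤ (z.im * (‖Res V z (dl x)‖ * ‖Res V z (dl y)‖)) ^ 2 :=
        pow_le_pow_left₀ (abs_nonneg _) h1 2
    _ = _ := by ring

theorem im_le_norm (x y : Site) : (gg V z x y).im ^ 2 ≤ ‖gg V z x y‖ ^ 2 := by
  rw [← sq_abs]
  exact pow_le_pow_left₀ (abs_nonneg _) (Complex.abs_im_le_norm _) 2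

theorem summable_im_sq (hz : 0 < z.im) (x : Site) :
    Summable fun w : Site => (gg V z x w).im ^ 2 :=
  Summable.of_nonneg_of_le (fun _ => sq_nonneg _) (fun w => im_le_norm x w)
    (gg_hasSum hz x).summable

theorem sum_im_sq (hz : 0 < z.im) (x : Site) :
    z.im * ∑' w : Site, (gg V z x w).im ^ 2 =
      ((gg V z x x).im - (z.im * (Res V z (Res V z (dl x))) x : ℂ).re) / 2 := by
  have h1 : ∀ w, (gg V z x w).im ^ 2 = (‖gg V z x w‖ ^ 2 - (gg V z x w ^ 2).re) / 2 := by
    intro w
    rw [← Complex.normSq_eq_norm_sq, Complex.normSq_apply]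
    simp only [pow_two, mul_re]
    ring
  have h2 : Summable fun w : Site => (gg V z x w ^ 2).re :=
    (Complex.hasSum_re (summable_gg_sq hz x).hasSum).summable
  have h3 : ∑' w : Site, (gg V z x w ^ 2).re = ((Res V z (Res V z (dl x))) x).re := by
    rw [← sum_sq hz]
    exact (Complex.hasSum_re (summable_gg_sq hz x).hasSum).tsum_eq
  rw [tsum_congr h1, tsum_div_const, (gg_hasSum hz x).summable.tsum_sub h2, h3, mul_div_assoc',
    mul_sub, ward hz, Complex.re_ofReal_mul]

/-- rank one update -/
theorem gg_update (hz : 0 < z.im) (w : Site) (h : ℝ) :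
    1 + (h : ℂ) * gg V z w w ≠ 0 ∧ ∀ x y, gg (Function.update V w (V w + h)) z x y =
      gg V z x y - h * gg V z x w * gg V z w y / (1 + h * gg V z w w) := by
  have h1 : 1 + (h : ℂ) * gg V z w w ≠ 0 := by
    intro h0
    by_cases hh : h = 0
    · rw [hh] at h0
      simp at h0
    · have h2 := congrArg Complex.im h0
      simp only [add_im, one_im, im_ofReal_mul, zero_add, zero_im] at h2
      have := gg_im_pos (V := V) hz w
      rcases mul_eq_zero.1 h2 with h3 | h3
      · exact hh h3
      · exact this.ne' h3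
  refine ⟨h1, fun x y => ?_⟩
  have h2 : Res (Function.update V w (V w + h)) z (dl y) =
      Res V z (dl y) - (h * gg V z w y / (1 + h * gg V z w w)) • Res V z (dl w) := by
    refine res_unique hz ?_
    intro x
    have e1 := res_spec V hz (dl y) x
    have e2 := res_spec V hz (dl w) x
    simp only [hop, lp.coeFn_sub, Pi.sub_apply, lp.coeFn_smul, Pi.smul_apply, smul_eq_mul] at *
    set c := h * gg V z w y / (1 + h * gg V z w w) with hc
    by_cases hx : x = w
    · subst hx
      rw [Function.update_self]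
      rw [dl_apply x x, if_pos rfl] at e2
      have e3 : (Res V z (dl y)) x = gg V z x y := rfl
      have e4 : (Res V z (dl x)) x = gg V z x x := rfl
      have e5 : c * (1 + h * gg V z x x) = h * gg V z x y := by
        rw [hc]; field_simp
      push_cast
      rw [← e3, ← e4] at e5
      linear_combination e1 - c * e2 - e5
    · rw [Function.update_of_ne hx]
      rw [dl_apply w x, if_neg hx] at e2
      linear_combination e1 - c * e2
  show (Res (Function.update V w (V w + h)) z (dl y)) x = _
  rw [h2]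
  simp only [lp.coeFn_sub, Pi.sub_apply, lp.coeFn_smul, Pi.smul_apply, smul_eq_mul]
  show gg V z x y - h * gg V z w y / (1 + h * gg V z w w) * gg V z x w = _
  ring

end P365L.E913
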