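import Vale.Agent.P365.E913.Green
import Mathlib.Probability.Independence.InfinitePi

set_option linter.all false

/-!
# P365 T1, soft end: the product law, resampling, one-site averages, mass transport
-/

namespace P365L.E913

open MeasureTheory ProbabilityTheory Complex Filter Topology P365L.Inf
open scoped ENNReal InnerProductSpace

/-- the product law on potentials -/
noncomputable def PP (ν : Measure ℝ) [IsProbabilityMeasure ν] : Measure (Site → ℝ) :=
  Measure.infinitePi (fun _ : Site => ν)

variable {ν : Measure ℝ} [IsProbabilityMeasure ν]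

instance : IsProbabilityMeasure (PP ν) := by
  unfold PP; infer_instance

theorem measurable_update_pair (w : Site) :
    Measurable (fun p : (Site → ℝ) × ℝ => Function.update p.1 w p.2) := by
  refine measurable_pi_iff.2 fun y => ?_
  by_cases h : y = w
  · subst h
    simp only [Function.update_self]
    exact measurable_snd
  · simp only [Function.update_of_ne h]
    exact (measurable_pi_apply y).comp measurable_fst

/-- (a) resampling one potential -/
theorem resample (w : Site) :
    MeasurePreserving (fun p : (Site → ℝ) × ℝ => Function.update p.1 w p.2)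
      ((PP ν).prod ν) (PP ν) := by
  classical
  have hm := measurable_update_pair w
  refine ⟨hm, ?_⟩
  refine Measure.eq_infinitePi _ fun s t ht => ?_
  rw [Measure.map_apply hm (MeasurableSet.pi s.countable_toSet fun i _ => ht i)]
  have hpre : (fun p : (Site → ℝ) × ℝ => Function.update p.1 w p.2) ⁻¹'
      ((s : Set Site).pi t) =
      (((s.erase w : Finset Site) : Set Site).pi t) ×ˢ (if w ∈ s then t w else Set.univ) := by
    ext p
    simp only [Set.mem_preimage, Set.mem_pi, Finset.mem_coe, Set.mem_prod, Finset.mem_erase]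
    constructor
    · intro h
      refine ⟨fun i hi => ?_, ?_⟩
      · have := h i hi.2
        rwa [Function.update_of_ne hi.1] at this
      · split_ifs with hw
        · have := h w hw
          rwa [Function.update_self] at this
        · trivial
    · rintro ⟨h1, h2⟩ i hi
      by_cases hiw : i = w
      · subst hiw
        rw [Function.update_self]
        rwa [if_pos hi] at h2
      · rw [Function.update_of_ne hiw]
        exact h1 i ⟨hiw, hi⟩
  rw [hpre, Measure.prod_prod]
  unfold PP
  rw [Measure.infinitePi_pi _ (fun i _ => ht i)]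
  by_cases hw : w ∈ s
  · rw [if_pos hw, Finset.prod_erase_mul s (fun i => ν (t i)) hw]
  · rw [if_neg hw, measure_univ, mul_one, Finset.erase_eq_of_notMem hw]

/-- (b) translation invariance -/
theorem shift_mp (a : Site) : MeasurePreserving (shift a) (PP ν) (PP ν) := by
  refine ⟨measurable_pi_lambda _ fun y => measurable_pi_apply _, ?_⟩
  unfold PP
  exact Measure.map_infinitePi_infinitePi_of_inj (P := fun _ : Site => ν)
    (f := fun y : Site => a + y) (add_right_injective a)

/-- (c) covariance -/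
theorem gg_shift {V : Site → ℝ} {z : ℂ} (hz : 0 < z.im) (a x y : Site) :
    gg (shift a V) z x y = gg V z (a + x) (a + y) := by
  have h1 := tendsto_GVs (V := shift a V) hz y (-y + x) (res_spec (shift a V) hz (dl y))
  have h2 := tendsto_GVs (V := V) hz (a + y) (-y + x) (res_spec V hz (dl (a + y)))
  have e : shift y (shift a V) = shift (a + y) V := by
    funext w
    unfold shift
    rw [add_assoc]
  rw [e] at h1
  have h3 := tendsto_nhds_unique h1 h2
  rw [add_neg_cancel_left] at h3
  have e2 : a + y + (-y + x) = a + x := by abel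
  rw [e2] at h3
  exact h3

/-- (e) transfer to the product space -/
theorem map_PP {Ω : Type*} [MeasurableSpace Ω] {P : Measure Ω} [IsProbabilityMeasure P]
    {X : Site → Ω → ℝ} (hm : ∀ x, Measurable (X x)) (hi : iIndepFun X P)
    (hl : ∀ x, P.map (X x) = ν) : P.map (fun ω x => X x ω) = PP ν := by
  rw [iIndepFun.map_fun_eq_infinitePi_map hm hi]
  unfold PP
  simp only [hl]

/-- (f) measurability -/
theorem measurable_gg' {Ω' : Type*} [MeasurableSpace Ω'] (V : Ω' → Site → ℝ) (z : Ω' → ℂ)
    (hV : ∀ x, Measurable fun ω => V ω x) (hz : Measurable z) (hz0 : ∀ ω, 0 < (z ω).im)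
    (x y : Site) : Measurable fun ω => gg (V ω) (z ω) x y :=
  measurable_Res V z hV hz hz0 y x

theorem measurable_gg_pair {ε : ℝ} (hε : 0 < ε) (x y : Site) :
    Measurable fun p : (Site → ℝ) × ℝ => gg p.1 ((p.2 : ℂ) + ε * I) x y := by
  refine measurable_gg' (fun p : (Site → ℝ) × ℝ => p.1)
    (fun p : (Site → ℝ) × ℝ => (p.2 : ℂ) + ε * I)
    (fun x => (measurable_pi_apply x).comp measurable_fst) ?_ ?_ x y
  · exact (Complex.measurable_ofReal.comp measurable_snd).add_const _
  · intro p
    simpa using hε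

theorem measurable_gg_V {z : ℂ} (hz : 0 < z.im) (x y : Site) :
    Measurable fun V : Site → ℝ => gg V z x y :=
  measurable_gg' (fun V : Site → ℝ => V) (fun _ => z) (fun x => measurable_pi_apply x)
    measurable_const (fun _ => hz) x y

/-! ### the self-energy -/

/-- self-energy: `gg V z w w = 1 / (V w - pp V z w)` -/
noncomputable def pp (V : Site → ℝ) (z : ℂ) (w : Site) : ℂ := (V w : ℂ) - (gg V z w w)⁻¹

variable {V : Site → ℝ} {z : ℂ}

theorem gg_eq_pp (w : Site) : gg V z w w = ((V w : ℂ) - pp V z w)⁻¹ := by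
  unfold pp
  rw [sub_sub_cancel, inv_inv]

theorem pp_im_eq (w : Site) : (pp V z w).im = (gg V z w w).im / ‖gg V z w w‖ ^ 2 := by
  unfold pp
  rw [Complex.sub_im, Complex.ofReal_im, Complex.inv_im, Complex.normSq_eq_norm_sq]
  ring

theorem pp_im_pos (hz : 0 < z.im) (w : Site) : 0 < (pp V z w).im := by
  rw [pp_im_eq]
  have h1 := gg_im_pos (V := V) hz w
  have h2 := norm_pos_iff.2 (gg_ne_zero (V := V) hz w)
  positivity

theorem upd_aux {g c : ℂ} (hg : g ≠ 0) (h : 1 + c * g ≠ 0) :
    (g - c * g * g / (1 + c * g)) * ((1 + c * g) / g) = 1 := by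
  have e : g - c * g * g / (1 + c * g) = g / (1 + c * g) := by
    rw [eq_div_iff h, sub_mul, div_mul_cancel₀ _ h]
    ring
  rw [e, div_mul_div_comm, mul_comm g, div_self (mul_ne_zero h hg)]

theorem gg_update_self (hz : 0 < z.im) (w : Site) (v : ℝ) :
    gg (Function.update V w v) z w w = ((v : ℂ) - pp V z w)⁻¹ := by
  obtain ⟨h1, h2⟩ := gg_update (V := V) hz w (v - V w)
  have h3 := h2 w w
  rw [add_sub_cancel] at h3
  rw [h3]
  have h4 := gg_ne_zero (V := V) hz w
  have h5 : (v : ℂ) - pp V z w ≠ 0 := by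
    intro h
    have h6 := congrArg Complex.im h
    rw [Complex.sub_im, Complex.ofReal_im, Complex.zero_im] at h6
    have := pp_im_pos (V := V) hz w
    linarith
  refine eq_inv_of_mul_eq_one_left ?_
  have h7 : (v : ℂ) - pp V z w = (1 + ((v - V w : ℝ) : ℂ) * gg V z w w) / gg V z w w := by
    unfold pp
    push_cast
    field_simp
    ring
  rw [h7]
  exact upd_aux h4 h1

/-- (d) the self-energy does not depend on the potential at its own site -/
theorem pp_update (hz : 0 < z.im) (w : Site) (v : ℝ) :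
    pp (Function.update V w v) z w = pp V z w := by
  have h := gg_update_self (V := V) hz w v
  unfold pp at h ⊢
  rw [h, Function.update_self, inv_inv]
  ring

theorem im_inv_sub (p : ℂ) (v : ℝ) :
    (((v : ℂ) - p)⁻¹).im = p.im / ((v - p.re) ^ 2 + p.im ^ 2) := by
  rw [Complex.inv_im, Complex.normSq_apply]
  simp only [Complex.sub_im, Complex.ofReal_im, Complex.sub_re, Complex.ofReal_re]
  congr 1
  · ring
  · ring

theorem lintegral_im_volume {p : ℂ} (hp : 0 < p.im) :
    ∫⁻ v : ℝ, ENNReal.ofReal (((v : ℂ) - p)⁻¹).im = ENNReal.ofReal Real.pi := by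
  have hγ : (p.im.toNNReal) ≠ 0 := by
    intro h
    rw [Real.toNNReal_eq_zero] at h
    linarith
  have h1 : ∀ v : ℝ, ENNReal.ofReal (((v : ℂ) - p)⁻¹).im =
      ENNReal.ofReal Real.pi * cauchyPDF p.re p.im.toNNReal v := by
    intro v
    unfold cauchyPDF
    rw [← ENNReal.ofReal_mul Real.pi_pos.le]
    congr 1
    rw [im_inv_sub]
    unfold cauchyPDFReal
    rw [Real.coe_toNNReal _ hp.le]
    have := Real.pi_ne_zero
    field_simp
  have h2 : Measurable (cauchyPDF p.re p.im.toNNReal) := by
    unfold cauchyPDF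
    exact (measurable_cauchyPDFReal _ _).ennreal_ofReal
  rw [lintegral_congr h1, lintegral_const_mul _ h2]
  rw [lintegral_cauchyPDF_eq_one _ hγ, mul_one]

theorem lintegral_le_of_dens {K : ℝ} (hν : ν ≤ ENNReal.ofReal K • (volume : Measure ℝ))
    (f : ℝ → ℝ≥0∞) : ∫⁻ v, f v ∂ν ≤ ENNReal.ofReal K * ∫⁻ v, f v := by
  refine (lintegral_mono' hν le_rfl).trans ?_
  rw [lintegral_smul_measure, smul_eq_mul]

theorem lintegral_im_le {K : ℝ} (hK : 0 ≤ K) (hν : ν ≤ ENNReal.ofReal K • (volume : Measure ℝ))
    {p : ℂ} (hp : 0 < p.im) :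
    ∫⁻ v : ℝ, ENNReal.ofReal (((v : ℂ) - p)⁻¹).im ∂ν ≤ ENNReal.ofReal (Real.pi * K) := by
  refine (lintegral_le_of_dens hν _).trans ?_
  rw [lintegral_im_volume hp, ← ENNReal.ofReal_mul hK, mul_comm]

/-- (d) one-site bound with a weight which does not depend on `V x` -/
theorem lintegral_weight_im_le {K : ℝ} (hK : 0 ≤ K)
    (hν : ν ≤ ENNReal.ofReal K • (volume : Measure ℝ)) (hz : 0 < z.im) (x : Site)
    {F : (Site → ℝ) → ℝ≥0∞} (hF : Measurable F)
    (hFx : ∀ᵐ p ∂((PP ν).prod ν), F (Function.update p.1 x p.2) = F p.1) :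
    ∫⁻ V, F V * ENNReal.ofReal (gg V z x x).im ∂(PP ν) ≤
      ENNReal.ofReal (Real.pi * K) * ∫⁻ V, F V ∂(PP ν) := by
  have hm : Measurable fun V : Site → ℝ => F V * ENNReal.ofReal (gg V z x x).im :=
    hF.mul (Complex.measurable_im.comp (measurable_gg_V hz x x)).ennreal_ofReal
  rw [← (resample (ν := ν) x).lintegral_comp hm]
  have h1 : ∫⁻ p : (Site → ℝ) × ℝ, F (Function.update p.1 x p.2) *
      ENNReal.ofReal (gg (Function.update p.1 x p.2) z x x).im ∂((PP ν).prod ν) =
      ∫⁻ p : (Site → ℝ) × ℝ, F p.1 *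
        ENNReal.ofReal (gg (Function.update p.1 x p.2) z x x).im ∂((PP ν).prod ν) := by
    refine lintegral_congr_ae ?_
    filter_upwards [hFx] with p hp
    rw [hp]
  rw [h1]
  have hm2 : Measurable fun p : (Site → ℝ) × ℝ => F p.1 *
      ENNReal.ofReal (gg (Function.update p.1 x p.2) z x x).im :=
    (hF.comp measurable_fst).mul (Complex.measurable_im.comp
      ((measurable_gg_V hz x x).comp (measurable_update_pair x))).ennreal_ofReal
  rw [lintegral_prod _ hm2.aemeasurable]
  rw [← lintegral_const_mul _ hF]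
  refine lintegral_mono fun V => ?_
  simp only
  have hm3 : Measurable fun v : ℝ => ENNReal.ofReal (gg (Function.update V x v) z x x).im :=
    (Complex.measurable_im.comp ((measurable_gg_V hz x x).comp
      ((measurable_update_pair x).comp measurable_prodMk_left))).ennreal_ofReal
  rw [lintegral_const_mul _ hm3, mul_comm]
  refine mul_le_mul_left ?_ _
  have h2 : ∀ v : ℝ, ENNReal.ofReal (gg (Function.update V x v) z x x).im =
      ENNReal.ofReal (((v : ℂ) - pp V z x)⁻¹).im := fun v => by
    rw [gg_update_self hz]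
  rw [lintegral_congr h2]
  exact lintegral_im_le hK hν (pp_im_pos hz x)

theorem lintegral_im_gg_le {K : ℝ} (hK : 0 ≤ K)
    (hν : ν ≤ ENNReal.ofReal K • (volume : Measure ℝ)) (hz : 0 < z.im) (x : Site) :
    ∫⁻ V, ENNReal.ofReal (gg V z x x).im ∂(PP ν) ≤ ENNReal.ofReal (Real.pi * K) := by
  have := lintegral_weight_im_le hK hν hz x (F := fun _ => 1) measurable_const
    (Filter.Eventually.of_forall fun p => rfl)
  simpa using this

theorem setLIntegral_im_gg_le {K : ℝ} (hK : 0 ≤ K)
    (hν : ν ≤ ENNReal.ofReal K • (volume : Measure ℝ)) (hz : 0 < z.im) (x : Site)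
    {S : Set (Site → ℝ)} (hS : MeasurableSet S)
    (hSx : ∀ᵐ p ∂((PP ν).prod ν), Function.update p.1 x p.2 ∈ S ↔ p.1 ∈ S) :
    ∫⁻ V in S, ENNReal.ofReal (gg V z x x).im ∂(PP ν) ≤
      ENNReal.ofReal (Real.pi * K) * PP ν S := by
  have h := lintegral_weight_im_le hK hν hz x (F := S.indicator fun _ => 1)
    (measurable_const.indicator hS) (by
      filter_upwards [hSx] with p hp
      by_cases h : p.1 ∈ S
      · rw [Set.indicator_of_mem h, Set.indicator_of_mem (hp.2 h)]
      · rw [Set.indicator_of_notMem h, Set.indicator_of_notMem (fun h' => h (hp.1 h'))])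
  rw [lintegral_indicator hS, setLIntegral_one] at h
  refine le_trans (le_of_eq ?_) h
  rw [← lintegral_indicator hS]
  refine lintegral_congr fun V => ?_
  by_cases hV : V ∈ S
  · rw [Set.indicator_of_mem hV, Set.indicator_of_mem hV, one_mul]
  · rw [Set.indicator_of_notMem hV, Set.indicator_of_notMem hV, zero_mul]

/-- (d) Wegner bound -/
theorem wegner {K : ℝ} (hK : 0 ≤ K) (hν : ν ≤ ENNReal.ofReal K • (volume : Measure ℝ))
    (hz : 0 < z.im) (x : Site) {t : ℝ} (ht : 0 < t) :
    PP ν {V | t < ‖gg V z x x‖} ≤ ENNReal.ofReal (2 * K / t) := by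
  have hS : MeasurableSet {V : Site → ℝ | t < ‖gg V z x x‖} :=
    measurableSet_lt measurable_const (measurable_gg_V hz x x).norm
  rw [← (resample (ν := ν) x).measure_preimage hS.nullMeasurableSet]
  have hS2 := (measurable_update_pair x) hS
  rw [Measure.prod_apply hS2]
  have h1 : ∀ V : Site → ℝ, ν (Prod.mk V ⁻¹' ((fun p : (Site → ℝ) × ℝ =>
      Function.update p.1 x p.2) ⁻¹' {V | t < ‖gg V z x x‖})) ≤ ENNReal.ofReal (2 * K / t) := by
    intro V
    have h2 : (Prod.mk V ⁻¹' ((fun p : (Site → ℝ) × ℝ =>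
        Function.update p.1 x p.2) ⁻¹' {V | t < ‖gg V z x x‖})) ⊆
        Metric.closedBall (pp V z x).re (1 / t) := by
      intro v hv
      have hv' : t < ‖gg (Function.update V x v) z x x‖ := hv
      rw [gg_update_self hz, norm_inv] at hv'
      have h3 : (v : ℂ) - pp V z x ≠ 0 := by
        intro h
        have h6 := congrArg Complex.im h
        rw [Complex.sub_im, Complex.ofReal_im, Complex.zero_im] at h6
        have := pp_im_pos (V := V) hz x
        linarith
      have h4 : 0 < ‖(v : ℂ) - pp V z x‖ := norm_pos_iff.2 h3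
      rw [Metric.mem_closedBall, Real.dist_eq]
      have h5 := Complex.abs_re_le_norm ((v : ℂ) - pp V z x)
      rw [Complex.sub_re, Complex.ofReal_re] at h5
      refine h5.trans ?_
      rw [le_div_iff₀ ht]
      rw [lt_inv_comm₀ ht h4] at hv'
      have h7 : ‖(v : ℂ) - pp V z x‖ * t < t⁻¹ * t := mul_lt_mul_of_pos_right hv' ht
      rw [inv_mul_cancel₀ ht.ne'] at h7
      exact h7.le
    refine (measure_mono h2).trans ((hν _).trans ?_)
    rw [Measure.smul_apply, Real.volume_closedBall, smul_eq_mul, ← ENNReal.ofReal_mul hK]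
    refine ENNReal.ofReal_le_ofReal (le_of_eq ?_)
    ring
  refine (lintegral_mono h1).trans ?_
  rw [lintegral_const, measure_univ, mul_one]

/-! ### mass transport -/

/-- (g) mass transport with a weight which is almost surely translation invariant -/
theorem mass_transport {F : Site → Site → (Site → ℝ) → ℝ≥0∞} (hF : ∀ x y, Measurable (F x y))
    (hcov : ∀ a x y V, F x y (shift a V) = F (a + x) (a + y) V)
    {φ : (Site → ℝ) → ℝ≥0∞} (hφ : Measurable φ)
    (hinv : ∀ a : Site, ∀ᵐ V ∂(PP ν), φ (shift a V) = φ V) :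
    ∫⁻ V, φ V * ∑' w, F 0 w V ∂(PP ν) = ∫⁻ V, φ V * ∑' w, F w 0 V ∂(PP ν) := by
  have h1 : ∀ G : Site → (Site → ℝ) → ℝ≥0∞, (∀ w, Measurable (G w)) →
      ∫⁻ V, φ V * ∑' w, G w V ∂(PP ν) = ∑' w, ∫⁻ V, φ V * G w V ∂(PP ν) := by
    intro G hG
    have h0 := lintegral_tsum (μ := PP ν) (f := fun (w : Site) (V : Site → ℝ) => φ V * G w V)
      fun w => (hφ.mul (hG w)).aemeasurable
    rw [← h0]
    exact lintegral_congr fun V => (ENNReal.tsum_mul_left).symm
  rw [h1 (fun w => F 0 w) (fun w => hF 0 w), h1 (fun w => F w 0) (fun w => hF w 0)]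
  have h2 : ∀ w : Site, ∫⁻ V, φ V * F 0 w V ∂(PP ν) = ∫⁻ V, φ V * F (-w) 0 V ∂(PP ν) := by
    intro w
    have h0 := (shift_mp (ν := ν) w).lintegral_comp (f := fun V => φ V * F (-w) 0 V)
      (hφ.mul (hF (-w) 0))
    rw [← h0]
    refine lintegral_congr_ae ?_
    filter_upwards [hinv w] with V hV
    show φ V * F 0 w V = φ (shift w V) * F (-w) 0 (shift w V)
    rw [hV, hcov, add_neg_cancel, add_zero]
  rw [tsum_congr h2]
  exact (Equiv.neg Site).tsum_eq (fun w => ∫⁻ V, φ V * F w 0 V ∂(PP ν))

theorem pp_shift (hz : 0 < z.im) (a x : Site) : pp (shift a V) z x = pp V z (a + x) := by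
  unfold pp
  rw [gg_shift hz]
  rfl

theorem measurable_pp (hz : 0 < z.im) (x : Site) : Measurable fun V : Site → ℝ => pp V z x := by
  unfold pp
  exact (Complex.measurable_ofReal.comp (measurable_pi_apply x)).sub (measurable_gg_V hz x x).inv

/-- Ward identity in `ℝ≥0∞` -/
theorem ward_ennreal (hz : 0 < z.im) (x : Site) :
    ∑' w : Site, ENNReal.ofReal (z.im * ‖gg V z x w‖ ^ 2) = ENNReal.ofReal (gg V z x x).im := by
  rw [← ENNReal.ofReal_tsum_of_nonneg]
  · rw [tsum_mul_left, ward hz]
  · intro w; positivity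
  · exact (gg_hasSum hz x).summable.mul_left _

/-- (g) mass transport for the energy flow -/
theorem mass_transport_gg (hz : 0 < z.im) (τ : ℝ) {S : Set (Site → ℝ)} (hS : MeasurableSet S)
    (hinv : ∀ a : Site, shift a ⁻¹' S =ᵐ[PP ν] S) :
    ∫⁻ V in S, ∑' w : Site, ({V : Site → ℝ | (pp V z w).im < τ}.indicator
        (fun V => ENNReal.ofReal (z.im * ‖gg V z 0 w‖ ^ 2)) V) ∂(PP ν) =
      ∫⁻ V in S ∩ {V | (pp V z 0).im < τ}, ENNReal.ofReal (gg V z 0 0).im ∂(PP ν) := by
  have hA : ∀ w : Site, MeasurableSet {V : Site → ℝ | (pp V z w).im < τ} := fun w =>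
    measurableSet_lt (Complex.measurable_im.comp (measurable_pp hz w)) measurable_const
  have h := mass_transport (ν := ν)
    (F := fun x y V => {V : Site → ℝ | (pp V z y).im < τ}.indicator
        (fun V => ENNReal.ofReal (z.im * ‖gg V z x y‖ ^ 2)) V)
    (fun x y => Measurable.indicator
      (((measurable_gg_V hz x y).norm.pow_const 2).const_mul _).ennreal_ofReal (hA y))
    (by
      intro a x y V
      simp only [Set.indicator, Set.mem_setOf_eq, pp_shift hz, gg_shift hz])
    (φ := S.indicator fun _ => 1) (measurable_const.indicator hS)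
    (by
      intro a
      filter_upwards [hinv a] with V hV
      have hV' : (shift a V ∈ S) = (V ∈ S) := hV
      by_cases h : V ∈ S
      · rw [Set.indicator_of_mem h, Set.indicator_of_mem (by rw [hV']; exact h)]
      · rw [Set.indicator_of_notMem h, Set.indicator_of_notMem (by rw [hV']; exact h)])
  have hl : ∀ f : (Site → ℝ) → ℝ≥0∞, ∫⁻ V, S.indicator (fun _ => (1 : ℝ≥0∞)) V * f V ∂(PP ν) =
      ∫⁻ V in S, f V ∂(PP ν) := by
    intro f
    rw [← lintegral_indicator hS]
    refine lintegral_congr fun V => ?_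
    by_cases hV : V ∈ S
    · rw [Set.indicator_of_mem hV, Set.indicator_of_mem hV, one_mul]
    · rw [Set.indicator_of_notMem hV, Set.indicator_of_notMem hV, zero_mul]
  rw [hl, hl] at h
  rw [h]
  have h3 : ∀ V : Site → ℝ, ∑' w : Site, ({V : Site → ℝ | (pp V z 0).im < τ}.indicator
        (fun V => ENNReal.ofReal (z.im * ‖gg V z w 0‖ ^ 2)) V) =
      {V : Site → ℝ | (pp V z 0).im < τ}.indicator
        (fun V => ENNReal.ofReal (gg V z 0 0).im) V := by
    intro V
    by_cases hV : V ∈ {V : Site → ℝ | (pp V z 0).im < τ}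
    · simp only [Set.indicator_of_mem hV]
      rw [← ward_ennreal hz]
      exact tsum_congr fun w => by rw [gg_symm hz]
    · simp only [Set.indicator_of_notMem hV, tsum_zero]
  rw [lintegral_congr h3, lintegral_indicator (hA 0), Measure.restrict_restrict (hA 0),
    Set.inter_comm]

end P365L.E913
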