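import Vale.Agent.P365.E913.Alt
import Vale.Agent.P365.E913.Prob

set_option linter.all false

/-!
# P365 T1, soft end: the product law satisfies the facts about the law
-/

namespace P365L.E913

open MeasureTheory ProbabilityTheory Complex Filter Topology P365L.Inf
open scoped ENNReal InnerProductSpace

theorem eval_mp {ν : Measure ℝ} [IsProbabilityMeasure ν] (x : Site) :
    MeasurePreserving (fun V : Site → ℝ => V x) (PP ν) ν := by
  unfold PP
  exact measurePreserving_eval_infinitePi (fun _ : Site => ν) x

theorem law_PP {ν : Measure ℝ} [IsProbabilityMeasure ν] {K L : ℝ} (hK : 0 < K)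
    (hν : ν ≤ ENNReal.ofReal K • (volume : Measure ℝ)) (hL0 : 0 ≤ L)
    (hL : ∀ᵐ t ∂ν, |t| ≤ L) : Law (PP ν) ν K L where
  K0 := hK
  L0 := hL0
  res := fun y => resample y
  shiftP := fun a => shift_mp a
  bdd := by
    rw [ae_all_iff]
    intro x
    exact (eval_mp x).quasiMeasurePreserving.ae hL
  nuK := hν
  nuL := hL
  avg := by
    intro V z x hz
    have h2 : ∀ v : ℝ, ENNReal.ofReal (gg (Function.update V x v) z x x).im =
        ENNReal.ofReal (((v : ℂ) - pp V z x)⁻¹).im := fun v => by
      rw [gg_update_self hz]
    rw [lintegral_congr h2]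
    exact lintegral_im_le hK.le hν (pp_im_pos hz x)
  tail := fun z x T hz hT => wegner hK.le hν hz x hT

end P365L.E913
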