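import Mathlib
import Vale.Agent.P365.Inf.Wiener

/-!
# P365, (E1) of the SOFT END: approximate identities at Lebesgue points of a finite measure
(helper435)
-/

open MeasureTheory Filter Topology Set Metric
open scoped ENNReal NNReal

namespace P365L.E913

/-- the Poisson-type weight -/
noncomputable def pk (η s : ℝ) : ℝ := η / (s ^ 2 + η ^ 2)

theorem pk_nonneg {η : ℝ} (hη : 0 < η) (s : ℝ) : 0 ≤ pk η s := by unfold pk; positivity

theorem continuous_pk {η : ℝ} (hη : 0 < η) : Continuous (pk η) := by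
  unfold pk
  exact continuous_const.div (by fun_prop) fun s => by positivity

/-- the density of the layer-cake formula -/
noncomputable def gk (u : ℝ) : ℝ := 2 * u / (1 + u ^ 2) ^ 2

theorem gk_nonneg {u : ℝ} (hu : 0 ≤ u) : 0 ≤ gk u := by unfold gk; positivity

theorem continuous_gk : Continuous gk := by
  unfold gk
  exact Continuous.div (by fun_prop) (by fun_prop) fun u => by positivity

theorem hasDerivAt_gk (u : ℝ) : HasDerivAt (fun u : ℝ => -(1 + u ^ 2)⁻¹) (gk u) u := by
  have h1 : HasDerivAt (fun u : ℝ => 1 + u ^ 2) (2 * u) u := by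
    simpa using (hasDerivAt_pow 2 u).const_add 1
  have h2 : (1 + u ^ 2 : ℝ) ≠ 0 := by positivity
  have h3 := (h1.inv h2).neg
  have h4 : -(-(2 * u) / (1 + u ^ 2) ^ 2) = gk u := by unfold gk; ring
  rw [h4] at h3
  exact h3

theorem tendsto_gk : Tendsto (fun u : ℝ => -(1 + u ^ 2)⁻¹) atTop (𝓝 0) := by
  have h1 : Tendsto (fun u : ℝ => 1 + u ^ 2) atTop atTop :=
    tendsto_atTop_add_const_left _ _ (tendsto_pow_atTop (by norm_num))
  simpa using (tendsto_inv_atTop_zero.comp h1).neg

theorem lintegral_gk {a : ℝ} (ha : 0 ≤ a) :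
    ∫⁻ u in Ioi a, ENNReal.ofReal (gk u) = ENNReal.ofReal ((1 + a ^ 2)⁻¹) := by
  have h1 : IntegrableOn gk (Ioi a) :=
    integrableOn_Ioi_deriv_of_nonneg (l := 0) ((hasDerivAt_gk a).continuousAt.continuousWithinAt)
      (fun x _ => hasDerivAt_gk x) (fun x hx => gk_nonneg (ha.trans (le_of_lt hx))) tendsto_gk
  have h2 : ∫ u in Ioi a, gk u = 0 - (-(1 + a ^ 2)⁻¹) :=
    integral_Ioi_of_hasDerivAt_of_nonneg
      ((hasDerivAt_gk a).continuousAt.continuousWithinAt)
      (fun x _ => hasDerivAt_gk x) (fun x hx => gk_nonneg (ha.trans (le_of_lt hx))) tendsto_gk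
  rw [← ofReal_integral_eq_lintegral_ofReal h1, h2]
  · congr 1; ring
  · filter_upwards [ae_restrict_mem measurableSet_Ioi] with x hx
    exact gk_nonneg (ha.trans (le_of_lt hx))

/-- layer cake -/
theorem lintegral_pk (ν : Measure ℝ) [SFinite ν] (E : ℝ) {η : ℝ} (hη : 0 < η) :
    ∫⁻ t, ENNReal.ofReal (pk η (t - E)) ∂ν
      ≤ ∫⁻ u in Ioi (0 : ℝ), ENNReal.ofReal (gk u) *
          (ν (closedBall E (η * u)) * (ENNReal.ofReal η)⁻¹) := by
  have hpt : ∀ t : ℝ, ENNReal.ofReal (pk η (t - E))
      ≤ ∫⁻ u in Ioi (0 : ℝ), ENNReal.ofReal (gk u) *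
          ((closedBall E (η * u)).indicator (fun _ => 1) t * (ENNReal.ofReal η)⁻¹) := by
    intro t
    have ha : 0 ≤ |t - E| / η := by positivity
    have h1 : pk η (t - E) = (1 + (|t - E| / η) ^ 2)⁻¹ * η⁻¹ := by
      unfold pk
      rw [div_pow, sq_abs]
      field_simp
      ring
    rw [h1, ENNReal.ofReal_mul (by positivity), ← lintegral_gk ha, ENNReal.ofReal_inv_of_pos hη,
      ← lintegral_mul_const _ (by
        exact (continuous_gk.measurable.ennreal_ofReal))]
    calc ∫⁻ u in Ioi (|t - E| / η), ENNReal.ofReal (gk u) * (ENNReal.ofReal η)⁻¹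
        ≤ ∫⁻ u in Ioi (|t - E| / η), ENNReal.ofReal (gk u) *
          ((closedBall E (η * u)).indicator (fun _ => 1) t * (ENNReal.ofReal η)⁻¹) := by
          refine setLIntegral_mono' measurableSet_Ioi fun u hu => ?_
          have h2 : t ∈ closedBall E (η * u) := by
            rw [mem_closedBall, Real.dist_eq]
            have h3 : |t - E| / η < u := hu
            rw [div_lt_iff₀ hη] at h3
            linarith
          rw [indicator_of_mem h2]
          simp
      _ ≤ _ := lintegral_mono_set (Ioi_subset_Ioi ha)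
  refine (lintegral_mono hpt).trans (le_of_eq ?_)
  rw [lintegral_lintegral_swap]
  · refine lintegral_congr fun u => ?_
    rw [lintegral_const_mul _ (by
      exact (measurable_const.indicator measurableSet_closedBall).mul_const _),
      lintegral_mul_const _ (measurable_const.indicator measurableSet_closedBall),
      lintegral_indicator_const measurableSet_closedBall, one_mul]
  · refine Measurable.aemeasurable ?_
    have hm : MeasurableSet {p : ℝ × ℝ | p.1 ∈ closedBall E (η * p.2)} := by
      have : {p : ℝ × ℝ | p.1 ∈ closedBall E (η * p.2)} = {p : ℝ × ℝ | |p.1 - E| ≤ η * p.2} := by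
        ext p; simp [Real.dist_eq]
      rw [this]
      exact (isClosed_le (by fun_prop) (by fun_prop)).measurableSet
    have h2 : Measurable fun p : ℝ × ℝ => (closedBall E (η * p.2)).indicator
        (fun _ => (1 : ℝ≥0∞)) p.1 := by
      have : (fun p : ℝ × ℝ => (closedBall E (η * p.2)).indicator (fun _ => (1 : ℝ≥0∞)) p.1)
          = {p : ℝ × ℝ | p.1 ∈ closedBall E (η * p.2)}.indicator (fun _ => 1) := by
        funext p
        rfl
      rw [this]
      exact measurable_const.indicator hm
    exact ((continuous_gk.measurable.comp measurable_snd).ennreal_ofReal).mul (h2.mul_const _)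

/-- if `ν (B_r) ≤ C r` for all `r` and `ν (B_r) / r → 0`, then the Poisson averages of `ν` at `E`
tend to `0` -/
theorem tendsto_pk (ν : Measure ℝ) [SFinite ν] (E : ℝ) {C : ℝ} (hC : 0 ≤ C)
    (hb : ∀ r : ℝ, 0 < r → ν (closedBall E r) ≤ ENNReal.ofReal (C * r))
    (hl : Tendsto (fun r => ν (closedBall E r) * (ENNReal.ofReal r)⁻¹) (𝓝[>] 0) (𝓝 0)) :
    Tendsto (fun η => ∫⁻ t, ENNReal.ofReal (pk η (t - E)) ∂ν) (𝓝[>] 0) (𝓝 0) := by
  have hdom : Tendsto (fun η => ∫⁻ u in Ioi (0 : ℝ), ENNReal.ofReal (gk u) *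
          (ν (closedBall E (η * u)) * (ENNReal.ofReal η)⁻¹)) (𝓝[>] 0) (𝓝 0) := by
    have h0 : (0 : ℝ≥0∞) = ∫⁻ u in Ioi (0 : ℝ), (0 : ℝ≥0∞) := by simp
    rw [h0]
    refine tendsto_lintegral_filter_of_dominated_convergence
      (fun u => ENNReal.ofReal (2 * C * (1 + u ^ 2)⁻¹)) ?_ ?_ ?_ ?_
    · filter_upwards [self_mem_nhdsWithin] with η hη
      have hη : 0 < η := hη
      have hmono : Monotone fun u : ℝ => ν (closedBall E (η * u)) := by
        intro u v huv
        exact measure_mono (closedBall_subset_closedBall (mul_le_mul_of_nonneg_left huv hη.le))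
      exact (continuous_gk.measurable.ennreal_ofReal).mul
        (hmono.measurable.mul_const _)
    · filter_upwards [self_mem_nhdsWithin] with η hη
      have hη : 0 < η := hη
      filter_upwards [ae_restrict_mem measurableSet_Ioi] with u hu
      have hu : 0 < u := hu
      have h1 := hb (η * u) (by positivity)
      calc ENNReal.ofReal (gk u) * (ν (closedBall E (η * u)) * (ENNReal.ofReal η)⁻¹)
          ≤ ENNReal.ofReal (gk u) * (ENNReal.ofReal (C * (η * u)) * (ENNReal.ofReal η)⁻¹) := by
            gcongr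
        _ = ENNReal.ofReal (gk u * (C * u)) := by
            rw [← ENNReal.ofReal_inv_of_pos hη, ← ENNReal.ofReal_mul (by positivity),
              ← ENNReal.ofReal_mul (gk_nonneg hu.le)]
            congr 2
            field_simp
        _ ≤ ENNReal.ofReal (2 * C * (1 + u ^ 2)⁻¹) := by
            refine ENNReal.ofReal_le_ofReal ?_
            unfold gk
            have h3 : 0 < 1 + u ^ 2 := by positivity
            rw [div_mul_eq_mul_div, div_le_iff₀ (by positivity)]
            have h4 : 2 * C * (1 + u ^ 2)⁻¹ * (1 + u ^ 2) ^ 2 = 2 * C * (1 + u ^ 2) := by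
              field_simp
            rw [h4]
            nlinarith
    · have h1 : Integrable fun u : ℝ => 2 * C * (1 + u ^ 2)⁻¹ :=
        integrable_inv_one_add_sq.const_mul _
      have h2 := h1.restrict (s := Ioi (0 : ℝ))
      have h3 : ∀ u : ℝ, 0 ≤ 2 * C * (1 + u ^ 2)⁻¹ := fun u => by positivity
      rw [← ofReal_integral_eq_lintegral_ofReal h2 (ae_of_all _ h3)]
      exact ENNReal.ofReal_ne_top
    · filter_upwards [ae_restrict_mem measurableSet_Ioi] with u hu
      have hu : 0 < u := hu
      have h1 : Tendsto (fun η : ℝ => η * u) (𝓝[>] 0) (𝓝[>] 0) := by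
        refine tendsto_nhdsWithin_iff.2 ⟨?_, ?_⟩
        · have : Tendsto (fun η : ℝ => η * u) (𝓝 0) (𝓝 (0 * u)) := by
            exact (continuous_id.mul continuous_const).tendsto 0
          rw [zero_mul] at this
          exact this.mono_left nhdsWithin_le_nhds
        · filter_upwards [self_mem_nhdsWithin] with η hη
          exact mul_pos hη hu
      have h2 := hl.comp h1
      have h3 : Tendsto (fun η : ℝ => ENNReal.ofReal (gk u * u) *
          (ν (closedBall E (η * u)) * (ENNReal.ofReal (η * u))⁻¹)) (𝓝[>] 0) (𝓝 0) := by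
        have := ENNReal.Tendsto.const_mul (a := ENNReal.ofReal (gk u * u)) h2
          (Or.inr ENNReal.ofReal_ne_top)
        simpa using this
      refine h3.congr' ?_
      filter_upwards [self_mem_nhdsWithin] with η hη
      have hη : 0 < η := hη
      rw [ENNReal.ofReal_mul (gk_nonneg hu.le), ENNReal.ofReal_mul hη.le,
        ENNReal.mul_inv (Or.inl (by simpa using hη)) (Or.inl ENNReal.ofReal_ne_top)]
      have h5 : ENNReal.ofReal u * (ENNReal.ofReal u)⁻¹ = 1 :=
        ENNReal.mul_inv_cancel (by simpa using hu) ENNReal.ofReal_ne_top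
      calc ENNReal.ofReal (gk u) * ENNReal.ofReal u * (ν (closedBall E (η * u)) *
            ((ENNReal.ofReal η)⁻¹ * (ENNReal.ofReal u)⁻¹))
          = ENNReal.ofReal (gk u) * (ν (closedBall E (η * u)) * (ENNReal.ofReal η)⁻¹) *
            (ENNReal.ofReal u * (ENNReal.ofReal u)⁻¹) := by ring
        _ = _ := by rw [h5, mul_one]
  refine tendsto_of_tendsto_of_tendsto_of_le_of_le' tendsto_const_nhds hdom
    (Eventually.of_forall fun _ => zero_le) ?_
  filter_upwards [self_mem_nhdsWithin] with η hη
  exact lintegral_pk ν E hη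

/-- the bad part of the measure `μ` at the point `E` -/
noncomputable def bad (μ : Measure ℝ) (E : ℝ) : Measure ℝ :=
  μ.singularPart volume + (volume : Measure ℝ).withDensity
    fun t => ‖(μ.rnDeriv volume t).toReal - (μ.rnDeriv volume E).toReal‖ₑ

theorem measurable_rn (μ : Measure ℝ) (E : ℝ) :
    Measurable fun t => ‖(μ.rnDeriv volume t).toReal - (μ.rnDeriv volume E).toReal‖ₑ := by
  have := (Measure.measurable_rnDeriv μ volume).ennreal_toReal
  fun_prop

theorem integrable_rn (μ : Measure ℝ) [IsFiniteMeasure μ] :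
    Integrable (fun t => (μ.rnDeriv volume t).toReal) (volume : Measure ℝ) :=
  Measure.integrable_toReal_rnDeriv

instance sfinite_bad (μ : Measure ℝ) [IsFiniteMeasure μ] (E : ℝ) : SFinite (bad μ E) := by
  unfold bad
  infer_instance

theorem ae_bad (μ : Measure ℝ) [IsFiniteMeasure μ] : ∀ᵐ E ∂(volume : Measure ℝ),
    Tendsto (fun η => ∫⁻ t, ENNReal.ofReal (pk η (t - E)) ∂(bad μ E)) (𝓝[>] 0) (𝓝 0) := by
  have h1 := (Besicovitch.vitaliFamily (volume : Measure ℝ)).ae_eventually_measure_zero_of_singular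
    (Measure.mutuallySingular_singularPart μ (volume : Measure ℝ))
  have h2 := (Besicovitch.vitaliFamily
    (volume : Measure ℝ)).ae_tendsto_lintegral_enorm_sub_div (integrable_rn μ).locallyIntegrable
  filter_upwards [h1, h2] with E hE1 hE2
  have hB := Besicovitch.tendsto_filterAt (volume : Measure ℝ) E
  have h3 := (hE1.comp hB).add (hE2.comp hB)
  rw [add_zero] at h3
  have hval : ∀ r : ℝ, bad μ E (closedBall E r) = μ.singularPart volume (closedBall E r) +
      ∫⁻ t in closedBall E r, ‖(μ.rnDeriv volume t).toReal - (μ.rnDeriv volume E).toReal‖ₑ := by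
    intro r
    rw [bad, Measure.add_apply, withDensity_apply _ measurableSet_closedBall]
  have h4 : Tendsto (fun r => bad μ E (closedBall E r) * (ENNReal.ofReal r)⁻¹) (𝓝[>] 0) (𝓝 0) := by
    have h5 := ENNReal.Tendsto.const_mul (a := 2) h3 (Or.inr (by norm_num))
    rw [mul_zero] at h5
    refine h5.congr' ?_
    filter_upwards [self_mem_nhdsWithin] with r hr
    have hr : 0 < r := hr
    simp only [Function.comp_apply]
    rw [hval, Real.volume_closedBall, ← ENNReal.add_div, ENNReal.ofReal_mul (by norm_num),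
      ENNReal.div_eq_inv_mul, ENNReal.mul_inv (Or.inl (by simp)) (Or.inl (by simp))]
    have h6 : (2 : ℝ≥0∞) * (ENNReal.ofReal 2)⁻¹ = 1 := by
      rw [ENNReal.ofReal_ofNat]
      exact ENNReal.mul_inv_cancel (by norm_num) (by norm_num)
    have h7 : ∀ a b c : ℝ≥0∞, 2 * (a * b * c) = (2 * a) * (c * b) := fun a b c => by ring
    rw [h7, h6, one_mul]
  -- the global bound
  have h7 : ∀ᶠ r in 𝓝[>] (0 : ℝ), bad μ E (closedBall E r) * (ENNReal.ofReal r)⁻¹ < 1 :=
    h4.eventually_lt_const (by norm_num)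
  obtain ⟨r₀, hr₀, h8⟩ := mem_nhdsGT_iff_exists_Ioo_subset.1 h7
  have hr₀ : 0 < r₀ := hr₀
  set K : ℝ≥0∞ := μ.singularPart volume univ + ∫⁻ t, ‖(μ.rnDeriv volume t).toReal‖ₑ with hK
  have hKt : K ≠ ⊤ := by
    refine ENNReal.add_ne_top.2 ⟨measure_ne_top _ _, ?_⟩
    exact (integrable_rn μ).2.ne
  refine tendsto_pk (bad μ E) E (C := 1 + K.toReal / r₀ + 2 * |(μ.rnDeriv volume E).toReal|)
    (by positivity) ?_ h4
  intro r hr
  by_cases hrr : r < r₀
  · have h9 : bad μ E (closedBall E r) * (ENNReal.ofReal r)⁻¹ < 1 := h8 ⟨hr, hrr⟩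
    have h10 : bad μ E (closedBall E r) ≤ ENNReal.ofReal r := by
      have h11 := h9.le
      have h12 : ENNReal.ofReal r ≠ 0 := by simpa using hr
      rw [← div_eq_mul_inv] at h11
      exact (ENNReal.div_le_iff h12 ENNReal.ofReal_ne_top).1 h11 |>.trans (by rw [one_mul])
    refine h10.trans (ENNReal.ofReal_le_ofReal ?_)
    have h11 : 0 ≤ K.toReal / r₀ := by positivity
    have h12 : 0 ≤ 2 * |(μ.rnDeriv volume E).toReal| := by positivity
    nlinarith
  · have hrr : r₀ ≤ r := not_lt.1 hrr
    rw [hval]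
    have h9 : ∫⁻ t in closedBall E r,
        ‖(μ.rnDeriv volume t).toReal - (μ.rnDeriv volume E).toReal‖ₑ
        ≤ (∫⁻ t, ‖(μ.rnDeriv volume t).toReal‖ₑ) +
          ENNReal.ofReal |(μ.rnDeriv volume E).toReal| * ENNReal.ofReal (2 * r) := by
      calc ∫⁻ t in closedBall E r,
          ‖(μ.rnDeriv volume t).toReal - (μ.rnDeriv volume E).toReal‖ₑ
          ≤ ∫⁻ t in closedBall E r, (‖(μ.rnDeriv volume t).toReal‖ₑ +
            ENNReal.ofReal |(μ.rnDeriv volume E).toReal|) := by
            refine lintegral_mono fun t => ?_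
            rw [← Real.enorm_eq_ofReal_abs]
            exact enorm_sub_le
        _ = (∫⁻ t in closedBall E r, ‖(μ.rnDeriv volume t).toReal‖ₑ) +
            ENNReal.ofReal |(μ.rnDeriv volume E).toReal| * volume (closedBall E r) := by
            rw [lintegral_add_right _ measurable_const, setLIntegral_const]
        _ ≤ _ := by
            rw [Real.volume_closedBall]
            gcongr
            exact Measure.restrict_le_self
    calc μ.singularPart volume (closedBall E r) + ∫⁻ t in closedBall E r,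
          ‖(μ.rnDeriv volume t).toReal - (μ.rnDeriv volume E).toReal‖ₑ
        ≤ μ.singularPart volume univ + ((∫⁻ t, ‖(μ.rnDeriv volume t).toReal‖ₑ) +
          ENNReal.ofReal |(μ.rnDeriv volume E).toReal| * ENNReal.ofReal (2 * r)) :=
          add_le_add (measure_mono (subset_univ _)) h9
      _ = ENNReal.ofReal K.toReal + ENNReal.ofReal (|(μ.rnDeriv volume E).toReal| * (2 * r)) := by
          rw [ENNReal.ofReal_toReal hKt, hK, ENNReal.ofReal_mul (abs_nonneg _), add_assoc]
      _ = ENNReal.ofReal (K.toReal + |(μ.rnDeriv volume E).toReal| * (2 * r)) := by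
          rw [ENNReal.ofReal_add (by positivity) (by positivity)]
      _ ≤ _ := by
          refine ENNReal.ofReal_le_ofReal ?_
          have h11 : K.toReal ≤ K.toReal / r₀ * r := by
            rw [div_mul_eq_mul_div, le_div_iff₀ hr₀]
            exact mul_le_mul_of_nonneg_left hrr ENNReal.toReal_nonneg
          nlinarith [abs_nonneg (μ.rnDeriv volume E).toReal]

theorem integrable_pk {η : ℝ} (hη : 0 < η) : Integrable (pk η) := by
  have h1 := (integrable_inv_one_add_sq.comp_div hη.ne').const_mul (η⁻¹)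
  refine h1.congr (ae_of_all _ fun s => ?_)
  simp only [pk]
  rw [div_pow]
  field_simp
  ring

/-- general kernels -/
theorem kernel_lim (μ : Measure ℝ) [IsFiniteMeasure μ] : ∀ᵐ E ∂(volume : Measure ℝ),
    ∀ (K : ℝ → ℝ → ℂ) (C : ℝ) (c : ℂ), 0 ≤ C → (∀ η, 0 < η → Continuous (K η)) →
      (∀ η, 0 < η → ∀ s, ‖K η s‖ ≤ C * pk η s) → (∀ η, 0 < η → ∫ s, K η s = c) →
      Tendsto (fun η => ∫ t, K η (t - E) ∂μ) (𝓝[>] 0)
        (𝓝 (c * ((μ.rnDeriv volume E).toReal : ℂ))) := by
  filter_upwards [ae_bad μ] with E hE K C c hC hcont hbd hint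
  have hlim : Tendsto (fun η => ENNReal.ofReal C *
      ∫⁻ t, ENNReal.ofReal (pk η (t - E)) ∂(bad μ E)) (𝓝[>] 0) (𝓝 0) := by
    have := ENNReal.Tendsto.const_mul (a := ENNReal.ofReal C) hE (Or.inr ENNReal.ofReal_ne_top)
    simpa using this
  rw [tendsto_iff_edist_tendsto_0]
  refine tendsto_of_tendsto_of_tendsto_of_le_of_le' tendsto_const_nhds hlim
    (Eventually.of_forall fun _ => zero_le) ?_
  filter_upwards [self_mem_nhdsWithin] with η hη
  have hη : 0 < η := hη
  have hφc : Continuous fun t => K η (t - E) := (hcont η hη).comp (by fun_prop)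
  have hφb : ∀ t, ‖K η (t - E)‖ ≤ C / η := by
    intro t
    refine (hbd η hη _).trans ?_
    rw [div_eq_mul_inv]
    refine mul_le_mul_of_nonneg_left ?_ hC
    unfold pk
    rw [div_le_iff₀ (by positivity)]
    have : η⁻¹ * η ^ 2 = η := by field_simp
    have h3 : 0 ≤ η⁻¹ * (t - E) ^ 2 := by positivity
    nlinarith
  have hφfin : ∀ (ν : Measure ℝ) [IsFiniteMeasure ν], Integrable (fun t => K η (t - E)) ν := by
    intro ν _
    exact Integrable.of_bound hφc.aestronglyMeasurable (C / η) (ae_of_all _ hφb)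
  have hpkE : Integrable (fun t => C * pk η (t - E)) :=
    ((integrable_pk hη).comp_sub_right E).const_mul C
  have hφvol : Integrable fun t => K η (t - E) :=
    hpkE.mono' hφc.aestronglyMeasurable (ae_of_all _ fun t => hbd η hη _)
  have hcE : ∫ t, K η (t - E) = c := by
    rw [integral_sub_right_eq_self (fun s => K η s) E]
    exact hint η hη
  have hfφ : Integrable fun t => (μ.rnDeriv volume t).toReal • K η (t - E) := by
    refine Integrable.mono' ((integrable_rn μ).mul_const (C / η)) ?_ (ae_of_all _ fun t => ?_)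
    · exact ((Measure.measurable_rnDeriv μ volume).ennreal_toReal.aestronglyMeasurable).smul
        hφc.aestronglyMeasurable
    · rw [norm_smul, Real.norm_of_nonneg ENNReal.toReal_nonneg]
      exact mul_le_mul_of_nonneg_left (hφb t) ENNReal.toReal_nonneg
  have hdec : ∫ t, K η (t - E) ∂μ = (∫ t, K η (t - E) ∂(μ.singularPart volume)) +
      ∫ t, (μ.rnDeriv volume t).toReal • K η (t - E) := by
    conv_lhs => rw [Measure.haveLebesgueDecomposition_add μ (volume : Measure ℝ)]
    rw [integral_add_measure (hφfin _) (hφfin _), integral_withDensity_eq_integral_toReal_smul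
      (Measure.measurable_rnDeriv μ volume) (Measure.rnDeriv_lt_top μ volume)]
  have hdiff : (∫ t, K η (t - E) ∂μ) - c * ((μ.rnDeriv volume E).toReal : ℂ) =
      (∫ t, K η (t - E) ∂(μ.singularPart volume)) +
      ∫ t, ((μ.rnDeriv volume t).toReal - (μ.rnDeriv volume E).toReal) • K η (t - E) := by
    have h1 : ∫ t, ((μ.rnDeriv volume t).toReal - (μ.rnDeriv volume E).toReal) • K η (t - E) =
        (∫ t, (μ.rnDeriv volume t).toReal • K η (t - E)) -
          ∫ t, (μ.rnDeriv volume E).toReal • K η (t - E) := by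
      have h2 : Integrable fun t => (μ.rnDeriv volume E).toReal • K η (t - E) :=
        hφvol.smul (μ.rnDeriv volume E).toReal
      rw [← integral_sub hfφ h2]
      exact integral_congr_ae (ae_of_all _ fun t => sub_smul _ _ _)
    rw [h1, integral_smul, hcE, hdec, Complex.real_smul]
    ring
  rw [edist_eq_enorm_sub, hdiff]
  refine (enorm_add_le _ _).trans ?_
  have hen : ∀ t, ‖K η (t - E)‖ₑ ≤ ENNReal.ofReal C * ENNReal.ofReal (pk η (t - E)) := by
    intro t
    rw [← ENNReal.ofReal_mul hC, ← ofReal_norm]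
    exact ENNReal.ofReal_le_ofReal (hbd η hη _)
  have hmeas : Measurable fun t => ENNReal.ofReal (pk η (t - E)) :=
    ((continuous_pk hη).comp (by fun_prop : Continuous fun t : ℝ => t - E)).measurable.ennreal_ofReal
  rw [bad, lintegral_add_measure, mul_add]
  refine add_le_add ?_ ?_
  · refine (enorm_integral_le_lintegral_enorm _).trans ?_
    rw [← lintegral_const_mul _ hmeas]
    exact lintegral_mono hen
  · refine (enorm_integral_le_lintegral_enorm _).trans ?_
    rw [lintegral_withDensity_eq_lintegral_mul _ (measurable_rn μ E) hmeas,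
      ← lintegral_const_mul _ ((measurable_rn μ E).mul hmeas)]
    refine lintegral_mono fun t => ?_
    rw [enorm_smul, Pi.mul_apply]
    calc ‖(μ.rnDeriv volume t).toReal - (μ.rnDeriv volume E).toReal‖ₑ * ‖K η (t - E)‖ₑ
        ≤ ‖(μ.rnDeriv volume t).toReal - (μ.rnDeriv volume E).toReal‖ₑ *
          (ENNReal.ofReal C * ENNReal.ofReal (pk η (t - E))) := by
          gcongr
          exact hen t
      _ = _ := by ring

theorem integral_pk {η : ℝ} (hη : 0 < η) : ∫ s, pk η s = Real.pi := by
  have h1 : ∀ s, pk η s = η⁻¹ * (1 + (s / η) ^ 2)⁻¹ := by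
    intro s
    unfold pk
    rw [div_pow]
    field_simp
    ring
  simp_rw [h1]
  rw [integral_const_mul, Measure.integral_comp_div (fun u => (1 + u ^ 2)⁻¹) η,
    integral_univ_inv_one_add_sq, smul_eq_mul, abs_of_pos hη]
  field_simp

/-- **(E1).** Borel transforms at almost every point. -/
theorem leb_pt (μ : Measure ℝ) [IsFiniteMeasure μ] : ∀ᵐ E ∂(volume : Measure ℝ),
    Tendsto (fun ε : ℝ => ∫ t, ε / ((t - E) ^ 2 + ε ^ 2) ∂μ) (𝓝[>] 0)
      (𝓝 (Real.pi * (μ.rnDeriv volume E).toReal)) ∧
    Tendsto (fun ε : ℝ => ∫ t, (ε : ℂ) / ((t : ℂ) - (E + ε * Complex.I)) ^ 2 ∂μ) (𝓝[>] 0)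
      (𝓝 0) ∧
    ∀ M : ℝ, 1 ≤ M → Tendsto (fun ε : ℝ => Inf.BT μ E ε - Inf.BT μ E (M * ε)) (𝓝[>] 0) (𝓝 0) := by
  filter_upwards [kernel_lim μ] with E hE
  have hne : ∀ η : ℝ, 0 < η → ∀ s : ℝ, (s : ℂ) - η * Complex.I ≠ 0 := by
    intro η hη s h
    have := congrArg Complex.im h
    simp at this
    exact hη.ne' this
  have hnorm : ∀ η : ℝ, ∀ s : ℝ, ‖(s : ℂ) - η * Complex.I‖ ^ 2 = s ^ 2 + η ^ 2 := by
    intro η s
    rw [← Complex.normSq_eq_norm_sq, Complex.normSq_apply]
    simp
    ring
  refine ⟨?_, ?_, ?_⟩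
  · -- Poisson kernel
    have h := hE (fun η s => ((pk η s : ℝ) : ℂ)) 1 (Real.pi : ℂ) zero_le_one
      (fun η hη => Complex.continuous_ofReal.comp (continuous_pk hη))
      (fun η hη s => by
        rw [one_mul, Complex.norm_real, Real.norm_of_nonneg (pk_nonneg hη s)])
      (fun η hη => by
        rw [integral_complex_ofReal, integral_pk hη])
    have h2 := (Complex.continuous_re.tendsto _).comp h
    have e1 : (((Real.pi : ℂ) * ((μ.rnDeriv volume E).toReal : ℂ)).re) =
        Real.pi * (μ.rnDeriv volume E).toReal := by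
      rw [← Complex.ofReal_mul, Complex.ofReal_re]
    rw [e1] at h2
    refine h2.congr fun η => ?_
    simp only [Function.comp_apply]
    rw [integral_complex_ofReal, Complex.ofReal_re]
    rfl
  · have h := hE (fun η s => (η : ℂ) / ((s : ℂ) - η * Complex.I) ^ 2) 1 0 zero_le_one
      (fun η hη => continuous_const.div (by fun_prop) fun s => pow_ne_zero 2 (hne η hη s))
      (fun η hη s => by
        rw [one_mul, norm_div, norm_pow, hnorm, Complex.norm_real, Real.norm_of_nonneg hη.le]
        rfl)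
      (fun η hη => by
        have hd : ∀ s : ℝ, HasDerivAt (fun s : ℝ => -((η : ℂ) * ((s : ℂ) - η * Complex.I)⁻¹))
            ((η : ℂ) / ((s : ℂ) - η * Complex.I) ^ 2) s := by
          intro s
          have h1 : HasDerivAt (fun s : ℝ => (s : ℂ) - η * Complex.I) 1 s :=
            (Complex.ofRealCLM.hasDerivAt (x := s)).sub_const _
          have h2 := ((h1.inv (hne η hη s)).const_mul (η : ℂ)).neg
          have h3 : -((η : ℂ) * (-1 / ((s : ℂ) - η * Complex.I) ^ 2)) =
              (η : ℂ) / ((s : ℂ) - η * Complex.I) ^ 2 := by ring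
          rw [h3] at h2
          exact h2
        have hint : Integrable fun s : ℝ => (η : ℂ) / ((s : ℂ) - η * Complex.I) ^ 2 := by
          refine (integrable_pk hη).mono' ?_ (ae_of_all _ fun s => ?_)
          · exact (continuous_const.div (by fun_prop) fun s =>
              pow_ne_zero 2 (hne η hη s)).aestronglyMeasurable
          · rw [norm_div, norm_pow, hnorm, Complex.norm_real, Real.norm_of_nonneg hη.le]
            rfl
        have hlim : ∀ l : Filter ℝ, Tendsto (fun t : ℝ => |t|) l atTop →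
            Tendsto (fun s : ℝ => -((η : ℂ) * ((s : ℂ) - η * Complex.I)⁻¹)) l (𝓝 0) := by
          intro l hl
          have h1 : Tendsto (fun s : ℝ => ((s : ℂ) - η * Complex.I)⁻¹) l (𝓝 0) := by
            refine tendsto_inv₀_cobounded.comp ?_
            rw [← tendsto_norm_atTop_iff_cobounded]
            refine tendsto_atTop_mono (fun s => ?_) hl
            have h2 := Complex.abs_re_le_norm ((s : ℂ) - η * Complex.I)
            simpa using h2
          simpa using (h1.const_mul (η : ℂ)).neg
        rw [integral_of_hasDerivAt_of_tendsto hd hint (hlim _ tendsto_abs_atBot_atTop)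
          (hlim _ tendsto_abs_atTop_atTop), sub_zero])
    rw [zero_mul] at h
    refine h.congr fun η => ?_
    refine integral_congr_ae (ae_of_all _ fun t => ?_)
    simp only [Complex.ofReal_sub]
    congr 2
    ring
  · intro M hM
    have hM0 : 0 < M := lt_of_lt_of_le one_pos hM
    have hcont : ∀ η : ℝ, 0 < η → Continuous fun s : ℝ =>
        ((s : ℂ) - η * Complex.I)⁻¹ - ((s : ℂ) - (M * η : ℝ) * Complex.I)⁻¹ := by
      intro η hη
      exact (Continuous.inv₀ (by fun_prop) (hne η hη)).sub
        (Continuous.inv₀ (by fun_prop) (hne (M * η) (mul_pos hM0 hη)))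
    have hbd : ∀ η : ℝ, 0 < η → ∀ s : ℝ,
        ‖((s : ℂ) - η * Complex.I)⁻¹ - ((s : ℂ) - (M * η : ℝ) * Complex.I)⁻¹‖ ≤
          (M - 1) * pk η s := by
      intro η hη s
      have h1 := hne η hη s
      have h2 := hne (M * η) (mul_pos hM0 hη) s
      have e1 : ((s : ℂ) - η * Complex.I)⁻¹ - ((s : ℂ) - (M * η : ℝ) * Complex.I)⁻¹ =
          ((-((M - 1) * η) : ℝ) : ℂ) * Complex.I /
            (((s : ℂ) - η * Complex.I) * ((s : ℂ) - (M * η : ℝ) * Complex.I)) := by
        rw [inv_sub_inv h1 h2]
        congr 1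
        push_cast
        ring
      have h3 : ‖(s : ℂ) - η * Complex.I‖ ≤ ‖(s : ℂ) - (M * η : ℝ) * Complex.I‖ := by
        refine le_of_sq_le_sq ?_ (norm_nonneg _)
        rw [hnorm, hnorm]
        have : η ^ 2 ≤ (M * η) ^ 2 := by
          rw [mul_pow]
          nlinarith [sq_nonneg η, mul_pos hη hη, mul_nonneg (sub_nonneg.2 hM) (sub_nonneg.2 hM)]
        linarith
      have h4 : 0 < ‖(s : ℂ) - η * Complex.I‖ := norm_pos_iff.2 h1
      rw [e1, norm_div, norm_mul, norm_mul, Complex.norm_I, mul_one, Complex.norm_real,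
        Real.norm_eq_abs, abs_neg, abs_of_nonneg (mul_nonneg (sub_nonneg.2 hM) hη.le), pk,
        ← hnorm η s, ← mul_div_assoc]
      refine div_le_div_of_nonneg_left (mul_nonneg (sub_nonneg.2 hM) hη.le) (by positivity) ?_
      rw [sq]
      exact mul_le_mul_of_nonneg_left h3 h4.le
    have hint : ∀ η : ℝ, 0 < η → Integrable fun s : ℝ =>
        ((s : ℂ) - η * Complex.I)⁻¹ - ((s : ℂ) - (M * η : ℝ) * Complex.I)⁻¹ := by
      intro η hη
      exact ((integrable_pk hη).const_mul (M - 1)).mono' (hcont η hη).aestronglyMeasurable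
        (ae_of_all _ fun s => hbd η hη s)
    have hconj : ∀ η s : ℝ, ((( -s : ℝ) : ℂ) - η * Complex.I)⁻¹ =
        - (starRingEnd ℂ) (((s : ℂ) - η * Complex.I)⁻¹) := by
      intro η s
      rw [map_inv₀, ← inv_neg]
      congr 1
      simp
      ring
    have him : ∀ η s : ℝ, (((s : ℂ) - η * Complex.I)⁻¹).im = pk η s := by
      intro η s
      rw [Complex.inv_im, Complex.normSq_eq_norm_sq, hnorm]
      simp [pk]
    have hzero : ∀ η : ℝ, 0 < η → ∫ s : ℝ,
        (((s : ℂ) - η * Complex.I)⁻¹ - ((s : ℂ) - (M * η : ℝ) * Complex.I)⁻¹) = 0 := by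
      intro η hη
      have h1 : (∫ s : ℝ, (((s : ℂ) - η * Complex.I)⁻¹ -
          ((s : ℂ) - (M * η : ℝ) * Complex.I)⁻¹)) =
          -(starRingEnd ℂ) (∫ s : ℝ, (((s : ℂ) - η * Complex.I)⁻¹ -
          ((s : ℂ) - (M * η : ℝ) * Complex.I)⁻¹)) := by
        rw [← integral_conj, ← integral_neg]
        conv_lhs => rw [← integral_neg_eq_self]
        refine integral_congr_ae (ae_of_all _ fun s => ?_)
        simp only
        rw [hconj, hconj, map_sub]
        ring
      have h2 := congrArg Complex.re h1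
      rw [Complex.neg_re, Complex.conj_re] at h2
      have h3 : (∫ s : ℝ, (((s : ℂ) - η * Complex.I)⁻¹ -
          ((s : ℂ) - (M * η : ℝ) * Complex.I)⁻¹)).im = 0 := by
        have h4 := Complex.imCLM.integral_comp_comm (hint η hη)
        simp only [Complex.imCLM_apply] at h4
        rw [← h4]
        have h5 : ∀ s : ℝ, (((s : ℂ) - η * Complex.I)⁻¹ -
            ((s : ℂ) - (M * η : ℝ) * Complex.I)⁻¹).im = pk η s - pk (M * η) s := by
          intro s
          rw [Complex.sub_im, him, him]
        simp_rw [h5]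
        rw [integral_sub (integrable_pk hη) (integrable_pk (mul_pos hM0 hη)), integral_pk hη,
          integral_pk (mul_pos hM0 hη), sub_self]
      apply Complex.ext
      · simp only [Complex.zero_re]
        linarith
      · simpa using h3
    have h := hE (fun η s => ((s : ℂ) - η * Complex.I)⁻¹ - ((s : ℂ) - (M * η : ℝ) * Complex.I)⁻¹)
      (M - 1) 0 (sub_nonneg.2 hM) hcont hbd hzero
    rw [zero_mul] at h
    refine h.congr' ?_
    filter_upwards [self_mem_nhdsWithin] with η hη
    have hη : 0 < η := hη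
    have hbI : ∀ e : ℝ, 0 < e → Integrable (fun t : ℝ => ((t : ℂ) - (E + e * Complex.I))⁻¹) μ := by
      intro e he
      refine Integrable.of_bound ?_ (e⁻¹) (ae_of_all _ fun t => ?_)
      · refine (Continuous.inv₀ (by fun_prop) fun t => ?_).aestronglyMeasurable
        have := hne e he (t - E)
        rw [Complex.ofReal_sub] at this
        rwa [← sub_sub]
      · rw [norm_inv]
        refine inv_anti₀ he ?_
        have h2 := Complex.abs_im_le_norm ((t : ℂ) - (E + e * Complex.I))
        have h3 : ((t : ℂ) - (E + e * Complex.I)).im = -e := by simp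
        rw [h3, abs_neg, abs_of_pos he] at h2
        exact h2
    unfold Inf.BT
    rw [← integral_sub (hbI η hη) (hbI (M * η) (mul_pos hM0 hη))]
    refine integral_congr_ae (ae_of_all _ fun t => ?_)
    simp only [Complex.ofReal_sub]
    congr 2 <;> ring

theorem singular_of_rnDeriv (μ : Measure ℝ) [IsFiniteMeasure μ]
    (h : ∀ᵐ E ∂(volume : Measure ℝ), (μ.rnDeriv volume E).toReal = 0) : μ ⟂ₘ volume := by
  rw [← Measure.rnDeriv_eq_zero]
  filter_upwards [h, Measure.rnDeriv_lt_top μ volume] with E h1 h2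
  rcases (ENNReal.toReal_eq_zero_iff _).1 h1 with h3 | h3
  · simpa using h3
  · exact absurd h3 h2.ne

end P365L.E913
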