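import Vale.Agent.P365.T1.PeelTor963
import Vale.Agent.P365.T1.Animals770

/-!
# P365 T1 (B7): not NORMAL gives a long cluster near `x`
-/

set_option linter.all false

namespace P365T1.Pair

open Finset P365L P365T1.Peel

variable {N : ℕ} [NeZero N] {Λ : Type*} [DecidableEq Λ]

/-- an injective range-5 chain of sites of `S` lies in one cluster -/
theorem card_le_of_chain {S : Finset (Tor N)} {n : ℕ} {p : ℕ → Tor N}
    (h1 : ∀ i ≤ n, p i ∈ S) (h2 : ∀ i < n, nrm (p (i + 1) - p i) ≤ 5)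
    (h3 : ∀ i ≤ n, ∀ i' ≤ n, p i = p i' → i = i') :
    n + 1 ≤ (P365T1.Ani.Kc P365T1.Ani.R5 S (p 0)).card := by
  have hr : ∀ i ≤ n, Relation.ReflTransGen (P365T1.Ani.Lk P365T1.Ani.R5 S) (p 0) (p i) := by
    intro i
    induction i with
    | zero => intro _; exact Relation.ReflTransGen.refl
    | succ i ih =>
      intro hi
      exact (ih (by omega)).tail ⟨h1 i (by omega), h1 (i + 1) hi, h2 i (by omega)⟩
  have hsub : (range (n + 1)).image p ⊆ P365T1.Ani.Kc P365T1.Ani.R5 S (p 0) := by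
    intro z hz
    obtain ⟨i, hi, rfl⟩ := mem_image.1 hz
    have hi' : i ≤ n := by have := mem_range.1 hi; omega
    exact P365T1.Ani.mem_Kc.2 ⟨h1 i hi', hr i hi'⟩
  have hcard : ((range (n + 1)).image p).card = n + 1 := by
    rw [card_image_of_injOn, card_range]
    intro i hi i' hi' h
    have e1 := mem_range.1 (mem_coe.1 hi)
    have e2 := mem_range.1 (mem_coe.1 hi')
    exact h3 i (by omega) i' (by omega) h
  rw [← hcard]
  exact card_le_card hsub

/-- **not NORMAL: a cluster of at least `n + 1` non-good sites within distance `2 m` of `x`** -/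
theorem cluster_of_not_Nrm {m n : ℕ} (hmn : 3 * n + 6 ≤ m) {g : Λ} {l : Tor N → Λ} {x : Tor N}
    (h : ¬ Nrm m (nsg g l) x) :
    ∃ v, l v ≠ g ∧ nrm (v - x) ≤ 2 * m ∧
      n + 1 ≤ (P365T1.Ani.Kc P365T1.Ani.R5 (univ.filter fun z => l z ≠ g) v).card := by
  obtain ⟨p, h1, h2, h3⟩ := chain_nrm hmn h
  refine ⟨p 0, mem_nsg.1 (h1 0 (by omega)).1, (h1 0 (by omega)).2, ?_⟩
  exact card_le_of_chain (S := univ.filter fun z => l z ≠ g) (fun i hi => (h1 i hi).1)
    (fun i hi => (h2 i hi).trans (by norm_num)) h3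

/-- the same with the decidability instance of the consumer -/
theorem cluster_of_not_Nrm' {m n : ℕ} (hmn : 3 * n + 6 ≤ m) {g : Λ} {l : Tor N → Λ} {x : Tor N}
    {S : Finset (Tor N)} (hS : ∀ z, z ∈ S ↔ l z ≠ g) (h : ¬ Nrm m S x) :
    ∃ v, l v ≠ g ∧ nrm (v - x) ≤ 2 * m ∧
      n + 1 ≤ (P365T1.Ani.Kc P365T1.Ani.R5 S v).card := by
  obtain ⟨p, h1, h2, h3⟩ := chain_nrm hmn h
  exact ⟨p 0, (hS _).1 (h1 0 (by omega)).1, (h1 0 (by omega)).2,
    card_le_of_chain (fun i hi => (h1 i hi).1) (fun i hi => (h2 i hi).trans (by norm_num)) h3⟩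

end P365T1.Pair
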