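import Vale.Agent.P365.T1.PeelV963
import Vale.Agent.P365.H509.Cl908

/-!
# P365 T1 (B7): not NORMAL gives LONG, in the V3 form
-/

set_option linter.all false

namespace P365T1

open Finset P365L P365T1.Peel Vale.Agent.P365.J376

variable {N : ℕ} [NeZero N]

/-- **not NORMAL implies LONG** -/
theorem long_of_not_Nrm {Λ : Type*} {g : Λ} {l : Tor N → Λ} {m n : ℕ} (hmn : 3 * n + 6 ≤ m)
    {S : Finset (Tor N)} (hS : ∀ z ∈ S, l z ≠ g) {x : Tor N} (h : ¬ Nrm m S x) :
    LONG g (n + 1) (2 * m) l x := by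
  obtain ⟨p, h1, h2, h3⟩ := chain_nrm hmn h
  exact long_of_chain p (fun i hi => hS _ (h1 i (by omega)).1)
    (fun i hi => (h2 i (by omega)).trans (by norm_num))
    (fun i hi j hj => h3 i (by omega) j (by omega)) (h1 0 (by omega)).2

theorem long_of_not_NL {D : V3} {i n : ℕ} (hmn : 3 * n + 6 ≤ D.m i) {l : Tor N → D.Λ}
    {x : Tor N} (h : ¬ NL D i l x) : LONG D.good (n + 1) (2 * D.m i) l x :=
  long_of_not_Nrm hmn (S := D.badS l) (fun z hz => by
    classical
    simpa [V3.badS] using hz) h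

end P365T1
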