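import Vale.Agent.P365.E913.Alt
import Vale.Agent.P365.E913.Prob

set_option linter.all false

/-!
# P365 T1, soft end, part A: the sites with a small self-energy carry little mass
-/

namespace P365L.E913

open MeasureTheory ProbabilityTheory Complex Filter Topology P365L.Inf
open scoped ENNReal InnerProductSpace

theorem lf_shift (E : ℝ) (a x : Site) (V : Site → ℝ) : lf E x (shift a V) = lf E (a + x) V := by
  unfold lf
  simp only [gg_shift (zz_pos E _)]

theorem shift_mem_Act (E : ℝ) (a : Site) (V : Site → ℝ) : shift a V ∈ Act E ↔ V ∈ Act E := by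
  constructor
  · intro h x
    have := h (-a + x)
    rwa [lf_shift, add_neg_cancel_left] at this
  · intro h x
    rw [lf_shift]
    exact h _

theorem imp_shift {z : ℂ} (hz : 0 < z.im) (a x : Site) (V : Site → ℝ) :
    imp (shift a V) z x = imp V z (a + x) := by
  unfold imp
  rw [gg_shift hz]

theorem measurable_imp {z : ℂ} (hz : 0 < z.im) (w : Site) :
    Measurable fun V : Site → ℝ => imp V z w := by
  unfold imp
  exact (Complex.measurable_im.comp (measurable_gg_V hz w w).inv).neg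

variable {P : Measure (Site → ℝ)} [IsProbabilityMeasure P] {ν : Measure ℝ}
  [IsProbabilityMeasure ν] {K L : ℝ}

/-- step 1: transport of the mass -/
theorem partA_transport (hP : Law P ν K L) (E : ℝ) (n : ℕ) (τ : ℝ) :
    ∑' w : Site, ∫⁻ V in Act E ∩ {V | imp V (zz E n) w < τ},
        ENNReal.ofReal ((zz E n).im * (gg V (zz E n) (0, 0) w).im ^ 2) ∂P ≤
      ∫⁻ V in Act E ∩ {V | imp V (zz E n) (0, 0) < τ},
        ENNReal.ofReal (gg V (zz E n) (0, 0) (0, 0)).im ∂P := by
  set z := zz E n with hzdef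
  have hz : 0 < z.im := zz_pos E n
  have hS : ∀ w : Site, MeasurableSet (Act E ∩ {V : Site → ℝ | imp V z w < τ}) := fun w =>
    (measurable_Act E).inter (measurableSet_lt (measurable_imp hz w) measurable_const)
  have hf : ∀ x w : Site, Measurable fun V : Site → ℝ =>
      ENNReal.ofReal (z.im * (gg V z x w).im ^ 2) := fun x w =>
    (((Complex.measurable_im.comp (measurable_gg_V hz x w)).pow_const 2).const_mul _).ennreal_ofReal
  have h1 : ∀ w : Site, ∫⁻ V in Act E ∩ {V | imp V z w < τ},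
        ENNReal.ofReal (z.im * (gg V z (0, 0) w).im ^ 2) ∂P =
      ∫⁻ V in Act E ∩ {V | imp V z (0, 0) < τ},
        ENNReal.ofReal (z.im * (gg V z (0, 0) (-w)).im ^ 2) ∂P := by
    intro w
    rw [← lintegral_indicator (hS w), ← lintegral_indicator (hS (0, 0)),
      ← (hP.shiftP w).lintegral_comp ((hf (0, 0) (-w)).indicator (hS (0, 0)))]
    refine lintegral_congr fun V => ?_
    have e1 : (shift w V ∈ Act E ∩ {V | imp V z (0, 0) < τ}) ↔
        V ∈ Act E ∩ {V | imp V z w < τ} := by
      simp only [Set.mem_inter_iff, shift_mem_Act]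
      have : imp (shift w V) z (0, 0) = imp V z w := by
        rw [imp_shift hz]
        congr 1
        exact add_zero w
      refine and_congr Iff.rfl ?_
      show imp (shift w V) z (0, 0) < τ ↔ imp V z w < τ
      rw [this]
    have e2 : gg (shift w V) z (0, 0) (-w) = gg V z (0, 0) w := by
      rw [gg_shift hz, add_neg_cancel, gg_symm hz]
      congr 1
      exact add_zero w
    by_cases hV : V ∈ Act E ∩ {V | imp V z w < τ}
    · rw [Set.indicator_of_mem hV, Set.indicator_of_mem (e1.2 hV)]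
      show _ = ENNReal.ofReal (z.im * (gg (shift w V) z (0, 0) (-w)).im ^ 2)
      rw [e2]
    · rw [Set.indicator_of_notMem hV, Set.indicator_of_notMem (fun h => hV (e1.1 h))]
  rw [tsum_congr h1]
  have h2 : ∑' w : Site, ∫⁻ V in Act E ∩ {V | imp V z (0, 0) < τ},
        ENNReal.ofReal (z.im * (gg V z (0, 0) (-w)).im ^ 2) ∂P =
      ∑' w : Site, ∫⁻ V in Act E ∩ {V | imp V z (0, 0) < τ},
        ENNReal.ofReal (z.im * (gg V z (0, 0) w).im ^ 2) ∂P :=
    (Equiv.neg Site).tsum_eq (fun w => ∫⁻ V in Act E ∩ {V | imp V z (0, 0) < τ},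
        ENNReal.ofReal (z.im * (gg V z (0, 0) w).im ^ 2) ∂P)
  rw [h2]
  rw [← lintegral_tsum fun w => (hf (0, 0) w).aemeasurable]
  refine lintegral_mono fun V => ?_
  simp only
  rw [← ward_ennreal hz (0, 0)]
  refine ENNReal.tsum_le_tsum fun w => ENNReal.ofReal_le_ofReal ?_
  exact mul_le_mul_of_nonneg_left (im_le_norm _ _) hz.le

/-- step 2: average over the potential at the origin -/
theorem partA_avg (hP : Law P ν K L) {E : ℝ} (hconv : ∀ᵐ V ∂P, Conv E V)
    (hall : ∀ᵐ V ∂P, ∀ x, (0 < lf E x V ↔ 0 < lf E (0, 0) V)) (n : ℕ) (τ : ℝ) :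
    ∫⁻ V in Act E ∩ {V | imp V (zz E n) (0, 0) < τ},
        ENNReal.ofReal (gg V (zz E n) (0, 0) (0, 0)).im ∂P ≤
      ENNReal.ofReal (Real.pi * K) * P (Act E ∩ {V | imp V (zz E n) (0, 0) < τ}) := by
  set z := zz E n with hzdef
  have hz : 0 < z.im := zz_pos E n
  set S : Set (Site → ℝ) := Act E ∩ {V | imp V z (0, 0) < τ} with hSdef
  have hS : MeasurableSet S :=
    (measurable_Act E).inter (measurableSet_lt (measurable_imp hz (0, 0)) measurable_const)
  have hg : Measurable fun V : Site → ℝ => ENNReal.ofReal (gg V z (0, 0) (0, 0)).im :=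
    (Complex.measurable_im.comp (measurable_gg_V hz (0, 0) (0, 0))).ennreal_ofReal
  rw [← lintegral_indicator hS, ← (hP.res (0, 0)).lintegral_comp (hg.indicator hS)]
  have h1 : ∫⁻ p : (Site → ℝ) × ℝ, S.indicator
        (fun V => ENNReal.ofReal (gg V z (0, 0) (0, 0)).im) (Function.update p.1 (0, 0) p.2)
        ∂(P.prod ν) ≤
      ∫⁻ p : (Site → ℝ) × ℝ, (S.indicator (fun _ => (1 : ℝ≥0∞)) p.1) *
        ENNReal.ofReal (gg (Function.update p.1 (0, 0) p.2) z (0, 0) (0, 0)).im ∂(P.prod ν) := by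
    refine lintegral_mono_ae ?_
    filter_upwards [act_update hP hconv hall (0, 0)] with p hp
    by_cases h : Function.update p.1 (0, 0) p.2 ∈ S
    · have h' : p.1 ∈ S := by
        refine ⟨hp h.1, ?_⟩
        have h2 : imp (Function.update p.1 (0, 0) p.2) z (0, 0) < τ := h.2
        rw [imp_update' hz] at h2
        exact h2
      rw [Set.indicator_of_mem h, Set.indicator_of_mem h', one_mul]
    · rw [Set.indicator_of_notMem h]
      exact bot_le
  refine h1.trans ?_
  have hm2 : Measurable fun p : (Site → ℝ) × ℝ => (S.indicator (fun _ => (1 : ℝ≥0∞)) p.1) *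
      ENNReal.ofReal (gg (Function.update p.1 (0, 0) p.2) z (0, 0) (0, 0)).im :=
    ((measurable_const.indicator hS).comp measurable_fst).mul
      (hg.comp (measurable_update_pair (0, 0)))
  rw [lintegral_prod _ hm2.aemeasurable]
  have h2 : ∀ V : Site → ℝ, ∫⁻ t, (S.indicator (fun _ => (1 : ℝ≥0∞)) V) *
      ENNReal.ofReal (gg (Function.update V (0, 0) t) z (0, 0) (0, 0)).im ∂ν ≤
      ENNReal.ofReal (Real.pi * K) * S.indicator (fun _ => (1 : ℝ≥0∞)) V := by
    intro V
    have hm3 : Measurable fun t : ℝ =>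
        ENNReal.ofReal (gg (Function.update V (0, 0) t) z (0, 0) (0, 0)).im :=
      hg.comp ((measurable_update_pair (0, 0)).comp measurable_prodMk_left)
    rw [lintegral_const_mul _ hm3, mul_comm]
    exact mul_le_mul_left (hP.avg V z (0, 0) hz) _
  refine (lintegral_mono h2).trans ?_
  rw [lintegral_const_mul _ (measurable_const.indicator hS), lintegral_indicator hS,
    setLIntegral_one]

/-- step 3: the probability of a small density at an active site -/
theorem partA_small {E : ℝ} (hconv : ∀ᵐ V ∂P, Conv E V) {c : ℝ} (hc : 0 < c) :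
    ∃ δ : ℝ, 0 < δ ∧ ∀ᶠ n in atTop,
      P (Act E ∩ {V | (gg V (zz E n) (0, 0) (0, 0)).im < δ}) ≤ ENNReal.ofReal c := by
  set A : ℕ → Set (Site → ℝ) := fun k => Act E ∩
    {V | ∃ n, k ≤ n ∧ (gg V (zz E n) (0, 0) (0, 0)).im < 1 / ((k : ℝ) + 1)} with hA
  have hAm : ∀ k, MeasurableSet (A k) := by
    intro k
    refine (measurable_Act E).inter ?_
    have : {V : Site → ℝ | ∃ n, k ≤ n ∧ (gg V (zz E n) (0, 0) (0, 0)).im < 1 / ((k : ℝ) + 1)} =
        ⋃ n, ⋃ (_ : k ≤ n), {V | (gg V (zz E n) (0, 0) (0, 0)).im < 1 / ((k : ℝ) + 1)} := by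
      ext V
      simp
    rw [this]
    exact MeasurableSet.iUnion fun n => MeasurableSet.iUnion fun _ =>
      measurableSet_lt (Complex.measurable_im.comp (measurable_gg E n (0, 0) (0, 0)))
        measurable_const
  have hanti : Antitone A := by
    intro k l hkl V hV
    obtain ⟨h1, n, hn, h2⟩ := hV
    refine ⟨h1, n, hkl.trans hn, h2.trans_le ?_⟩
    exact one_div_le_one_div_of_le (by positivity) (by exact_mod_cast Nat.succ_le_succ hkl)
  have h0 : P (⋂ k, A k) = 0 := by
    have h1 : ∀ᵐ V ∂P, V ∉ ⋂ k, A k := by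
      filter_upwards [hconv] with V hV hmem
      have hact : V ∈ Act E := (Set.mem_iInter.1 hmem 0).1
      obtain ⟨m1, m1top⟩ := tendsto_lf hV (0, 0)
      have ml : 0 < (lf E (0, 0) V).toReal := ENNReal.toReal_pos (hact (0, 0)).ne' m1top
      set l := (lf E (0, 0) V).toReal with hl
      have h2 : ∀ᶠ n in atTop, l / 2 < (gg V (zz E n) (0, 0) (0, 0)).im :=
        m1.eventually_const_lt (by linarith)
      have h3 : ∀ᶠ k : ℕ in atTop, 1 / ((k : ℝ) + 1) < l / 2 :=
        tendsto_one_div_add_atTop_nhds_zero_nat.eventually_lt_const (by linarith)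
      obtain ⟨N, hN⟩ := eventually_atTop.1 h2
      obtain ⟨M, hM⟩ := eventually_atTop.1 h3
      obtain ⟨_, n, hn, h4⟩ := Set.mem_iInter.1 hmem (max N M)
      have h5 := hN n ((le_max_left _ _).trans hn)
      have h6 := hM (max N M) (le_max_right _ _)
      linarith
    exact measure_eq_zero_iff_ae_notMem.2 h1
  have hlim : Tendsto (fun k => P (A k)) atTop (𝓝 0) := by
    rw [← h0]
    exact tendsto_measure_iInter_atTop (fun k => (hAm k).nullMeasurableSet) hanti
      ⟨0, measure_ne_top _ _⟩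
  have hev : ∀ᶠ k in atTop, P (A k) < ENNReal.ofReal c :=
    hlim.eventually_lt_const (by rwa [ENNReal.ofReal_pos])
  obtain ⟨k, hk⟩ := hev.exists
  refine ⟨1 / ((k : ℝ) + 1), by positivity, ?_⟩
  filter_upwards [eventually_ge_atTop k] with n hn
  refine (measure_mono ?_).trans hk.le
  rintro V ⟨h1, h2⟩
  exact ⟨h1, n, hn, h2⟩

/-- PART A -/
theorem partA (hP : Law P ν K L) {E : ℝ} (hconv : ∀ᵐ V ∂P, Conv E V)
    (hall : ∀ᵐ V ∂P, ∀ x, (0 < lf E x V ↔ 0 < lf E (0, 0) V)) {c : ℝ} (hc : 0 < c) :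
    ∃ τ : ℝ, 0 < τ ∧ ∀ᶠ n in atTop,
      ∑' w : Site, ∫⁻ V in Act E ∩ {V | imp V (zz E n) w < τ},
        ENNReal.ofReal ((zz E n).im * (gg V (zz E n) (0, 0) w).im ^ 2) ∂P ≤
          ENNReal.ofReal c := by
  have hK := hP.K0
  have hπ := Real.pi_pos
  set c' : ℝ := c / (2 * (Real.pi * K)) with hc'
  have hc'0 : 0 < c' := by positivity
  obtain ⟨δ, hδ, hev⟩ := partA_small (P := P) hconv hc'0
  set T : ℝ := 2 * K / c' with hT
  have hT0 : 0 < T := by positivity
  refine ⟨δ / T ^ 2, by positivity, ?_⟩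
  filter_upwards [hev] with n hn
  refine (partA_transport hP E n _).trans ((partA_avg hP hconv hall n _).trans ?_)
  have hz := zz_pos E n
  have h1 : P (Act E ∩ {V | imp V (zz E n) (0, 0) < δ / T ^ 2}) ≤
      ENNReal.ofReal c' + ENNReal.ofReal c' := by
    have hsub : Act E ∩ {V | imp V (zz E n) (0, 0) < δ / T ^ 2} ⊆
        (Act E ∩ {V | (gg V (zz E n) (0, 0) (0, 0)).im < δ}) ∪
          {V | T < ‖gg V (zz E n) (0, 0) (0, 0)‖} := by
      rintro V ⟨h1, h2⟩
      by_cases h3 : T < ‖gg V (zz E n) (0, 0) (0, 0)‖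
      · exact Or.inr h3
      · refine Or.inl ⟨h1, ?_⟩
        have h2' : imp V (zz E n) (0, 0) < δ / T ^ 2 := h2
        have h4 : 0 < ‖gg V (zz E n) (0, 0) (0, 0)‖ := norm_pos_iff.2 (gg_ne_zero hz _)
        rw [imp_eq, div_lt_iff₀ (by positivity)] at h2'
        show (gg V (zz E n) (0, 0) (0, 0)).im < δ
        refine h2'.trans_le ?_
        push Not at h3
        rw [div_mul_eq_mul_div, div_le_iff₀ (by positivity)]
        exact mul_le_mul_of_nonneg_left (pow_le_pow_left₀ h4.le h3 2) hδ.le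
    refine (measure_mono hsub).trans ((measure_union_le _ _).trans (add_le_add hn ?_))
    refine (hP.tail (zz E n) (0, 0) T hz hT0).trans (ENNReal.ofReal_le_ofReal (le_of_eq ?_))
    rw [hT]
    field_simp
  refine (mul_le_mul_right h1 _).trans ?_
  rw [← ENNReal.ofReal_add hc'0.le hc'0.le, ← ENNReal.ofReal_mul (by positivity)]
  refine ENNReal.ofReal_le_ofReal (le_of_eq ?_)
  rw [hc']
  field_simp
  ring

end P365L.E913
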