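import Vale.Agent.P365.E913.PartB

set_option linter.all false

/-!
# P365 T1, soft end: the lower bound (Fatou)
-/

namespace P365L.E913

open MeasureTheory ProbabilityTheory Complex Filter Topology P365L.Inf
open scoped ENNReal InnerProductSpace

variable {P : Measure (Site → ℝ)} [IsProbabilityMeasure P] {ν : Measure ℝ}
  [IsProbabilityMeasure ν] {K L : ℝ}

theorem tsum_im_eq {V : Site → ℝ} {z : ℂ} (hz : 0 < z.im) (x : Site) :
    ∑' w : Site, ENNReal.ofReal (z.im * (gg V z x w).im ^ 2) =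
      ENNReal.ofReal (((gg V z x x).im - (z.im * (Res V z (Res V z (dl x))) x : ℂ).re) / 2) := by
  rw [← sum_im_sq hz x, ← tsum_mul_left, ENNReal.ofReal_tsum_of_nonneg]
  · intro w; positivity
  · exact (summable_im_sq hz x).mul_left _

theorem tendsto_tsum_im {E : ℝ} {V : Site → ℝ} (h : Conv E V) (x : Site) :
    Tendsto (fun n => ∑' w : Site, ENNReal.ofReal ((zz E n).im * (gg V (zz E n) x w).im ^ 2)) atTop
      (𝓝 (ENNReal.ofReal ((lf E x V).toReal / 2))) := by
  have h1 := (tendsto_lf h x).1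
  have h2 := (Complex.continuous_re.tendsto _).comp (h x).2.1
  have h3 := ENNReal.tendsto_ofReal ((h1.sub h2).div_const 2)
  simp only [Complex.zero_re, sub_zero] at h3
  refine h3.congr fun n => ?_
  rw [tsum_im_eq (zz_pos E n)]
  rfl

theorem partC0 {E : ℝ} (hconv : ∀ᵐ V ∂P, Conv E V) (hpos : P (Act E) ≠ 0) :
    ∃ c b : ℝ, 0 < c ∧ 0 < b ∧ ∀ᶠ n in atTop, ENNReal.ofReal c <
      ∫⁻ V in Act E ∩ {V | (gg V (zz E n) (0, 0) (0, 0)).im ≤ b},
        ∑' w, ENNReal.ofReal ((zz E n).im * (gg V (zz E n) (0, 0) w).im ^ 2) ∂P := by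
  -- choice of `b`
  set A : ℕ → Set (Site → ℝ) := fun k => Act E ∩ {V | lf E (0, 0) V < (k : ℝ≥0∞)} with hA
  have hAm : ∀ k, MeasurableSet (A k) := fun k =>
    (measurable_Act E).inter (measurableSet_lt (measurable_lf E (0, 0)) measurable_const)
  obtain ⟨k, hk⟩ : ∃ k, P (A k) ≠ 0 := by
    by_contra hc
    push Not at hc
    apply hpos
    have h1 : P (⋃ k, A k) = 0 := measure_iUnion_null hc
    have h2 : ∀ᵐ V ∂P, V ∉ ⋃ k, A k := measure_eq_zero_iff_ae_notMem.1 h1
    rw [measure_eq_zero_iff_ae_notMem]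
    filter_upwards [h2, hconv] with V h3 h4 h5
    apply h3
    obtain ⟨j, hj⟩ := ENNReal.exists_nat_gt (tendsto_lf h4 (0, 0)).2
    exact Set.mem_iUnion.2 ⟨j, h5, hj⟩
  set b : ℝ := (k : ℝ) + 1 with hb
  have hbpos : 0 < b := by positivity
  set f : ℕ → (Site → ℝ) → ℝ≥0∞ := fun n V =>
    ∑' w : Site, ENNReal.ofReal ((zz E n).im * (gg V (zz E n) (0, 0) w).im ^ 2) with hf
  set G : ℕ → Set (Site → ℝ) := fun n =>
    Act E ∩ {V | (gg V (zz E n) (0, 0) (0, 0)).im ≤ b} with hG
  have hGm : ∀ n, MeasurableSet (G n) := fun n => (measurable_Act E).inter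
    (measurableSet_le (Complex.measurable_im.comp (measurable_gg E n (0, 0) (0, 0)))
      measurable_const)
  have hfm : ∀ n, Measurable (f n) := fun n => Measurable.tsum fun w =>
    (((Complex.measurable_im.comp (measurable_gg E n (0, 0) w)).pow_const 2).const_mul
      _).ennreal_ofReal
  set g : (Site → ℝ) → ℝ≥0∞ :=
    (A k).indicator fun V => ENNReal.ofReal ((lf E (0, 0) V).toReal / 2) with hg
  have hgm : Measurable g :=
    (((measurable_lf E (0, 0)).ennreal_toReal.div_const 2).ennreal_ofReal).indicator (hAm k)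
  -- the lower bound
  have h1 : ∫⁻ V, g V ∂P ≤ liminf (fun n => ∫⁻ V, (G n).indicator (f n) V ∂P) atTop := by
    refine le_trans ?_ (lintegral_liminf_le fun n => (hfm n).indicator (hGm n))
    refine lintegral_mono_ae ?_
    filter_upwards [hconv] with V hV
    by_cases hVA : V ∈ A k
    · rw [hg, Set.indicator_of_mem hVA]
      have h2 := tendsto_tsum_im hV (0, 0)
      rw [← h2.liminf_eq]
      refine liminf_le_liminf ?_
      have h3 := (tendsto_lf hV (0, 0)).1
      have h4 : (lf E (0, 0) V).toReal < b := by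
        have h5 := hVA.2
        simp only [Set.mem_setOf_eq] at h5
        have h6 : (lf E (0, 0) V).toReal < (k : ℝ) := by
          have := (ENNReal.toReal_lt_toReal (tendsto_lf hV (0, 0)).2
            (ENNReal.natCast_ne_top k)).2 h5
          simpa using this
        linarith
      filter_upwards [h3.eventually_lt_const h4] with n hn
      rw [Set.indicator_of_mem (show V ∈ G n from ⟨hVA.1, hn.le⟩)]
    · rw [hg, Set.indicator_of_notMem hVA]
      exact bot_le
  have h2 : 0 < ∫⁻ V, g V ∂P := by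
    rw [lintegral_pos_iff_support hgm, pos_iff_ne_zero]
    intro h3
    apply hk
    rw [measure_eq_zero_iff_ae_notMem] at h3 ⊢
    filter_upwards [h3, hconv] with V h4 h5 h6
    apply h4
    rw [Function.mem_support, hg, Set.indicator_of_mem h6]
    have h7 : 0 < lf E (0, 0) V := h6.1 (0, 0)
    have h8 : 0 < (lf E (0, 0) V).toReal := ENNReal.toReal_pos h7.ne' (tendsto_lf h5 (0, 0)).2
    simp only [ne_eq, ENNReal.ofReal_eq_zero, not_le]
    positivity
  obtain ⟨c, hc1, hc2⟩ : ∃ c : ℝ, 0 < c ∧ ENNReal.ofReal c < ∫⁻ V, g V ∂P := by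
    obtain ⟨q, hq1, hq2⟩ := ENNReal.lt_iff_exists_nnreal_btwn.1 h2
    refine ⟨q, ?_, ?_⟩
    · exact_mod_cast hq1
    · rwa [ENNReal.ofReal_coe_nnreal]
  refine ⟨c, b, hc1, hbpos, ?_⟩
  have h3 := eventually_lt_of_lt_liminf (hc2.trans_le h1)
  filter_upwards [h3] with n hn
  rwa [lintegral_indicator (hGm n)] at hn

end P365L.E913
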