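import Vale.Agent.P365.E913.Fin
import Vale.Agent.P365.E913.PartA
import Vale.Agent.P365.E913.PartC0
import Vale.Agent.P365.E913.ConvAe
import Vale.Agent.P365.E913.LawPP

set_option linter.all false

/-!
# P365 T1, soft end: bounded diffusion along a sequence of absorptions excludes absolutely
continuous spectrum
-/

namespace P365L.E913

open MeasureTheory ProbabilityTheory Complex Filter Topology P365L.Inf P365L.TL
open scoped ENNReal InnerProductSpace

variable {K L : ℝ}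

theorem noAC_of_law {P : Measure (Site → ℝ)} [IsProbabilityMeasure P] {ν : Measure ℝ}
    [IsProbabilityMeasure ν] (hP : Law P ν K L)
    (hD : ∀ᵐ E : ℝ, ∃ D : ℝ, ∃ᶠ n : ℕ in atTop,
      DZ P (fun V : Site → ℝ => V) E ((1 / 2) ^ n) ≤ ENNReal.ofReal D) :
    ∀ᵐ V ∂P, ∀ (ψ : L2) (μ : Measure ℝ), IsSpectralMeasure V ψ μ → μ ⟂ₘ (volume : Measure ℝ) :=
  noAC_of_parts hP (conv_ae_prod' P) (fun E h1 h2 c hc => partA hP h1 h2 hc)
    (fun E h1 h2 => partC0 h1 h2) hD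

/-- **soft end**: independent potentials with a bounded compactly supported density; if for almost
every energy the second moment `b² E ∑ |w|² |G_{0w}(E + i b)|²` is bounded along infinitely many
`b = 2^{-n}`, all spectral measures are singular almost surely -/
theorem noAC_of_D {ν : Measure ℝ} [IsProbabilityMeasure ν] (hK : 0 < K)
    (hν : ν ≤ ENNReal.ofReal K • (volume : Measure ℝ)) (hL0 : 0 ≤ L)
    (hL : ∀ᵐ t ∂ν, |t| ≤ L)
    (hD : ∀ᵐ E : ℝ, ∃ D : ℝ, ∃ᶠ n : ℕ in atTop,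
      DZ (PP ν) (fun V : Site → ℝ => V) E ((1 / 2) ^ n) ≤ ENNReal.ofReal D) :
    ∀ᵐ V ∂(PP ν), ∀ (ψ : L2) (μ : Measure ℝ), IsSpectralMeasure V ψ μ →
      μ ⟂ₘ (volume : Measure ℝ) :=
  noAC_of_law (law_PP hK hν hL0 hL) hD

/-- the same for an abstract independent family -/
theorem noAC_of_D_iid {Ω : Type*} [MeasurableSpace Ω] {P : Measure Ω} [IsProbabilityMeasure P]
    {X : Site → Ω → ℝ} (hm : ∀ x, Measurable (X x)) (hi : iIndepFun X P)
    {ν : Measure ℝ} [IsProbabilityMeasure ν] (hl : ∀ x, P.map (X x) = ν) (hK : 0 < K)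
    (hν : ν ≤ ENNReal.ofReal K • (volume : Measure ℝ)) (hL0 : 0 ≤ L)
    (hL : ∀ᵐ t ∂ν, |t| ≤ L)
    (hD : ∀ᵐ E : ℝ, ∃ D : ℝ, ∃ᶠ n : ℕ in atTop,
      DZ (PP ν) (fun V : Site → ℝ => V) E ((1 / 2) ^ n) ≤ ENNReal.ofReal D) :
    ∀ᵐ ω ∂P, ∀ (ψ : L2) (μ : Measure ℝ), IsSpectralMeasure (fun x => X x ω) ψ μ →
      μ ⟂ₘ (volume : Measure ℝ) := by
  have h := noAC_of_D hK hν hL0 hL hD
  rw [← map_PP hm hi hl] at h
  exact ae_of_ae_map (measurable_pi_lambda _ hm).aemeasurable h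

end P365L.E913
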