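import Vale.Agent.P365.T1.Defs
import Vale.Agent.P365.S6.Cau

/-!
# P365 T1: the Cauchy integral behind the pair gain

For two sites with self-energies `a`, `a'`, coupling `κ`: the product of the Lorentzian of the first
site and of the one-site gain of the second site has integral at most `9 π`.
-/

set_option linter.all false

namespace P365T1.Pair

open P365L P365O P365T1 Complex MeasureTheory
open scoped ComplexConjugate ENNReal

/-- mean value property against the Cauchy kernel, imaginary parts -/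
theorem cau_im {F : ℂ → ℂ} (hd : DifferentiableOn ℂ F {z | z.im < 0})
    (hc : ContinuousOn F {z | z.im ≤ 0}) {C : ℝ} (hb : ∀ z : ℂ, z.im ≤ 0 → ‖F z‖ ≤ C) :
    Integrable (fun s : ℝ => (1 + s ^ 2)⁻¹ * (F s).im) ∧
      ∫ s : ℝ, (1 + s ^ 2)⁻¹ * (F s).im = Real.pi * (F (-I)).im := by
  have hFc : Continuous fun s : ℝ => F s :=
    hc.comp_continuous Complex.continuous_ofReal fun s => by simp
  have hi0 : Integrable fun s : ℝ => (1 + s ^ 2)⁻¹ := integrable_inv_one_add_sq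
  have hI : Integrable (fun s : ℝ => (Real.pi⁻¹ * (1 + s ^ 2)⁻¹ : ℝ) • F s) := by
    refine Integrable.mono' ((hi0.const_mul Real.pi⁻¹).mul_const C) ?_ ?_
    · exact ((hi0.const_mul Real.pi⁻¹).aestronglyMeasurable).smul hFc.aestronglyMeasurable
    · refine Filter.Eventually.of_forall fun s => ?_
      have h0 : 0 < (1 + s ^ 2)⁻¹ := by positivity
      rw [norm_smul, Real.norm_eq_abs, abs_of_pos (by positivity)]
      exact mul_le_mul_of_nonneg_left (hb _ (by simp)) (by positivity)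
  have hm := P365S6.nu_mean hd hc hb
  rw [P365S6.nu_integral] at hm
  have h1 : ∫ s : ℝ, ((Real.pi⁻¹ * (1 + s ^ 2)⁻¹ : ℝ) • F s).im = (F (-I)).im := by
    have := Complex.imCLM.integral_comp_comm hI
    simp only [Complex.imCLM_apply] at this
    rw [this, hm]
  have h2 : ∀ s : ℝ, ((Real.pi⁻¹ * (1 + s ^ 2)⁻¹ : ℝ) • F s).im =
      Real.pi⁻¹ * ((1 + s ^ 2)⁻¹ * (F s).im) := by
    intro s
    rw [Complex.real_smul, Complex.im_ofReal_mul]
    ring
  have hI2 : Integrable fun s : ℝ => ((Real.pi⁻¹ * (1 + s ^ 2)⁻¹ : ℝ) • F s).im := by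
    have := Complex.imCLM.integrable_comp hI
    simpa only [Complex.imCLM_apply, Function.comp_def] using this
  simp only [h2] at h1 hI2
  constructor
  · have h3 := hI2.const_mul Real.pi
    refine h3.congr (Filter.Eventually.of_forall fun s => ?_)
    simp only
    rw [← mul_assoc, mul_inv_cancel₀ Real.pi_ne_zero, one_mul]
  · rw [integral_const_mul] at h1
    rw [← h1, ← mul_assoc, mul_inv_cancel₀ Real.pi_ne_zero, one_mul]

/-- the same with the kernel centred at `X` of width `Y` -/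
theorem cau_scaled {F : ℂ → ℂ} (hd : DifferentiableOn ℂ F {z | z.im < 0})
    (hc : ContinuousOn F {z | z.im ≤ 0}) {C : ℝ} (hb : ∀ z : ℂ, z.im ≤ 0 → ‖F z‖ ≤ C)
    (hF : ∀ s : ℝ, 0 ≤ (F s).im) (X : ℝ) {Y : ℝ} (hY : 0 < Y) :
    ∫⁻ u : ℝ, ENNReal.ofReal (((u - X) ^ 2 + Y ^ 2)⁻¹ * (F (((u - X) / Y : ℝ) : ℂ)).im) =
      ENNReal.ofReal (Real.pi / Y * (F (-I)).im) := by
  obtain ⟨hI, hv⟩ := cau_im hd hc hb
  set g : ℝ → ℝ := fun s => (1 + s ^ 2)⁻¹ * (F s).im with hg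
  have h1 : ∀ u : ℝ, ((u - X) ^ 2 + Y ^ 2)⁻¹ * (F (((u - X) / Y : ℝ) : ℂ)).im =
      (Y ^ 2)⁻¹ * g ((u - X) / Y) := by
    intro u
    simp only [hg]
    have h2 : ((u - X) ^ 2 + Y ^ 2)⁻¹ = (Y ^ 2)⁻¹ * (1 + ((u - X) / Y) ^ 2)⁻¹ := by
      rw [← mul_inv]
      congr 1
      field_simp
      ring
    rw [h2, mul_assoc]
  have hI2 : Integrable fun u : ℝ => (Y ^ 2)⁻¹ * g ((u - X) / Y) :=
    ((hI.comp_div hY.ne').comp_sub_right X).const_mul _
  simp only [h1]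
  rw [← ofReal_integral_eq_lintegral_ofReal hI2 (Filter.Eventually.of_forall fun u => by
    simp only [hg]
    have := hF ((u - X) / Y)
    positivity)]
  congr 1
  rw [integral_const_mul, integral_sub_right_eq_self (fun u : ℝ => g (u / Y)) X,
    Measure.integral_comp_div g Y, smul_eq_mul, abs_of_pos hY, hv]
  field_simp

/-- **the numbers of the pair gain** -/
theorem pair_num {a a' κ ζ' : ℂ} (hζ' : ζ'.im < 0) {t : ℝ} (ht : 0 < t) (E : ℝ)
    (ha' : 0 ≤ a'.im)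
    (h1 : ∀ ζ : ℂ, ζ.im < 0 → (-ζ.im) * (‖κ‖ ^ 2 / ‖ζ - a‖ ^ 2) ≤ (a' + κ ^ 2 / (ζ - a)).im)
    (h2 : 0 ≤ (a + κ ^ 2 / (ζ' - a')).im)
    (h3 : ‖κ / (-I - a')‖ ^ 2 ≤ (a + κ ^ 2 / (-I - a')).im) (ha : 0 ≤ a.im) :
    ∫⁻ u : ℝ, ENNReal.ofReal (‖κ / (-I - a')‖ ^ 2 /
        ‖(((u - E : ℝ) : ℂ) - (t : ℂ) * I) - (a + κ ^ 2 / (-I - a'))‖ ^ 2 *
        ((a' + κ ^ 2 / ((((u - E : ℝ) : ℂ) - (t : ℂ) * I) - a)).im /
          ‖ζ' - (a' + κ ^ 2 / ((((u - E : ℝ) : ℂ) - (t : ℂ) * I) - a))‖ ^ 2)) ≤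
      ENNReal.ofReal (9 * Real.pi) := by
  by_cases hκ : κ = 0
  · subst hκ
    simp
  set σ : ℂ := a + κ ^ 2 / (-I - a') with hσ
  have hIa : -I - a' ≠ 0 := by
    intro h
    have := congrArg Complex.im h
    simp at this
    linarith
  have hIan : 1 ≤ ‖-I - a'‖ := by
    refine le_trans ?_ (Complex.abs_im_le_norm _)
    rw [Complex.sub_im, Complex.neg_im, Complex.I_im, abs_of_nonpos (by linarith)]
    linarith
  have hσ0 : 0 ≤ σ.im := (sq_nonneg _).trans h3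
  set Y : ℝ := t + σ.im with hY
  have hY0 : 0 < Y := by linarith
  set c : ℂ := (σ.re : ℂ) - (t : ℂ) * I with hc
  have hv : ζ' - a' ≠ 0 := by
    intro h
    have := congrArg Complex.im h
    rw [Complex.sub_im, Complex.zero_im] at this
    linarith
  set σv : ℂ := a + κ ^ 2 / (ζ' - a') with hσv
  -- the analytic function
  set φ : ℂ → ℂ := fun ζ => 1 / (ζ' - a') + κ ^ 2 / (ζ' - a') ^ 2 / (ζ - σv) with hφ
  have hφ_eq : ∀ ζ : ℂ, ζ.im < 0 → φ ζ = (ζ' - (a' + κ ^ 2 / (ζ - a)))⁻¹ := by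
    intro ζ hζ
    have e1 : ζ - a ≠ 0 := by
      intro h
      have := congrArg Complex.im h
      rw [Complex.sub_im, Complex.zero_im] at this
      linarith
    have e2 : ζ - σv ≠ 0 := by
      intro h
      have := congrArg Complex.im h
      rw [Complex.sub_im, Complex.zero_im] at this
      linarith
    have e3 : ζ - a - κ ^ 2 / (ζ' - a') ≠ 0 := by
      rw [sub_sub, ← hσv]; exact e2
    have e4 : (ζ - a) * (ζ' - a') - κ ^ 2 ≠ 0 := by
      intro h
      apply e3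
      field_simp
      rw [mul_zero]
      exact h
    simp only [hφ]
    obtain ⟨D, hD⟩ : ∃ D, D = (ζ - a) * (ζ' - a') - κ ^ 2 := ⟨_, rfl⟩
    rw [show ζ - σv = D / (ζ' - a') by
      rw [hσv, hD]; field_simp; ring,
      show ζ' - (a' + κ ^ 2 / (ζ - a)) = D / (ζ - a) by
        rw [hD]; field_simp; ring, inv_div]
    rw [← hD] at e4
    field_simp
    rw [hD]
    ring
  have him : ∀ ζ : ℂ, ζ.im < 0 →
      (a' + κ ^ 2 / (ζ - a)).im / ‖ζ' - (a' + κ ^ 2 / (ζ - a))‖ ^ 2 ≤ (φ ζ).im ∧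
        0 ≤ (φ ζ).im := by
    intro ζ hζ
    have e0 : 0 ≤ (a' + κ ^ 2 / (ζ - a)).im :=
      (mul_nonneg (by linarith) (by positivity)).trans (h1 ζ hζ)
    have e1 : (φ ζ).im = ((a' + κ ^ 2 / (ζ - a)).im + (-ζ'.im)) /
        ‖ζ' - (a' + κ ^ 2 / (ζ - a))‖ ^ 2 := by
      rw [hφ_eq ζ hζ, Complex.inv_im, Complex.normSq_eq_norm_sq, Complex.sub_im]
      congr 1
      ring
    rw [e1]
    constructor
    · gcongr
      linarith
    · have : 0 ≤ -ζ'.im := by linarith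
      positivity
  -- the function in the unit variable
  set F : ℂ → ℂ := fun z => φ (c + (Y : ℂ) * z) with hF
  have hlow : ∀ z : ℂ, z.im ≤ 0 → (c + (Y : ℂ) * z).im ≤ -t := by
    intro z hz
    have : (c + (Y : ℂ) * z).im = -t + Y * z.im := by simp [hc]
    rw [this]
    nlinarith
  have hne : ∀ z : ℂ, z.im ≤ 0 → c + (Y : ℂ) * z - σv ≠ 0 := by
    intro z hz h
    have := congrArg Complex.im h
    rw [Complex.sub_im, Complex.zero_im] at this
    have := hlow z hz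
    linarith
  have hcont : ContinuousOn F {z | z.im ≤ 0} := by
    intro z hz
    have hz' : c + (Y : ℂ) * z - σv ≠ 0 := hne z hz
    simp only [hF, hφ]
    refine ContinuousAt.continuousWithinAt ?_
    fun_prop (disch := exact hz')
  have hdiff : DifferentiableOn ℂ F {z | z.im < 0} := by
    intro z hz
    have hz' : c + (Y : ℂ) * z - σv ≠ 0 := hne z (le_of_lt hz)
    simp only [hF, hφ]
    refine DifferentiableAt.differentiableWithinAt ?_
    fun_prop (disch := exact hz')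
  have hbd : ∀ z : ℂ, z.im ≤ 0 → ‖F z‖ ≤ ‖1 / (ζ' - a')‖ + ‖κ ^ 2 / (ζ' - a') ^ 2‖ / t := by
    intro z hz
    simp only [hF, hφ]
    refine (norm_add_le _ _).trans ?_
    rw [norm_div (κ ^ 2 / (ζ' - a') ^ 2)]
    gcongr
    have h4 := hlow z hz
    refine le_trans ?_ (Complex.abs_im_le_norm _)
    rw [Complex.sub_im, abs_of_nonpos (by linarith)]
    linarith
  have hFim : ∀ s : ℝ, 0 ≤ (F s).im := by
    intro s
    exact (him _ (lt_of_le_of_lt (hlow s (by simp)) (by linarith))).2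
  -- the integral
  have hkey := cau_scaled hdiff hcont hbd hFim (E + σ.re) hY0
  have hz : ∀ u : ℝ, c + (Y : ℂ) * (((u - (E + σ.re)) / Y : ℝ) : ℂ) =
      ((u - E : ℝ) : ℂ) - (t : ℂ) * I := by
    intro u
    have hYc : (Y : ℂ) ≠ 0 := by exact_mod_cast hY0.ne'
    rw [hc]
    push_cast
    field_simp
    ring
  have hden : ∀ u : ℝ, ‖(((u - E : ℝ) : ℂ) - (t : ℂ) * I) - σ‖ ^ 2 =
      (u - (E + σ.re)) ^ 2 + Y ^ 2 := by
    intro u
    rw [← Complex.normSq_eq_norm_sq, Complex.normSq_apply]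
    simp [hY]
    ring
  have hG : ∀ u : ℝ, ‖κ / (-I - a')‖ ^ 2 / ‖(((u - E : ℝ) : ℂ) - (t : ℂ) * I) - σ‖ ^ 2 *
        ((a' + κ ^ 2 / ((((u - E : ℝ) : ℂ) - (t : ℂ) * I) - a)).im /
          ‖ζ' - (a' + κ ^ 2 / ((((u - E : ℝ) : ℂ) - (t : ℂ) * I) - a))‖ ^ 2) ≤
      ‖κ / (-I - a')‖ ^ 2 * (((u - (E + σ.re)) ^ 2 + Y ^ 2)⁻¹ *
        (F (((u - (E + σ.re)) / Y : ℝ) : ℂ)).im) := by
    intro u
    rw [hden u, div_eq_mul_inv, mul_assoc]
    have h5 : (F (((u - (E + σ.re)) / Y : ℝ) : ℂ)).im =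
        (φ (((u - E : ℝ) : ℂ) - (t : ℂ) * I)).im := by
      simp only [hF]
      rw [hz u]
    rw [h5]
    have h6 := (him (((u - E : ℝ) : ℂ) - (t : ℂ) * I) (by simpa using ht)).1
    have h7 : 0 ≤ ((u - (E + σ.re)) ^ 2 + Y ^ 2)⁻¹ := by positivity
    exact mul_le_mul_of_nonneg_left (mul_le_mul_of_nonneg_left h6 h7) (sq_nonneg _)
  -- the value at the reflected point
  set ζs : ℂ := c + (Y : ℂ) * (-I) with hζs
  have hζs_im : ζs.im = -(t + Y) := by
    simp [hζs, hc]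
    ring
  have hζs_neg : ζs.im < 0 := by rw [hζs_im]; linarith
  have hfin : ‖κ / (-I - a')‖ ^ 2 * (Real.pi / Y * (F (-I)).im) ≤ 9 * Real.pi := by
    have hs := h1 ζs hζs_neg
    set S : ℂ := a' + κ ^ 2 / (ζs - a) with hS
    have hκ0 : 0 < ‖κ‖ ^ 2 := by positivity
    have hza : ζs - a ≠ 0 := by
      intro h
      have := congrArg Complex.im h
      rw [Complex.sub_im, Complex.zero_im] at this
      linarith
    have hza0 : 0 < ‖ζs - a‖ ^ 2 := by positivity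
    have hSpos : 0 < S.im := by
      refine lt_of_lt_of_le ?_ hs
      have : 0 < -ζs.im := by linarith
      positivity
    have hFI : (F (-I)).im ≤ ‖ζs - a‖ ^ 2 / (Y * ‖κ‖ ^ 2) := by
      have e1 : F (-I) = (ζ' - S)⁻¹ := by
        simp only [hF]
        rw [← hζs, hφ_eq _ hζs_neg]
      have e2 : (F (-I)).im ≤ ‖(ζ' - S)⁻¹‖ := by
        rw [e1]
        exact (le_abs_self _).trans (Complex.abs_im_le_norm _)
      have e3 : S.im ≤ ‖ζ' - S‖ := by
        refine le_trans ?_ (Complex.abs_im_le_norm _)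
        rw [Complex.sub_im, abs_of_nonpos (by linarith)]
        linarith
      have e4 : ‖(ζ' - S)⁻¹‖ ≤ (S.im)⁻¹ := by
        rw [norm_inv]
        exact inv_anti₀ hSpos e3
      have e5 : Y * ‖κ‖ ^ 2 / ‖ζs - a‖ ^ 2 ≤ S.im := by
        refine le_trans ?_ hs
        rw [mul_div_assoc]
        have : Y ≤ -ζs.im := by rw [hζs_im]; linarith
        gcongr
      have e6 : (S.im)⁻¹ ≤ (Y * ‖κ‖ ^ 2 / ‖ζs - a‖ ^ 2)⁻¹ :=
        inv_anti₀ (by positivity) e5
      rw [inv_div] at e6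
      exact e2.trans (e4.trans e6)
    have hdist : ‖ζs - a‖ ≤ 3 * Y * ‖-I - a'‖ := by
      have e1 : ζs - a = (ζs - σ) + κ ^ 2 / (-I - a') := by rw [hσ]; ring
      have e2 : ‖ζs - σ‖ ≤ 2 * Y := by
        have e3 : ζs - σ = (-(2 * Y) : ℝ) * I := by
          apply Complex.ext
          · simp [hζs, hc]
          · simp [hζs, hc, hY]
            ring
        rw [e3, norm_mul, norm_I, mul_one, Complex.norm_real, Real.norm_eq_abs, abs_neg,
          abs_of_pos (by linarith)]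
      have e4 : ‖κ ^ 2 / (-I - a')‖ ≤ Y * ‖-I - a'‖ := by
        have e5 : ‖κ ^ 2 / (-I - a')‖ = ‖κ / (-I - a')‖ ^ 2 * ‖-I - a'‖ := by
          rw [norm_div, norm_div, norm_pow]
          have : ‖-I - a'‖ ≠ 0 := norm_ne_zero_iff.2 hIa
          field_simp
        rw [e5]
        gcongr
        exact h3.trans (by linarith)
      rw [e1]
      refine (norm_add_le _ _).trans ?_
      nlinarith
    have hIap : 0 < ‖-I - a'‖ := by linarith
    have e7 : ‖κ / (-I - a')‖ ^ 2 * (Real.pi / Y * (F (-I)).im) ≤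
        ‖κ / (-I - a')‖ ^ 2 * (Real.pi / Y * (‖ζs - a‖ ^ 2 / (Y * ‖κ‖ ^ 2))) := by
      have := Real.pi_pos
      gcongr
    refine e7.trans ?_
    have e8 : ‖κ / (-I - a')‖ ^ 2 * (Real.pi / Y * (‖ζs - a‖ ^ 2 / (Y * ‖κ‖ ^ 2))) =
        Real.pi * (‖ζs - a‖ / (Y * ‖-I - a'‖)) ^ 2 := by
      rw [norm_div]
      field_simp
    have e9 : ‖ζs - a‖ / (Y * ‖-I - a'‖) ≤ 3 := by
      rw [div_le_iff₀ (by positivity)]
      linarith
    have e10 : (‖ζs - a‖ / (Y * ‖-I - a'‖)) ^ 2 ≤ 3 ^ 2 :=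
      pow_le_pow_left₀ (by positivity) e9 2
    rw [e8]
    nlinarith [Real.pi_pos]
  calc _ ≤ ∫⁻ u : ℝ, ENNReal.ofReal (‖κ / (-I - a')‖ ^ 2) *
        ENNReal.ofReal (((u - (E + σ.re)) ^ 2 + Y ^ 2)⁻¹ *
        (F (((u - (E + σ.re)) / Y : ℝ) : ℂ)).im) := by
        refine lintegral_mono fun u => ?_
        rw [← ENNReal.ofReal_mul (sq_nonneg _)]
        exact ENNReal.ofReal_le_ofReal (hG u)
    _ = ENNReal.ofReal (‖κ / (-I - a')‖ ^ 2 * (Real.pi / Y * (F (-I)).im)) := by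
        rw [lintegral_const_mul' _ _ ENNReal.ofReal_ne_top, hkey,
          ← ENNReal.ofReal_mul (sq_nonneg _)]
    _ ≤ _ := ENNReal.ofReal_le_ofReal hfin

end P365T1.Pair
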