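import Vale.Agent.P365.C937.SwitchAll
import Vale.Agent.P365.C937.TwoSite
import Vale.Agent.P365.E913.PairNum

/-!
# P365 T1: the pair gain

Two sites `k, k'` with laws of densities at most `D, D'`: passing to the reference values `-i` costs
`C (M_z + D M_k + D' M_k')`, with no product `D D'` (one-site switching twice gives `D D'`).
-/

set_option linter.all false

namespace P365T1.Pair

open P365L P365O P365T1 P365T1.OneVar P365T1.Switch Matrix Complex MeasureTheory
open scoped ComplexConjugate ENNReal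

variable {ι : Type*} [Fintype ι] [DecidableEq ι] {A : Matrix ι ι ℝ} {W : ι → ℂ}
variable {F : Type*} [NormedAddCommGroup F] [NormedSpace ℂ F]

theorem kap_symm (hA : A.IsSymm) (hW : ∀ x, (W x).im < 0) {y ρ : ι} (hne : y ≠ ρ) :
    kap A W ρ y = kap A W y ρ := by
  rw [kap_eq hA hW hne, kap]

/-- the self-energy of `k'` as a function of the value at `k` -/
theorem sg_two (hA : A.IsSymm) (hW : ∀ x, (W x).im < 0) {k k' : ι} (hne : k ≠ k') {ζ : ℂ}
    (hζ : ζ.im < 0) :
    sg A (Function.update W k ζ) k' =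
      sgy A W k k' + kap A W k' k ^ 2 / (ζ - sgy A W k' k) := by
  have hW1 := update_neg (z := k) hW hζ
  have h1 := Gi_self_eq (y := k') (ρ := k) hA hW1 hne.symm
  have h2 := gw_rho (y := k') (ρ := k) hA hW1 hne.symm
  have h3 : sgy A (Function.update W k ζ) k k' = sgy A W k k' := sgy_upd_y hA hW hne hζ
  rw [Function.update_self, sgy_upd hA hW hζ] at h1 h2
  rw [kap_upd hA hW hζ] at h2
  have hz : ζ - sgy A W k' k ≠ 0 := by
    intro h
    have h4 := congrArg Complex.im h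
    rw [Complex.sub_im, Complex.zero_im] at h4
    have h5 := sgy_im_nonneg hA hW (y := k') (ρ := k) hne.symm
    linarith
  rw [← h3, sgy, h1, h2]
  field_simp
  ring

theorem sg_ge (hA : A.IsSymm) (hW : ∀ x, (W x).im < 0) {k k' : ι} (hne : k ≠ k') :
    (-(W k).im) * ‖gw A W k' k‖ ^ 2 ≤ (sg A W k').im := by
  have h1 : (-(W k').im) * ‖gw A W k' k'‖ ^ 2 + (-(W k).im) * ‖gw A W k' k‖ ^ 2 ≤ Sf A W k' := by
    rw [← Finset.sum_pair hne.symm (f := fun a => (-(W a).im) * ‖gw A W k' a‖ ^ 2)]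
    exact Finset.sum_le_sum_of_subset_of_nonneg (Finset.subset_univ _)
      fun a _ _ => mul_nonneg (by linarith [hW a]) (sq_nonneg _)
  rw [gw_self hA hW, norm_one] at h1
  rw [sg_im hA hW]
  linarith

/-- pointwise switching, exact wave -/
theorem up_pt' (hA : A.IsSymm) (hW : ∀ x, (W x).im < 0) (Λ : (ι → ℂ) →ₗ[ℂ] F) (k z : ι)
    {ζ : ℂ} (hζ : ζ.im < 0) {L : ℝ} (hL : ‖ζ‖ ≤ L) :
    ‖GV A (Function.update W k ζ) Λ z‖ ^ 2 ≤
      2 * ‖GV A (Function.update W k (-I)) Λ z‖ ^ 2 +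
      (2 * (L + 1) ^ 2 * ‖GV A (Function.update W k (-I)) Λ k‖ ^ 2) *
        (‖gw A W k z‖ ^ 2 / ‖ζ - sg A W k‖ ^ 2) := by
  rw [GV_switch hA hW Λ k z hζ]
  set X := GV A (Function.update W k (-I)) Λ z
  set Y := GV A (Function.update W k (-I)) Λ k
  set s := sg A W k with hs
  have h2 : ‖X - (gw A W k z * (ζ + I) / (ζ - s)) • Y‖ ^ 2 ≤
      2 * ‖X‖ ^ 2 + 2 * ‖(gw A W k z * (ζ + I) / (ζ - s)) • Y‖ ^ 2 := by
    have h3 := norm_sub_le X ((gw A W k z * (ζ + I) / (ζ - s)) • Y)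
    have h4 := pow_le_pow_left₀ (norm_nonneg _) h3 2
    nlinarith [sq_nonneg (‖X‖ - ‖(gw A W k z * (ζ + I) / (ζ - s)) • Y‖)]
  refine h2.trans ?_
  have h5 : ‖(gw A W k z * (ζ + I) / (ζ - s)) • Y‖ ^ 2 =
      ‖gw A W k z‖ ^ 2 * ‖ζ + I‖ ^ 2 / ‖ζ - s‖ ^ 2 * ‖Y‖ ^ 2 := by
    rw [norm_smul, norm_div, norm_mul]
    ring
  have h6 : ‖ζ + I‖ ^ 2 ≤ (L + 1) ^ 2 := by
    refine pow_le_pow_left₀ (norm_nonneg _) ?_ 2
    refine (norm_add_le _ _).trans ?_
    rw [norm_I]
    linarith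
  have h7 : ‖gw A W k z‖ ^ 2 * ‖ζ + I‖ ^ 2 / ‖ζ - s‖ ^ 2 * ‖Y‖ ^ 2 ≤
      ‖gw A W k z‖ ^ 2 * (L + 1) ^ 2 / ‖ζ - s‖ ^ 2 * ‖Y‖ ^ 2 := by
    gcongr
  rw [h5]
  have h8 : ‖gw A W k z‖ ^ 2 * (L + 1) ^ 2 / ‖ζ - s‖ ^ 2 * ‖Y‖ ^ 2 =
      (L + 1) ^ 2 * ‖Y‖ ^ 2 * (‖gw A W k z‖ ^ 2 / ‖ζ - s‖ ^ 2) := by ring
  rw [h8] at h7
  linarith

/-- constant of the pair gain -/
noncomputable def cP (L : ℝ) : ℝ :=
  4 + 4 * Real.pi * (L + 1) ^ 2 + 36 * Real.pi * (L + 1) ^ 4

theorem cP_ge (L : ℝ) : 4 ≤ cP L := by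
  unfold cP
  have := Real.pi_pos
  have h1 : 0 ≤ 4 * Real.pi * (L + 1) ^ 2 := by positivity
  have h2 : 0 ≤ 36 * Real.pi * (L + 1) ^ 4 := by positivity
  linarith

/-- the Lorentzian of `k` against the one-site gain of `k'`, both averaged -/
theorem pair_fub (hA : A.IsSymm) (hW : ∀ x, (W x).im < 0) {k k' : ι} (hne : k ≠ k')
    {ν ν' : Measure ℝ} [IsProbabilityMeasure ν] [IsProbabilityMeasure ν'] {D E t t' : ℝ}
    (hD : DensLe D ν) (ht : 0 < t) (ht' : 0 < t') :
    ∫⁻ u, ENNReal.ofReal (‖gw A (Function.update W k' (-I)) k k'‖ ^ 2 /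
        ‖(((u - E : ℝ) : ℂ) - (t : ℂ) * I) - sg A (Function.update W k' (-I)) k‖ ^ 2) *
      (∫⁻ u', ENNReal.ofReal
        ((sg A (Function.update W k (((u - E : ℝ) : ℂ) - (t : ℂ) * I)) k').im /
          ‖(((u' - E : ℝ) : ℂ) - (t' : ℂ) * I) -
            sg A (Function.update W k (((u - E : ℝ) : ℂ) - (t : ℂ) * I)) k'‖ ^ 2) ∂ν') ∂ν ≤
      ENNReal.ofReal (9 * Real.pi * D) := by
  set a := sgy A W k' k with ha
  set a' := sgy A W k k' with ha'
  set κ := kap A W k' k with hκ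
  have hIm : (-I : ℂ).im < 0 := negI_im
  have e1 : ∀ ζ : ℂ, ζ.im < 0 → sg A (Function.update W k ζ) k' = a' + κ ^ 2 / (ζ - a) :=
    fun ζ hζ => sg_two hA hW hne hζ
  have e2 : ∀ ζ : ℂ, ζ.im < 0 → sg A (Function.update W k' ζ) k = a + κ ^ 2 / (ζ - a') := by
    intro ζ hζ
    rw [sg_two hA hW hne.symm hζ, kap_symm hA hW hne.symm]
  have e3 : gw A (Function.update W k' (-I)) k k' = κ / (-I - a') := by
    rw [gw_rho hA (update_neg hW hIm) hne, Function.update_self, sgy_upd hA hW hIm,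
      kap_upd hA hW hIm, ← kap_symm hA hW hne]
  have ea : 0 ≤ a.im := sgy_im_nonneg hA hW hne.symm
  have ea' : 0 ≤ a'.im := sgy_im_nonneg hA hW hne
  have h1 : ∀ ζ : ℂ, ζ.im < 0 →
      (-ζ.im) * (‖κ‖ ^ 2 / ‖ζ - a‖ ^ 2) ≤ (a' + κ ^ 2 / (ζ - a)).im := by
    intro ζ hζ
    have h := sg_ge hA (update_neg (z := k) hW hζ) hne
    rw [e1 ζ hζ, Function.update_self, gw_rho hA (update_neg (z := k) hW hζ) hne.symm,
      Function.update_self, sgy_upd hA hW hζ, kap_upd hA hW hζ, norm_div, div_pow] at h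
    exact h
  have h2 : ∀ ζ' : ℂ, ζ'.im < 0 → 0 ≤ (a + κ ^ 2 / (ζ' - a')).im := by
    intro ζ' hζ'
    rw [← e2 ζ' hζ']
    exact sg_im_nonneg hA (update_neg hW hζ') k
  have h3 : ‖κ / (-I - a')‖ ^ 2 ≤ (a + κ ^ 2 / (-I - a')).im := by
    have h := sg_ge hA (update_neg (z := k') hW hIm) hne.symm
    rw [e2 _ hIm, Function.update_self, e3] at h
    simpa using h
  -- explicit integrand
  set G : ℝ → ℝ → ℝ≥0∞ := fun u u' => ENNReal.ofReal (‖κ / (-I - a')‖ ^ 2 /
        ‖(((u - E : ℝ) : ℂ) - (t : ℂ) * I) - (a + κ ^ 2 / (-I - a'))‖ ^ 2 *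
        ((a' + κ ^ 2 / ((((u - E : ℝ) : ℂ) - (t : ℂ) * I) - a)).im /
          ‖(((u' - E : ℝ) : ℂ) - (t' : ℂ) * I) -
            (a' + κ ^ 2 / ((((u - E : ℝ) : ℂ) - (t : ℂ) * I) - a))‖ ^ 2)) with hG
  have hGm : Measurable (Function.uncurry G) := by
    have : Function.uncurry G = fun p : ℝ × ℝ => ENNReal.ofReal (‖κ / (-I - a')‖ ^ 2 /
        ‖(((p.1 - E : ℝ) : ℂ) - (t : ℂ) * I) - (a + κ ^ 2 / (-I - a'))‖ ^ 2 *
        ((a' + κ ^ 2 / ((((p.1 - E : ℝ) : ℂ) - (t : ℂ) * I) - a)).im /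
          ‖(((p.2 - E : ℝ) : ℂ) - (t' : ℂ) * I) -
            (a' + κ ^ 2 / ((((p.1 - E : ℝ) : ℂ) - (t : ℂ) * I) - a))‖ ^ 2)) := rfl
    rw [this]
    have m1 : Measurable fun p : ℝ × ℝ => (((p.1 - E : ℝ) : ℂ) - (t : ℂ) * I) :=
      (Complex.measurable_ofReal.comp (measurable_fst.sub_const E)).sub_const _
    have m2 : Measurable fun p : ℝ × ℝ => (((p.2 - E : ℝ) : ℂ) - (t' : ℂ) * I) :=
      (Complex.measurable_ofReal.comp (measurable_snd.sub_const E)).sub_const _
    have m3 : Measurable fun p : ℝ × ℝ =>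
        (a' + κ ^ 2 / ((((p.1 - E : ℝ) : ℂ) - (t : ℂ) * I) - a)) :=
      (measurable_const.div (m1.sub_const a)).const_add a'
    refine Measurable.ennreal_ofReal (Measurable.mul ?_ ?_)
    · exact measurable_const.div ((m1.sub_const _).norm.pow_const 2)
    · exact (Complex.measurable_im.comp m3).div ((m2.sub m3).norm.pow_const 2)
  have hstep : ∀ u : ℝ, ENNReal.ofReal (‖gw A (Function.update W k' (-I)) k k'‖ ^ 2 /
        ‖(((u - E : ℝ) : ℂ) - (t : ℂ) * I) - sg A (Function.update W k' (-I)) k‖ ^ 2) *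
      (∫⁻ u', ENNReal.ofReal
        ((sg A (Function.update W k (((u - E : ℝ) : ℂ) - (t : ℂ) * I)) k').im /
          ‖(((u' - E : ℝ) : ℂ) - (t' : ℂ) * I) -
            sg A (Function.update W k (((u - E : ℝ) : ℂ) - (t : ℂ) * I)) k'‖ ^ 2) ∂ν') =
      ∫⁻ u', G u u' ∂ν' := by
    intro u
    rw [e1 _ (zeta_im ht u E), e2 _ hIm, e3, ← lintegral_const_mul' _ _ ENNReal.ofReal_ne_top]
    refine lintegral_congr fun u' => ?_
    rw [← ENNReal.ofReal_mul (by positivity)]
  simp only [hstep]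
  rw [lintegral_lintegral_swap hGm.aemeasurable]
  calc ∫⁻ u', ∫⁻ u, G u u' ∂ν ∂ν' ≤ ∫⁻ u', ENNReal.ofReal (9 * Real.pi * D) ∂ν' := by
        refine lintegral_mono fun u' => ?_
        have hp := pair_num (a := a) (a' := a') (κ := κ)
          (ζ' := (((u' - E : ℝ) : ℂ) - (t' : ℂ) * I)) (zeta_im ht' u' E) ht E ea' h1
          (h2 _ (zeta_im ht' u' E)) h3 ea
        calc ∫⁻ u, G u u' ∂ν ≤ ∫⁻ u, G u u' ∂(ENNReal.ofReal D • (volume : Measure ℝ)) :=
              lintegral_mono' hD le_rfl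
          _ = ENNReal.ofReal D * ∫⁻ u, G u u' := by rw [lintegral_smul_measure, smul_eq_mul]
          _ ≤ ENNReal.ofReal D * ENNReal.ofReal (9 * Real.pi) := by
              gcongr
          _ = ENNReal.ofReal (9 * Real.pi * D) := by
              rw [mul_comm, ← ENNReal.ofReal_mul (by have := Real.pi_pos; positivity)]
    _ = _ := by rw [lintegral_const, measure_univ, mul_one]

/-- **pair gain**, quenched in everything else -/
theorem pair_int (hA : A.IsSymm) (hW : ∀ x, (W x).im < 0) (Λ : (ι → ℂ) →ₗ[ℂ] F) {k k' z : ι}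
    (hkz : k ≠ z) (hkz' : k' ≠ z) (hne : k ≠ k') (hWz : (W z).im = -1) {ν ν' : Measure ℝ}
    [IsProbabilityMeasure ν] [IsProbabilityMeasure ν'] {D D' E t t' L : ℝ}
    (hD : DensLe D ν) (hD' : DensLe D' ν') (ht : 0 < t) (ht' : 0 < t')
    (hL : ∀ᵐ u ∂ν, |u - E| + t ≤ L) (hL' : ∀ᵐ u ∂ν', |u - E| + t' ≤ L) :
    ∫⁻ u, ∫⁻ u', MV A (Function.update (Function.update W k (((u - E : ℝ) : ℂ) - (t : ℂ) * I)) k'
        (((u' - E : ℝ) : ℂ) - (t' : ℂ) * I)) Λ z ∂ν' ∂ν ≤
      ENNReal.ofReal (cP L) * (1 + ENNReal.ofReal D + ENNReal.ofReal D') *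
        (MV A (Function.update (Function.update W k (-I)) k' (-I)) Λ z +
          MV A (Function.update (Function.update W k (-I)) k' (-I)) Λ k +
          MV A (Function.update (Function.update W k (-I)) k' (-I)) Λ k') := by
  have hIm : (-I : ℂ).im < 0 := negI_im
  have hpi := Real.pi_pos
  set ζ : ℝ → ℂ := fun u => (((u - E : ℝ) : ℂ) - (t : ℂ) * I) with hζ
  set ζ' : ℝ → ℂ := fun u => (((u - E : ℝ) : ℂ) - (t' : ℂ) * I) with hζ'
  set W2 : ι → ℂ := Function.update W k' (-I) with hW2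
  have hW2n : ∀ x, (W2 x).im < 0 := update_neg hW hIm
  set Mz := MV A (Function.update (Function.update W k (-I)) k' (-I)) Λ z with hMz
  set Mk := MV A (Function.update (Function.update W k (-I)) k' (-I)) Λ k with hMk
  set Mk' := MV A (Function.update (Function.update W k (-I)) k' (-I)) Λ k' with hMk'
  have hcomm : ∀ c : ℂ, Function.update (Function.update W k c) k' (-I) =
      Function.update W2 k c := by
    intro c
    rw [hW2, Function.update_comm hne]
  -- first line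
  set h : ℝ → ℝ → ℝ≥0∞ := fun u u' => ENNReal.ofReal
        ((sg A (Function.update W k (ζ u)) k').im /
          ‖ζ' u' - sg A (Function.update W k (ζ u)) k'‖ ^ 2) with hh
  have l1 : ∀ᵐ u ∂ν, ∫⁻ u', MV A (Function.update (Function.update W k (ζ u)) k' (ζ' u')) Λ z ∂ν' ≤
      2 * MV A (Function.update W2 k (ζ u)) Λ z +
      ENNReal.ofReal (2 * (L + 1) ^ 2) * MV A (Function.update W2 k (ζ u)) Λ k' *
        ∫⁻ u', h u u' ∂ν' := by
    refine Filter.Eventually.of_forall fun u => ?_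
    have hWu : ∀ x, (Function.update W k (ζ u) x).im < 0 := update_neg hW (zeta_im ht u E)
    have hs := sg_im_nonneg hA hWu k'
    have hWuz : (Function.update W k (ζ u) z).im = -1 := by
      rw [Function.update_of_ne hkz.symm, hWz]
    calc ∫⁻ u', MV A (Function.update (Function.update W k (ζ u)) k' (ζ' u')) Λ z ∂ν'
        ≤ ∫⁻ u', (2 * MV A (Function.update W2 k (ζ u)) Λ z +
          ENNReal.ofReal (2 * (L + 1) ^ 2) * MV A (Function.update W2 k (ζ u)) Λ k' *
            h u u') ∂ν' := by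
          refine lintegral_mono_ae ?_
          filter_upwards [hL'] with u' hu'
          have hp := up_pt hA hWu Λ hkz' hWuz (zeta_im ht' u' E) (zeta_norm ht' hu')
          rw [hcomm (ζ u)] at hp
          refine (ENNReal.ofReal_le_ofReal hp).trans (le_of_eq ?_)
          rw [ENNReal.ofReal_add (by positivity) (by positivity), ENNReal.ofReal_mul (by norm_num),
            ENNReal.ofReal_mul (by positivity), ENNReal.ofReal_mul (by positivity)]
          simp only [MV, ENNReal.ofReal_ofNat, hh]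
          rfl
      _ = _ := by
          rw [lintegral_add_left measurable_const, lintegral_const, measure_univ, mul_one,
            lintegral_const_mul']
          exact ENNReal.mul_ne_top ENNReal.ofReal_ne_top ENNReal.ofReal_ne_top
  refine (lintegral_mono_ae l1).trans ?_
  -- measurability
  have mS : Measurable fun u : ℝ => MV A (Function.update W2 k (ζ u)) Λ z := by
    refine measurable_MV Λ (fun u => Function.update W2 k (ζ u)) (fun x => ?_) z
    by_cases hx : x = k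
    · subst hx
      simp only [Function.update_self, hζ]
      exact (Complex.measurable_ofReal.comp (measurable_id.sub_const E)).sub_const _
    · simp only [Function.update_of_ne hx]
      exact measurable_const
  -- second line, first term
  have l2 : ∫⁻ u, MV A (Function.update W2 k (ζ u)) Λ z ∂ν ≤
      2 * Mz + ENNReal.ofReal (2 * Real.pi * D * (L + 1) ^ 2) * Mk := by
    have hu := up_int hA hW2n Λ hkz (by rw [hW2, Function.update_of_ne hkz'.symm, hWz]) hD ht hL
    rw [hMz, hMk, hcomm (-I)]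
    exact hu
  -- second line, second term
  have l3 : ∫⁻ u, MV A (Function.update W2 k (ζ u)) Λ k' * ∫⁻ u', h u u' ∂ν' ∂ν ≤
      2 * Mk' * ENNReal.ofReal (Real.pi * D') +
        ENNReal.ofReal (2 * (L + 1) ^ 2) * Mk * ENNReal.ofReal (9 * Real.pi * D) := by
    calc ∫⁻ u, MV A (Function.update W2 k (ζ u)) Λ k' * ∫⁻ u', h u u' ∂ν' ∂ν
        ≤ ∫⁻ u, (2 * Mk' * ENNReal.ofReal (Real.pi * D') +
          ENNReal.ofReal (2 * (L + 1) ^ 2) * Mk * (ENNReal.ofReal (‖gw A W2 k k'‖ ^ 2 /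
            ‖ζ u - sg A W2 k‖ ^ 2) * ∫⁻ u', h u u' ∂ν')) ∂ν := by
          refine lintegral_mono_ae ?_
          filter_upwards [hL] with u hu
          have hp := up_pt' hA hW2n Λ k k' (zeta_im ht u E) (zeta_norm ht hu)
          have hp2 : MV A (Function.update W2 k (ζ u)) Λ k' ≤ 2 * Mk' +
              ENNReal.ofReal (2 * (L + 1) ^ 2) * Mk * ENNReal.ofReal (‖gw A W2 k k'‖ ^ 2 /
            ‖ζ u - sg A W2 k‖ ^ 2) := by
            refine (ENNReal.ofReal_le_ofReal hp).trans (le_of_eq ?_)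
            rw [ENNReal.ofReal_add (by positivity) (by positivity),
              ENNReal.ofReal_mul (by norm_num),
              ENNReal.ofReal_mul (by positivity), ENNReal.ofReal_mul (by positivity), hMk', hMk,
              hcomm (-I)]
            simp only [MV, ENNReal.ofReal_ofNat]
            rfl
          have hcl : ∫⁻ u', h u u' ∂ν' ≤ ENNReal.ofReal (Real.pi * D') :=
            cauchy_le hD' ht' (sg_im_nonneg hA (update_neg hW (zeta_im ht u E)) k') E
          calc MV A (Function.update W2 k (ζ u)) Λ k' * ∫⁻ u', h u u' ∂ν'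
              ≤ (2 * Mk' + ENNReal.ofReal (2 * (L + 1) ^ 2) * Mk *
                ENNReal.ofReal (‖gw A W2 k k'‖ ^ 2 / ‖ζ u - sg A W2 k‖ ^ 2)) *
                ∫⁻ u', h u u' ∂ν' := mul_le_mul' hp2 le_rfl
            _ = 2 * Mk' * ∫⁻ u', h u u' ∂ν' + ENNReal.ofReal (2 * (L + 1) ^ 2) * Mk *
                (ENNReal.ofReal (‖gw A W2 k k'‖ ^ 2 / ‖ζ u - sg A W2 k‖ ^ 2) *
                ∫⁻ u', h u u' ∂ν') := by ring
            _ ≤ _ := by gcongr
      _ = 2 * Mk' * ENNReal.ofReal (Real.pi * D') +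
          ENNReal.ofReal (2 * (L + 1) ^ 2) * Mk *
            ∫⁻ u, (ENNReal.ofReal (‖gw A W2 k k'‖ ^ 2 /
            ‖ζ u - sg A W2 k‖ ^ 2) * ∫⁻ u', h u u' ∂ν') ∂ν := by
          rw [lintegral_add_left measurable_const, lintegral_const, measure_univ, mul_one,
            lintegral_const_mul']
          exact ENNReal.mul_ne_top ENNReal.ofReal_ne_top ENNReal.ofReal_ne_top
      _ ≤ _ := by
          gcongr
          exact pair_fub hA hW hne hD ht ht'
  calc ∫⁻ u, (2 * MV A (Function.update W2 k (ζ u)) Λ z +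
      ENNReal.ofReal (2 * (L + 1) ^ 2) * MV A (Function.update W2 k (ζ u)) Λ k' *
        ∫⁻ u', h u u' ∂ν') ∂ν
      = 2 * (∫⁻ u, MV A (Function.update W2 k (ζ u)) Λ z ∂ν) +
        ENNReal.ofReal (2 * (L + 1) ^ 2) *
          ∫⁻ u, MV A (Function.update W2 k (ζ u)) Λ k' * ∫⁻ u', h u u' ∂ν' ∂ν := by
        rw [lintegral_add_left (mS.const_mul 2), lintegral_const_mul' _ _ (by simp),
          ← lintegral_const_mul' _ _ ENNReal.ofReal_ne_top]
        simp only [mul_assoc]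
    _ ≤ 2 * (2 * Mz + ENNReal.ofReal (2 * Real.pi * D * (L + 1) ^ 2) * Mk) +
        ENNReal.ofReal (2 * (L + 1) ^ 2) * (2 * Mk' * ENNReal.ofReal (Real.pi * D') +
        ENNReal.ofReal (2 * (L + 1) ^ 2) * Mk * ENNReal.ofReal (9 * Real.pi * D)) := by
        gcongr
    _ = 4 * Mz + (2 * ENNReal.ofReal (2 * Real.pi * D * (L + 1) ^ 2) +
        ENNReal.ofReal (2 * (L + 1) ^ 2) * (ENNReal.ofReal (2 * (L + 1) ^ 2) *
          ENNReal.ofReal (9 * Real.pi * D))) * Mk +
        ENNReal.ofReal (2 * (L + 1) ^ 2) * (2 * ENNReal.ofReal (Real.pi * D')) * Mk' := by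
        ring
    _ ≤ ENNReal.ofReal (cP L) * Mz + ENNReal.ofReal (cP L) * ENNReal.ofReal D * Mk +
        ENNReal.ofReal (cP L) * ENNReal.ofReal D' * Mk' := by
        have c0 : (4 : ℝ≥0∞) ≤ ENNReal.ofReal (cP L) := by
          rw [show (4 : ℝ≥0∞) = ENNReal.ofReal 4 by simp]
          exact ENNReal.ofReal_le_ofReal (cP_ge L)
        have p1 : 0 ≤ 4 * Real.pi * (L + 1) ^ 2 := by positivity
        have p2 : 0 ≤ 36 * Real.pi * (L + 1) ^ 4 := by positivity
        have c1 : 2 * ENNReal.ofReal (2 * Real.pi * D * (L + 1) ^ 2) +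
            ENNReal.ofReal (2 * (L + 1) ^ 2) * (ENNReal.ofReal (2 * (L + 1) ^ 2) *
            ENNReal.ofReal (9 * Real.pi * D)) ≤ ENNReal.ofReal (cP L) * ENNReal.ofReal D := by
          have e1 : 2 * ENNReal.ofReal (2 * Real.pi * D * (L + 1) ^ 2) =
              ENNReal.ofReal (4 * Real.pi * (L + 1) ^ 2) * ENNReal.ofReal D := by
            rw [show (2 : ℝ≥0∞) = ENNReal.ofReal 2 by simp, ← ENNReal.ofReal_mul (by norm_num),
              ← ENNReal.ofReal_mul p1]
            congr 1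
            ring
          have e2 : ENNReal.ofReal (2 * (L + 1) ^ 2) * (ENNReal.ofReal (2 * (L + 1) ^ 2) *
              ENNReal.ofReal (9 * Real.pi * D)) =
              ENNReal.ofReal (36 * Real.pi * (L + 1) ^ 4) * ENNReal.ofReal D := by
            rw [← ENNReal.ofReal_mul (by positivity), ← ENNReal.ofReal_mul (by positivity),
              ← ENNReal.ofReal_mul p2]
            congr 1
            ring
          rw [e1, e2, ← add_mul, ← ENNReal.ofReal_add p1 p2]
          gcongr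
          unfold cP
          linarith
        have c2 : ENNReal.ofReal (2 * (L + 1) ^ 2) * (2 * ENNReal.ofReal (Real.pi * D')) ≤
            ENNReal.ofReal (cP L) * ENNReal.ofReal D' := by
          have e1 : ENNReal.ofReal (2 * (L + 1) ^ 2) * (2 * ENNReal.ofReal (Real.pi * D')) =
              ENNReal.ofReal (4 * Real.pi * (L + 1) ^ 2) * ENNReal.ofReal D' := by
            rw [show (2 : ℝ≥0∞) = ENNReal.ofReal 2 by simp, ← ENNReal.ofReal_mul (by norm_num),
              ← ENNReal.ofReal_mul (by positivity), ← ENNReal.ofReal_mul p1]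
            congr 1
            ring
          rw [e1]
          gcongr
          unfold cP
          linarith
        gcongr
    _ ≤ _ := by
        have h1 : (1 : ℝ≥0∞) ≤ 1 + ENNReal.ofReal D + ENNReal.ofReal D' := by
          rw [add_assoc]; exact le_self_add
        have h2 : ENNReal.ofReal D ≤ 1 + ENNReal.ofReal D + ENNReal.ofReal D' := by
          calc ENNReal.ofReal D ≤ 1 + ENNReal.ofReal D := le_add_self
            _ ≤ _ := le_self_add
        have h3 : ENNReal.ofReal D' ≤ 1 + ENNReal.ofReal D + ENNReal.ofReal D' := le_add_self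
        rw [mul_add, mul_add]
        refine add_le_add (add_le_add ?_ ?_) ?_
        · refine mul_le_mul' ?_ le_rfl
          calc ENNReal.ofReal (cP L) = ENNReal.ofReal (cP L) * 1 := (mul_one _).symm
            _ ≤ _ := mul_le_mul' le_rfl h1
        · exact mul_le_mul' (mul_le_mul' le_rfl h2) le_rfl
        · exact mul_le_mul' (mul_le_mul' le_rfl h3) le_rfl

end P365T1.Pair
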