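import Vale.Agent.P365.E913.Alt
import Vale.Agent.P365.E913.Prob

set_option linter.all false

/-!
# P365 T1, soft end: sites whose self-energy has a large imaginary part
-/

namespace P365L.E913

open MeasureTheory ProbabilityTheory Complex Filter Topology P365L.Inf
open scoped ENNReal InnerProductSpace

variable {P : Measure (Site → ℝ)} [IsProbabilityMeasure P] {ν : Measure ℝ}
  [IsProbabilityMeasure ν] {K L : ℝ}

/-- the pointwise estimate -/
theorem near_point {V : Site → ℝ} {z : ℂ} (hz : 0 < z.im) {x w : Site} {t τ b κ κh H : ℝ}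
    (hτ : 0 < τ) (hκh : 0 < κh) (hp : τ ≤ imp V z w) (hm : (gg V z x x).im ≤ b)
    (hH : |t - V w| ≤ H) :
    z.im * (gg V z x w).im ^ 2 ≤ z.im * (b / τ) ∧
      (κh ≤ |t - V w| → ‖gg V z x x - gg (Function.update V w t) z x x‖ ≤ κ →
        z.im * (gg V z x w).im ^ 2 ≤ z.im * ((1 + H / τ) * κ / κh)) := by
  constructor
  · refine mul_le_mul_of_nonneg_left ?_ hz.le
    refine (im_sq_le hz x w).trans ?_
    have h1 := im_le_of_imp hz hτ hp
    have h2 := (gg_im_pos (V := V) hz x).le
    have h3 := (gg_im_pos (V := V) hz w).le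
    calc (gg V z x x).im * (gg V z w w).im ≤ b * (1 / τ) :=
          mul_le_mul hm h1 h3 (h2.trans hm)
      _ = b / τ := by ring
  · intro h1 h2
    refine mul_le_mul_of_nonneg_left ?_ hz.le
    refine (im_le_norm x w).trans ?_
    have h3 := sq_le_diff (V := V) (x := x) hz hτ hp hH
    rw [add_sub_cancel] at h3
    have hH0 : 0 ≤ H := (abs_nonneg _).trans hH
    rw [le_div_iff₀ hκh]
    calc ‖gg V z x w‖ ^ 2 * κh ≤ ‖gg V z x w‖ ^ 2 * |t - V w| :=
          mul_le_mul_of_nonneg_left h1 (sq_nonneg _)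
      _ = |t - V w| * ‖gg V z x w‖ ^ 2 := mul_comm _ _
      _ ≤ _ := h3
      _ ≤ (1 + H / τ) * κ := mul_le_mul_of_nonneg_left h2 (by positivity)

theorem prob_window (hP : Law P ν K L) (w : Site) {κh : ℝ} (hκh : 0 < κh) :
    (P.prod ν) {p : (Site → ℝ) × ℝ | |p.2 - p.1 w| < κh} ≤ ENNReal.ofReal (2 * K * κh) := by
  have hm : MeasurableSet {p : (Site → ℝ) × ℝ | |p.2 - p.1 w| < κh} := by
    refine measurableSet_lt ?_ measurable_const
    exact (measurable_snd.sub ((measurable_pi_apply w).comp measurable_fst)).abs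
  rw [Measure.prod_apply hm]
  have h1 : ∀ V : Site → ℝ, ν (Prod.mk V ⁻¹' {p : (Site → ℝ) × ℝ | |p.2 - p.1 w| < κh}) ≤
      ENNReal.ofReal (2 * K * κh) := by
    intro V
    refine (hP.nuK _).trans ?_
    have h2 : Prod.mk V ⁻¹' {p : (Site → ℝ) × ℝ | |p.2 - p.1 w| < κh} =
        Set.Ioo (V w - κh) (V w + κh) := by
      ext t
      simp only [Set.mem_preimage, Set.mem_setOf_eq, Set.mem_Ioo, abs_lt]
      constructor
      · rintro ⟨h3, h4⟩; constructor <;> linarith
      · rintro ⟨h3, h4⟩; constructor <;> linarith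
    rw [h2, Measure.smul_apply, Real.volume_Ioo, smul_eq_mul, ← ENNReal.ofReal_mul hP.K0.le]
    exact ENNReal.ofReal_le_ofReal (le_of_eq (by ring))
  calc ∫⁻ V, ν (Prod.mk V ⁻¹' {p : (Site → ℝ) × ℝ | |p.2 - p.1 w| < κh}) ∂P
      ≤ ∫⁻ V, ENNReal.ofReal (2 * K * κh) ∂P := lintegral_mono h1
    _ = _ := by simp

theorem ae_bound (hP : Law P ν K L) (w : Site) :
    ∀ᵐ p ∂(P.prod ν), |p.2 - p.1 w| ≤ 2 * L := by
  have q1 := (Measure.quasiMeasurePreserving_fst (μ := P) (ν := ν)).ae hP.bdd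
  have q2 := (Measure.quasiMeasurePreserving_snd (μ := P) (ν := ν)).ae hP.nuL
  filter_upwards [q1, q2] with p h1 h2
  have h3 := abs_le.1 (h1 w)
  have h4 := abs_le.1 h2
  exact abs_le.2 ⟨by linarith, by linarith⟩

/-- Chebyshev for the change at the coarse scale -/
theorem prob_diff (hP : Law P ν K L) {z : ℂ} (hz : 0 < z.im) (x w : Site) {κ : ℝ} (hκ : 0 < κ) :
    (P.prod ν) {p : (Site → ℝ) × ℝ |
      κ / 2 < ‖gg p.1 z x x - gg (Function.update p.1 w p.2) z x x‖} ≤
      ENNReal.ofReal (4 * L / κ) * ∫⁻ V, ENNReal.ofReal (‖gg V z x w‖ ^ 2) ∂P := by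
  have m1 : Measurable fun V : Site → ℝ => gg V z x w := measurable_gg_V hz x w
  have m2 : Measurable fun V : Site → ℝ => ENNReal.ofReal (‖gg V z x w‖ ^ 2) :=
    (m1.norm.pow_const 2).ennreal_ofReal
  have e1 : ∫⁻ p, ENNReal.ofReal (‖gg p.1 z x w‖ ^ 2) ∂(P.prod ν) =
      ∫⁻ V, ENNReal.ofReal (‖gg V z x w‖ ^ 2) ∂P :=
    (measurePreserving_fst (μ := P) (ν := ν)).lintegral_comp m2
  have e2 : ∫⁻ p, ENNReal.ofReal (‖gg (Function.update p.1 w p.2) z x w‖ ^ 2) ∂(P.prod ν) =
      ∫⁻ V, ENNReal.ofReal (‖gg V z x w‖ ^ 2) ∂P :=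
    (hP.res w).lintegral_comp m2
  have hL := hP.L0
  have m3 : Measurable fun p : (Site → ℝ) × ℝ => ENNReal.ofReal (‖gg p.1 z x w‖ ^ 2) :=
    m2.comp measurable_fst
  have h1 : ∫⁻ p, ENNReal.ofReal ‖gg p.1 z x x - gg (Function.update p.1 w p.2) z x x‖
      ∂(P.prod ν) ≤ ENNReal.ofReal (2 * L) * ∫⁻ V, ENNReal.ofReal (‖gg V z x w‖ ^ 2) ∂P := by
    calc ∫⁻ p, ENNReal.ofReal ‖gg p.1 z x x - gg (Function.update p.1 w p.2) z x x‖ ∂(P.prod ν)
        ≤ ∫⁻ p, (ENNReal.ofReal L * (ENNReal.ofReal (‖gg p.1 z x w‖ ^ 2) +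
          ENNReal.ofReal (‖gg (Function.update p.1 w p.2) z x w‖ ^ 2))) ∂(P.prod ν) := by
          refine lintegral_mono_ae ?_
          filter_upwards [ae_bound hP w] with p hp
          rw [← ENNReal.ofReal_add (by positivity) (by positivity), ← ENNReal.ofReal_mul hL]
          refine ENNReal.ofReal_le_ofReal ?_
          have h := norm_diff_le (V := p.1) hz x w hp
          rw [add_sub_cancel] at h
          linarith
      _ = ENNReal.ofReal L * (∫⁻ V, ENNReal.ofReal (‖gg V z x w‖ ^ 2) ∂P +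
          ∫⁻ V, ENNReal.ofReal (‖gg V z x w‖ ^ 2) ∂P) := by
          rw [lintegral_const_mul' _ _ ENNReal.ofReal_ne_top, lintegral_add_left m3, e1, e2]
      _ = _ := by
          rw [← two_mul, ← mul_assoc, ENNReal.ofReal_mul (by norm_num : (0 : ℝ) ≤ 2)]
          congr 1
          rw [mul_comm]
          simp
  have h2 : (P.prod ν) {p : (Site → ℝ) × ℝ |
      κ / 2 < ‖gg p.1 z x x - gg (Function.update p.1 w p.2) z x x‖} ≤
      (∫⁻ p, ENNReal.ofReal ‖gg p.1 z x x - gg (Function.update p.1 w p.2) z x x‖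
      ∂(P.prod ν)) / ENNReal.ofReal (κ / 2) := by
    refine (measure_mono ?_).trans (meas_ge_le_lintegral_div ?_ ?_ ENNReal.ofReal_ne_top)
    · intro p hp
      exact ENNReal.ofReal_le_ofReal (le_of_lt hp)
    · refine Measurable.aemeasurable ?_
      refine Measurable.ennreal_ofReal ?_
      exact (((measurable_gg_V hz x x).comp measurable_fst).sub
        ((measurable_gg_V hz x x).comp (hP.res w).measurable)).norm
    · simp only [ne_eq, ENNReal.ofReal_eq_zero, not_le]
      positivity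
  refine h2.trans ?_
  rw [ENNReal.div_eq_inv_mul, ← ENNReal.ofReal_inv_of_pos (by positivity)]
  calc ENNReal.ofReal (κ / 2)⁻¹ * _ ≤ ENNReal.ofReal (κ / 2)⁻¹ *
        (ENNReal.ofReal (2 * L) * ∫⁻ V, ENNReal.ofReal (‖gg V z x w‖ ^ 2) ∂P) :=
        mul_le_mul_right h1 _
    _ = _ := by
        rw [← mul_assoc, ← ENNReal.ofReal_mul (by positivity)]
        congr 2
        field_simp
        ring

/-- the change at the fine scale -/
theorem prob_diff_two (hP : Law P ν K L) {z z' : ℂ} (hz : 0 < z.im) (hz' : 0 < z'.im)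
    (x w : Site) {κ : ℝ} (hκ : 0 < κ) :
    (P.prod ν) {p : (Site → ℝ) × ℝ |
      κ < ‖gg p.1 z x x - gg (Function.update p.1 w p.2) z x x‖} ≤
      ENNReal.ofReal (4 * L / κ) * ∫⁻ V, ENNReal.ofReal (‖gg V z' x w‖ ^ 2) ∂P +
        (P {V | κ / 4 < ‖gg V z x x - gg V z' x x‖} +
          P {V | κ / 4 < ‖gg V z x x - gg V z' x x‖}) := by
  set B := {V : Site → ℝ | κ / 4 < ‖gg V z x x - gg V z' x x‖} with hB
  have hBm : MeasurableSet B := measurableSet_lt measurable_const
    ((measurable_gg_V hz x x).sub (measurable_gg_V hz' x x)).norm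
  have e1 : (P.prod ν) ((fun p : (Site → ℝ) × ℝ => p.1) ⁻¹' B) = P B :=
    (measurePreserving_fst (μ := P) (ν := ν)).measure_preimage hBm.nullMeasurableSet
  have e2 : (P.prod ν) ((fun p : (Site → ℝ) × ℝ => Function.update p.1 w p.2) ⁻¹' B) = P B :=
    (hP.res w).measure_preimage hBm.nullMeasurableSet
  have hsub : {p : (Site → ℝ) × ℝ |
      κ < ‖gg p.1 z x x - gg (Function.update p.1 w p.2) z x x‖} ⊆
      {p : (Site → ℝ) × ℝ | κ / 2 < ‖gg p.1 z' x x - gg (Function.update p.1 w p.2) z' x x‖} ∪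
        (((fun p : (Site → ℝ) × ℝ => p.1) ⁻¹' B) ∪
        ((fun p : (Site → ℝ) × ℝ => Function.update p.1 w p.2) ⁻¹' B)) := by
    intro p hp
    by_contra hc
    simp only [Set.mem_union, Set.mem_setOf_eq, Set.mem_preimage, not_or, not_lt, hB] at hc hp
    obtain ⟨h1, h2, h3⟩ := hc
    set a := gg p.1 z x x
    set a' := gg p.1 z' x x
    set c := gg (Function.update p.1 w p.2) z x x
    set c' := gg (Function.update p.1 w p.2) z' x x
    have h4 : ‖a - c‖ ≤ ‖a - a'‖ + ‖a' - c'‖ + ‖c - c'‖ := by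
      have : a - c = (a - a') + (a' - c') - (c - c') := by ring
      rw [this]
      exact (norm_sub_le _ _).trans (add_le_add (norm_add_le _ _) le_rfl)
    linarith
  refine (measure_mono hsub).trans ((measure_union_le _ _).trans ?_)
  refine add_le_add (prob_diff hP hz' x w hκ) ?_
  refine (measure_union_le _ _).trans ?_
  rw [e1, e2]

/-- the contribution of one site with a large imaginary part of the self-energy -/
theorem partB (hP : Law P ν K L) {z z' : ℂ} (hz : 0 < z.im) (hz' : 0 < z'.im) (x w : Site)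
    {τ b κ κh : ℝ} (hτ : 0 < τ) (hb : 0 < b) (hκ : 0 < κ) (hκh : 0 < κh) :
    ∫⁻ V in {V | τ ≤ imp V z w ∧ (gg V z x x).im ≤ b},
        ENNReal.ofReal (z.im * (gg V z x w).im ^ 2) ∂P ≤
      ENNReal.ofReal (z.im * ((1 + 2 * L / τ) * κ / κh)) +
        ENNReal.ofReal (z.im * (b / τ)) * (ENNReal.ofReal (2 * K * κh) +
          (ENNReal.ofReal (4 * L / κ) * ∫⁻ V, ENNReal.ofReal (‖gg V z' x w‖ ^ 2) ∂P +
            (P {V | κ / 4 < ‖gg V z x x - gg V z' x x‖} +
              P {V | κ / 4 < ‖gg V z x x - gg V z' x x‖}))) := by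
  set A := {V : Site → ℝ | τ ≤ imp V z w ∧ (gg V z x x).im ≤ b} with hA
  set S1 := {p : (Site → ℝ) × ℝ | |p.2 - p.1 w| < κh} with hS1
  set S2 := {p : (Site → ℝ) × ℝ |
      κ < ‖gg p.1 z x x - gg (Function.update p.1 w p.2) z x x‖} with hS2
  have mimp : Measurable fun V : Site → ℝ => imp V z w := by
    unfold imp
    exact (Complex.measurable_im.comp (measurable_gg_V hz w w).inv).neg
  have hAm : MeasurableSet A := (measurableSet_le measurable_const mimp).inter
    (measurableSet_le (Complex.measurable_im.comp (measurable_gg_V hz x x)) measurable_const)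
  have hS1m : MeasurableSet S1 := by
    refine measurableSet_lt ?_ measurable_const
    exact (measurable_snd.sub ((measurable_pi_apply w).comp measurable_fst)).abs
  have hS2m : MeasurableSet S2 := by
    refine measurableSet_lt measurable_const ?_
    exact (((measurable_gg_V hz x x).comp measurable_fst).sub
        ((measurable_gg_V hz x x).comp (hP.res w).measurable)).norm
  set F : (Site → ℝ) → ℝ≥0∞ :=
    A.indicator fun V => ENNReal.ofReal (z.im * (gg V z x w).im ^ 2) with hF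
  have mF : Measurable F :=
    (((Complex.measurable_im.comp (measurable_gg_V hz x w)).pow_const 2).const_mul
      z.im).ennreal_ofReal.indicator hAm
  set a := ENNReal.ofReal (z.im * ((1 + 2 * L / τ) * κ / κh)) with ha
  set c := ENNReal.ofReal (z.im * (b / τ)) with hc
  have h1 : ∫⁻ V in A, ENNReal.ofReal (z.im * (gg V z x w).im ^ 2) ∂P = ∫⁻ p, F p.1 ∂(P.prod ν) := by
    rw [(measurePreserving_fst (μ := P) (ν := ν)).lintegral_comp mF, hF, lintegral_indicator hAm]
  rw [h1]
  have h2 : ∫⁻ p, F p.1 ∂(P.prod ν) ≤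
      ∫⁻ p, (a + (S1.indicator (fun _ => c) p + S2.indicator (fun _ => c) p)) ∂(P.prod ν) := by
    refine lintegral_mono_ae ?_
    filter_upwards [ae_bound hP w] with p hp
    by_cases hpA : p.1 ∈ A
    · rw [hF, Set.indicator_of_mem hpA]
      obtain ⟨h3, h4⟩ := near_point (V := p.1) (κ := κ) hz hτ hκh hpA.1 hpA.2 hp
      by_cases q1 : p ∈ S1
      · rw [Set.indicator_of_mem q1]
        refine le_trans (ENNReal.ofReal_le_ofReal h3) ?_
        exact le_trans (le_self_add) (le_add_self)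
      · by_cases q2 : p ∈ S2
        · rw [Set.indicator_of_mem q2]
          refine le_trans (ENNReal.ofReal_le_ofReal h3) ?_
          exact le_trans (le_add_self) (le_add_self)
        · refine le_trans (ENNReal.ofReal_le_ofReal (h4 (not_lt.1 q1) (not_lt.1 q2))) ?_
          exact le_self_add
    · rw [hF, Set.indicator_of_notMem hpA]
      exact bot_le
  refine h2.trans ?_
  rw [lintegral_add_left measurable_const, lintegral_add_left (measurable_const.indicator hS1m),
    lintegral_indicator_const hS1m, lintegral_indicator_const hS2m, lintegral_const,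
    measure_univ, mul_one, ← mul_add]
  refine add_le_add le_rfl (mul_le_mul_right (add_le_add (prob_window hP w hκh) ?_) _)
  exact prob_diff_two hP hz hz' x w hκ

end P365L.E913
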