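import Vale.Agent.P365.E913.Alt

set_option linter.all false

/-!
# P365 T1, soft end (E4), part C: the mass of the imaginary part on the active event
-/

namespace P365L.E913

open MeasureTheory ProbabilityTheory Complex Filter Topology P365L.Inf
open scoped ENNReal InnerProductSpace

variable {P : Measure (Site → ℝ)} [IsProbabilityMeasure P] {ν : Measure ℝ}
  [IsProbabilityMeasure ν] {K L : ℝ}

/-- total mass of the imaginary part of the column -/
noncomputable def imMass (E : ℝ) (n : ℕ) (V : Site → ℝ) : ℝ≥0∞ :=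
  ∑' w, ENNReal.ofReal ((zz E n).im * (gg V (zz E n) (0, 0) w).im ^ 2)

theorem measurable_imMass (E : ℝ) (n : ℕ) : Measurable (imMass E n) := by
  unfold imMass
  refine Measurable.ennreal_tsum fun w => ?_
  exact (((Complex.measurable_im.comp (measurable_gg E n (0, 0) w)).pow_const 2).const_mul
    _).ennreal_ofReal

theorem imMass_eq (E : ℝ) (n : ℕ) (V : Site → ℝ) :
    imMass E n V = ENNReal.ofReal (((gg V (zz E n) (0, 0) (0, 0)).im -
      ((zz E n).im * (Res V (zz E n) (Res V (zz E n) (dl (0, 0)))) (0, 0) : ℂ).re) / 2) := by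
  have hz := zz_pos E n
  rw [← sum_im_sq hz, ← tsum_mul_left, imMass]
  rw [ENNReal.ofReal_tsum_of_nonneg (fun w => mul_nonneg hz.le (sq_nonneg _))
    ((summable_im_sq hz (0, 0)).mul_left _)]

theorem tendsto_imMass {E : ℝ} {V : Site → ℝ} (h : Conv E V) :
    Tendsto (fun n => imMass E n V) atTop (𝓝 (ENNReal.ofReal ((lf E (0, 0) V).toReal / 2))) := by
  have h1 := (tendsto_lf h (0, 0)).1
  have h2 := (h (0, 0)).2.1
  have h3 : Tendsto (fun n => (((zz E n).im *
      (Res V (zz E n) (Res V (zz E n) (dl (0, 0)))) (0, 0) : ℂ)).re) atTop (𝓝 0) := by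
    have := (Complex.continuous_re.tendsto (0 : ℂ)).comp h2
    rw [Complex.zero_re] at this
    exact this
  have h4 := ((h1.sub h3).div_const 2)
  rw [sub_zero] at h4
  have h5 := ENNReal.tendsto_ofReal h4
  refine h5.congr fun n => ?_
  rw [imMass_eq]

theorem partC (hP : Law P ν K L) {E : ℝ} (hconv : ∀ᵐ V ∂P, Conv E V) (hpos : P (Act E) ≠ 0) :
    ∃ c b : ℝ, 0 < c ∧ 0 < b ∧ ∀ᶠ n in atTop, ENNReal.ofReal c <
      ∫⁻ V in Act E ∩ {V | (gg V (zz E n) (0, 0) (0, 0)).im ≤ b},
        ∑' w, ENNReal.ofReal ((zz E n).im * (gg V (zz E n) (0, 0) w).im ^ 2) ∂P := by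
  -- choice of `b`
  obtain ⟨k, hk⟩ : ∃ k : ℕ, P (Act E ∩ {V | lf E (0, 0) V < k}) ≠ 0 := by
    by_contra hc
    push Not at hc
    apply hpos
    have h1 : ∀ᵐ V ∂P, ∀ k : ℕ, V ∉ Act E ∩ {V | lf E (0, 0) V < k} := by
      rw [ae_all_iff]
      intro k
      exact measure_eq_zero_iff_ae_notMem.1 (hc k)
    rw [measure_eq_zero_iff_ae_notMem]
    filter_upwards [h1, hconv] with V h2 h3 h4
    obtain ⟨k, hk⟩ := ENNReal.exists_nat_gt (tendsto_lf h3 (0, 0)).2
    exact h2 k ⟨h4, hk⟩
  set S : Set (Site → ℝ) := Act E ∩ {V | lf E (0, 0) V < k} with hS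
  have hSm : MeasurableSet S :=
    (measurable_Act E).inter (measurableSet_lt (measurable_lf E _) measurable_const)
  set T : ℕ → Set (Site → ℝ) := fun n =>
    Act E ∩ {V | (gg V (zz E n) (0, 0) (0, 0)).im ≤ ((k : ℝ) + 1)} with hT
  have hTm : ∀ n, MeasurableSet (T n) := fun n =>
    (measurable_Act E).inter (measurableSet_le
      (Complex.measurable_im.comp (measurable_gg E n (0, 0) (0, 0))) measurable_const)
  have hle : ∫⁻ V in S, lf E (0, 0) V / 2 ∂P ≤
      liminf (fun n => ∫⁻ V in T n, imMass E n V ∂P) atTop := by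
    have h1 : ∀ n, ∫⁻ V in T n, imMass E n V ∂P = ∫⁻ V, (T n).indicator (imMass E n) V ∂P :=
      fun n => (lintegral_indicator (hTm n) _).symm
    simp only [h1]
    refine le_trans ?_ (lintegral_liminf_le fun n => (measurable_imMass E n).indicator (hTm n))
    rw [← lintegral_indicator hSm]
    refine lintegral_mono_ae ?_
    filter_upwards [hconv] with V hV
    by_cases hVS : V ∈ S
    · rw [Set.indicator_of_mem hVS]
      have h2 := tendsto_imMass hV
      have hfin := (tendsto_lf hV (0, 0)).2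
      have h3 : ENNReal.ofReal ((lf E (0, 0) V).toReal / 2) = lf E (0, 0) V / 2 := by
        rw [ENNReal.ofReal_div_of_pos (by norm_num), ENNReal.ofReal_toReal hfin]
        norm_num
      rw [h3] at h2
      have h4 : ∀ᶠ n in atTop, (gg V (zz E n) (0, 0) (0, 0)).im ≤ ((k : ℝ) + 1) := by
        have h5 : (lf E (0, 0) V).toReal < (k : ℝ) + 1 := by
          have h6 := (ENNReal.toReal_lt_toReal hfin (ENNReal.natCast_ne_top k)).2 hVS.2
          rw [ENNReal.toReal_natCast] at h6
          linarith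
        exact ((tendsto_lf hV (0, 0)).1.eventually_lt_const h5).mono fun n hn => hn.le
      refine le_of_eq ?_
      rw [← h2.liminf_eq]
      refine liminf_congr ?_
      filter_upwards [h4] with n hn
      rw [Set.indicator_of_mem]
      exact ⟨hVS.1, hn⟩
    · rw [Set.indicator_of_notMem hVS]
      exact zero_le
  have hI : ∫⁻ V in S, lf E (0, 0) V / 2 ∂P ≠ 0 := by
    intro h0
    rw [lintegral_eq_zero_iff ((measurable_lf E _).div_const _)] at h0
    have h1 : ∀ᵐ V ∂(P.restrict S), V ∈ S := ae_restrict_mem hSm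
    have h2 : ∀ᵐ V ∂(P.restrict S), False := by
      filter_upwards [h0, h1] with V h3 h4
      have h5 : 0 < lf E (0, 0) V := h4.1 (0, 0)
      have h6 : lf E (0, 0) V / 2 = 0 := h3
      rw [ENNReal.div_eq_zero_iff] at h6
      rcases h6 with h6 | h6
      · exact h5.ne' h6
      · norm_num at h6
    have h3 : P.restrict S = 0 := by
      rw [← ae_eq_bot]
      exact Filter.eventually_false_iff_eq_bot.1 h2
    apply hk
    have := Measure.restrict_apply_univ (μ := P) S
    rw [h3] at this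
    simpa using this.symm
  obtain ⟨c, hc0, hc⟩ : ∃ c : ℝ, 0 < c ∧ ENNReal.ofReal c < ∫⁻ V in S, lf E (0, 0) V / 2 ∂P := by
    obtain ⟨q, hq0, hq⟩ := ENNReal.lt_iff_exists_real_btwn.1 (pos_iff_ne_zero.2 hI)
    exact ⟨q, by simpa using hq.1, hq.2⟩
  refine ⟨c, (k : ℝ) + 1, hc0, by positivity, ?_⟩
  exact eventually_lt_of_lt_liminf (hc.trans_le hle)

end P365L.E913
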