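import Vale.Agent.P365.E913.PartB
import Vale.Agent.P365.T1G.TorD

set_option linter.all false

/-!
# P365 T1, soft end: the combination at a fixed energy
-/

namespace P365L.E913

open MeasureTheory ProbabilityTheory Complex Filter Topology P365L.Inf P365L.TL
open scoped ENNReal InnerProductSpace

variable {P : Measure (Site → ℝ)} [IsProbabilityMeasure P] {ν : Measure ℝ}
  [IsProbabilityMeasure ν] {K L : ℝ}

theorem Law.int_im (hP : Law P ν K L) {z : ℂ} (hz : 0 < z.im) (x : Site) :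
    ∫⁻ V, ENNReal.ofReal (gg V z x x).im ∂P ≤ ENNReal.ofReal (Real.pi * K) := by
  have hm : Measurable fun V : Site → ℝ => ENNReal.ofReal (gg V z x x).im :=
    (Complex.measurable_im.comp (measurable_gg_V hz x x)).ennreal_ofReal
  rw [← (hP.res x).lintegral_comp hm]
  have hm2 : Measurable fun p : (Site → ℝ) × ℝ =>
      ENNReal.ofReal (gg (Function.update p.1 x p.2) z x x).im := hm.comp (hP.res x).measurable
  rw [lintegral_prod _ hm2.aemeasurable]
  refine (lintegral_mono fun V => hP.avg V z x hz).trans ?_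
  simp

theorem sum_sq_le (hP : Law P ν K L) {z : ℂ} (hz : 0 < z.im) (x : Site) :
    ∑' w : Site, ∫⁻ V, ENNReal.ofReal (‖gg V z x w‖ ^ 2) ∂P ≤
      ENNReal.ofReal (Real.pi * K / z.im) := by
  rw [← lintegral_tsum fun w => (((measurable_gg_V hz x w).norm.pow_const 2).ennreal_ofReal).aemeasurable]
  have h1 : ∀ V : Site → ℝ, ∑' w : Site, ENNReal.ofReal (‖gg V z x w‖ ^ 2) =
      ENNReal.ofReal (z.im)⁻¹ * ENNReal.ofReal (gg V z x x).im := by
    intro V
    rw [← ward_ennreal hz x, ← ENNReal.tsum_mul_left]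
    refine tsum_congr fun w => ?_
    rw [← ENNReal.ofReal_mul (by positivity), ← mul_assoc, inv_mul_cancel₀ hz.ne', one_mul]
  rw [lintegral_congr h1, lintegral_const_mul' _ _ ENNReal.ofReal_ne_top]
  refine (mul_le_mul_right (hP.int_im hz x) _).trans ?_
  rw [← ENNReal.ofReal_mul (by positivity)]
  exact ENNReal.ofReal_le_ofReal (le_of_eq (by rw [div_eq_inv_mul]))

theorem conv_shift {E : ℝ} {V : Site → ℝ} (h : Conv E V) (x : Site) (k : ℕ) :
    Tendsto (fun n => gg V (zz E n) x x - gg V (zz E (n - k)) x x) atTop (𝓝 0) := by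
  rw [← tendsto_add_atTop_iff_nat k]
  simp only [Nat.add_sub_cancel]
  induction k with
  | zero => simp
  | succ k ih =>
    have h1 : Tendsto (fun n => gg V (zz E (n + k + 1)) x x - gg V (zz E (n + k)) x x) atTop
        (𝓝 0) := (h x).2.2.comp (tendsto_add_atTop_nat k)
    have h2 := h1.add ih
    rw [add_zero] at h2
    refine h2.congr fun n => ?_
    rw [← add_assoc]
    ring

theorem prob_conv {E : ℝ} (hconv : ∀ᵐ V ∂P, Conv E V) (x : Site) (k : ℕ) {κ : ℝ} (hκ : 0 < κ) :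
    Tendsto (fun n => P {V | κ < ‖gg V (zz E n) x x - gg V (zz E (n - k)) x x‖}) atTop
      (𝓝 0) := by
  have h1 : TendstoInMeasure P (fun n (V : Site → ℝ) =>
      gg V (zz E n) x x - gg V (zz E (n - k)) x x) atTop (fun _ => (0 : ℂ)) := by
    refine tendstoInMeasure_of_tendsto_ae (fun n => ?_) ?_
    · exact ((measurable_gg E n x x).sub (measurable_gg E (n - k) x x)).aestronglyMeasurable
    · filter_upwards [hconv] with V hV
      exact conv_shift hV x k
  have h2 := h1 (ENNReal.ofReal κ) (by simpa using hκ)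
  refine tendsto_of_tendsto_of_tendsto_of_le_of_le tendsto_const_nhds h2 (fun n => bot_le)
    fun n => ?_
  refine measure_mono fun V hV => ?_
  show ENNReal.ofReal κ ≤ edist _ (0 : ℂ)
  rw [edist_zero_right, ← ofReal_norm_eq_enorm]
  exact ENNReal.ofReal_le_ofReal (le_of_lt hV)

/-- boxes -/
noncomputable def bxx (R : ℕ) : Finset Site :=
  Finset.Icc (-(R : ℤ)) R ×ˢ Finset.Icc (-(R : ℤ)) R

theorem mem_bxx {R : ℕ} {x : Site} :
    x ∈ bxx R ↔ (-(R : ℤ) ≤ x.1 ∧ x.1 ≤ R) ∧ (-(R : ℤ) ≤ x.2 ∧ x.2 ≤ R) := by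
  unfold bxx
  rw [Finset.mem_product, Finset.mem_Icc, Finset.mem_Icc]

theorem notMem_bx {R : ℕ} {w : Site} (h : w ∉ bxx R) : R + 1 ≤ sn w := by
  by_contra hc
  apply h
  rw [mem_bxx]
  unfold sn at hc
  omega

theorem card_bx (R : ℕ) : (bxx R).card = (2 * R + 1) ^ 2 := by
  unfold bxx
  rw [Finset.card_product, Int.card_Icc]
  have : ((R : ℤ) + 1 - -(R : ℤ)).toNat = 2 * R + 1 := by omega
  rw [this, pow_two]

theorem act_null (hP : Law P ν K L) {E : ℝ} (hconv : ∀ᵐ V ∂P, Conv E V)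
    (hA : ∀ c : ℝ, 0 < c → ∃ τ : ℝ, 0 < τ ∧ ∀ᶠ n in atTop,
      ∑' w, ∫⁻ V in Act E ∩ {V | imp V (zz E n) w < τ},
        ENNReal.ofReal ((zz E n).im * (gg V (zz E n) (0, 0) w).im ^ 2) ∂P ≤ ENNReal.ofReal c)
    (hC : P (Act E) ≠ 0 → ∃ c b : ℝ, 0 < c ∧ 0 < b ∧ ∀ᶠ n in atTop, ENNReal.ofReal c <
      ∫⁻ V in Act E ∩ {V | (gg V (zz E n) (0, 0) (0, 0)).im ≤ b},
        ∑' w, ENNReal.ofReal ((zz E n).im * (gg V (zz E n) (0, 0) w).im ^ 2) ∂P)
    (hD : ∃ D : ℝ, ∃ᶠ n : ℕ in atTop,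
      DZ P (fun V : Site → ℝ => V) E ((1 / 2) ^ n) ≤ ENNReal.ofReal D) :
    P (Act E) = 0 := by
  by_contra hpos
  obtain ⟨c, b, hc, hb, hC⟩ := hC hpos
  obtain ⟨D0, hD⟩ := hD
  -- the constants
  set D := |D0| + 1 with hDdef
  have hDpos : 0 < D := by positivity
  have hD' : ∃ᶠ n : ℕ in atTop,
      DZ P (fun V : Site → ℝ => V) E ((1 / 2) ^ n) ≤ ENNReal.ofReal D :=
    hD.mono fun n h => h.trans (ENNReal.ofReal_le_ofReal (by linarith [le_abs_self D0]))
  obtain ⟨τ, hτ, hA⟩ := hA (c / 8) (by positivity)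
  have hK := hP.K0
  have hL := hP.L0
  set B := 64 * D / c + 2 with hB
  have hBpos : 0 < B := by positivity
  set β := b / τ with hβ
  have hβpos : 0 < β := by positivity
  set κh := c / (16 * K * B * β) with hκh
  have hκhpos : 0 < κh := by positivity
  set κ := c * κh / (8 * B * (1 + 2 * L / τ)) with hκ
  have hκpos : 0 < κ := by positivity
  set α := (1 + 2 * L / τ) * κ / κh with hα
  have hα1 : B * α = c / 8 := by
    rw [hα, hκ]
    have h1 : 0 < 1 + 2 * L / τ := by positivity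
    have h2 : (1 + 2 * L / τ) ≠ 0 := h1.ne'
    generalize (1 + 2 * L / τ) = u at *
    field_simp
  have hκh1 : B * β * (2 * K * κh) = c / 8 := by
    rw [hκh]
    field_simp
    ring
  set W := β * (4 * L / κ) * (Real.pi * K) with hW
  have hW0 : 0 ≤ W := by positivity
  obtain ⟨k, hk⟩ : ∃ k : ℕ, W * (1 / 2) ^ k ≤ c / 8 := by
    obtain ⟨k, hk⟩ := exists_pow_lt_of_lt_one (show 0 < c / (8 * (W + 1)) by positivity)
      (show (1 / 2 : ℝ) < 1 by norm_num)
    refine ⟨k, ?_⟩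
    have h1 : W * (1 / 2) ^ k ≤ (W + 1) * (c / (8 * (W + 1))) :=
      mul_le_mul (by linarith) hk.le (by positivity) (by positivity)
    refine h1.trans (le_of_eq ?_)
    field_simp
  -- the index
  have hconvP : ∀ᶠ n in atTop, ENNReal.ofReal (B * β) *
      (P {V | κ / 4 < ‖gg V (zz E n) (0, 0) (0, 0) - gg V (zz E (n - k)) (0, 0) (0, 0)‖} +
       P {V | κ / 4 < ‖gg V (zz E n) (0, 0) (0, 0) - gg V (zz E (n - k)) (0, 0) (0, 0)‖}) ≤
      ENNReal.ofReal (c / 8) := by
    have h1 := prob_conv hconv (0, 0) k (show 0 < κ / 4 by positivity)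
    have h2 := ENNReal.Tendsto.const_mul (a := ENNReal.ofReal (B * β)) (h1.add h1)
      (Or.inr ENNReal.ofReal_ne_top)
    rw [add_zero, mul_zero] at h2
    exact h2.eventually_le_const (by simpa using hc)
  obtain ⟨n, hnD, hnC, hnA, hnP, hnk⟩ := (hD'.and_eventually
    (hC.and (hA.and (hconvP.and (eventually_ge_atTop k))))).exists
  -- the scale
  set z := zz E n with hz
  set z' := zz E (n - k) with hz'
  have hzp : 0 < z.im := zz_pos E n
  have hzp' : 0 < z'.im := zz_pos E (n - k)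
  have hzz' : z.im = z'.im * (1 / 2) ^ k := by
    rw [hz, hz', zz_im, zz_im, ← pow_add, Nat.sub_add_cancel hnk]
  have hzle : z.im ≤ 1 := by
    rw [hz, zz_im]
    exact pow_le_one₀ (by norm_num) (by norm_num)
  set X := 8 * D / (c * z.im) with hX
  have hXpos : 0 < X := by positivity
  set R := ⌊Real.sqrt X⌋₊ with hR
  set f : Site → (Site → ℝ) → ℝ≥0∞ := fun w V => ENNReal.ofReal (z.im * (gg V z (0, 0) w).im ^ 2)
    with hf
  have mf : ∀ w, Measurable (f w) := fun w =>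
    (((Complex.measurable_im.comp (measurable_gg_V hzp (0, 0) w)).pow_const 2).const_mul
      z.im).ennreal_ofReal
  set G := Act E ∩ {V : Site → ℝ | (gg V z (0, 0) (0, 0)).im ≤ b} with hG
  -- cardinality of the box
  have hcard : z.im * (bxx R).card ≤ B := by
    rw [card_bx]
    have h1 : (R : ℝ) ≤ Real.sqrt X := Nat.floor_le (Real.sqrt_nonneg _)
    have h2 : ((2 * (R : ℝ) + 1) ^ 2) ≤ 8 * X + 2 := by
      have h3 : (R : ℝ) ^ 2 ≤ X := by
        calc (R : ℝ) ^ 2 ≤ Real.sqrt X ^ 2 := pow_le_pow_left₀ (by positivity) h1 2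
          _ = X := Real.sq_sqrt hXpos.le
      nlinarith [sq_nonneg (2 * (R : ℝ) - 1)]
    push_cast
    calc z.im * (2 * (R : ℝ) + 1) ^ 2 ≤ z.im * (8 * X + 2) :=
          mul_le_mul_of_nonneg_left h2 hzp.le
      _ = 64 * D / c + 2 * z.im := by rw [hX]; field_simp; ring
      _ ≤ B := by rw [hB]; linarith
  have hcard' : ∀ s : ℝ, 0 ≤ s → ((bxx R).card : ℝ≥0∞) * ENNReal.ofReal (z.im * s) ≤
      ENNReal.ofReal (B * s) := by
    intro s hs
    rw [← ENNReal.ofReal_natCast, ← ENNReal.ofReal_mul (by positivity)]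
    refine ENNReal.ofReal_le_ofReal ?_
    calc ((bxx R).card : ℝ) * (z.im * s) = z.im * (bxx R).card * s := by ring
      _ ≤ B * s := mul_le_mul_of_nonneg_right hcard hs
  -- far sites
  have hfar : ∀ w, w ∉ bxx R → ∫⁻ V in G, f w V ∂P ≤ ENNReal.ofReal (c / (8 * D)) *
      ∫⁻ V, ENNReal.ofReal (((1 / 2 : ℝ) ^ n) ^ 2 * (sn w : ℝ) ^ 2 *
        ‖(Res V ((E : ℂ) + (((1 / 2 : ℝ) ^ n : ℝ) : ℂ) * I) (dl 0)) w‖ ^ 2) ∂P := by
    intro w hw
    rw [← lintegral_const_mul' _ _ ENNReal.ofReal_ne_top]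
    refine (setLIntegral_le_lintegral _ _).trans (lintegral_mono fun V => ?_)
    rw [← ENNReal.ofReal_mul (by positivity)]
    refine ENNReal.ofReal_le_ofReal ?_
    have h1 : (Res V ((E : ℂ) + (((1 / 2 : ℝ) ^ n : ℝ) : ℂ) * I) (dl 0)) w = gg V z (0, 0) w :=
      gg_def' hzp (0, 0) w
    rw [h1]
    have h2 : ((1 / 2 : ℝ) ^ n) = z.im := by rw [hz, zz_im]
    rw [h2]
    have h3 : Real.sqrt X < (sn w : ℝ) := by
      have h4 : Real.sqrt X < (R : ℝ) + 1 := Nat.lt_floor_add_one _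
      have h5 : ((R : ℝ) + 1) ≤ (sn w : ℝ) := by exact_mod_cast notMem_bx hw
      linarith
    have h4 : X ≤ (sn w : ℝ) ^ 2 := by
      rw [← Real.sq_sqrt hXpos.le]
      exact pow_le_pow_left₀ (Real.sqrt_nonneg _) h3.le 2
    have h5 := im_le_norm (V := V) (z := z) (0, 0) w
    have h6 : z.im ≤ c / (8 * D) * (z.im ^ 2 * (sn w : ℝ) ^ 2) := by
      calc z.im = c / (8 * D) * (z.im ^ 2 * X) := by rw [hX]; field_simp
        _ ≤ _ := by gcongr
    calc z.im * (gg V z (0, 0) w).im ^ 2 ≤ z.im * ‖gg V z (0, 0) w‖ ^ 2 :=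
          mul_le_mul_of_nonneg_left h5 hzp.le
      _ ≤ c / (8 * D) * (z.im ^ 2 * (sn w : ℝ) ^ 2) * ‖gg V z (0, 0) w‖ ^ 2 :=
          mul_le_mul_of_nonneg_right h6 (by positivity)
      _ = _ := by ring
  -- near sites
  set p := P {V | κ / 4 < ‖gg V z (0, 0) (0, 0) - gg V z' (0, 0) (0, 0)‖} with hp
  set S : Site → ℝ≥0∞ := fun w => ∫⁻ V, ENNReal.ofReal (‖gg V z' (0, 0) w‖ ^ 2) ∂P with hS
  have hnear : ∀ w, ∫⁻ V in G, f w V ∂P ≤ ∫⁻ V in Act E ∩ {V | imp V z w < τ}, f w V ∂P +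
      (ENNReal.ofReal (z.im * α) + ENNReal.ofReal (z.im * β) * (ENNReal.ofReal (2 * K * κh) +
          (ENNReal.ofReal (4 * L / κ) * S w + (p + p)))) := by
    intro w
    have h1 := partB hP hzp hzp' (0, 0) w hτ hb hκpos hκhpos
    refine le_trans ?_ (add_le_add le_rfl h1)
    refine le_trans (lintegral_mono_set ?_) (lintegral_union_le _ _ _)
    intro V hV
    by_cases h2 : imp V z w < τ
    · exact Or.inl ⟨hV.1, h2⟩
    · exact Or.inr ⟨not_lt.1 h2, hV.2⟩
  -- the sum
  have hsum : ∫⁻ V in G, ∑' w, f w V ∂P ≤ ENNReal.ofReal (c / 8) + (ENNReal.ofReal (c / 8) +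
      (ENNReal.ofReal (c / 8) + (ENNReal.ofReal (c / 8) + (ENNReal.ofReal (c / 8) +
        ENNReal.ofReal (c / 8))))) := by
    rw [lintegral_tsum fun w => (mf w).aemeasurable]
    set T1 : Site → ℝ≥0∞ := fun w => ENNReal.ofReal (c / (8 * D)) *
      ∫⁻ V, ENNReal.ofReal (((1 / 2 : ℝ) ^ n) ^ 2 * (sn w : ℝ) ^ 2 *
        ‖(Res V ((E : ℂ) + (((1 / 2 : ℝ) ^ n : ℝ) : ℂ) * I) (dl 0)) w‖ ^ 2) ∂P with hT1
    set T2 : Site → ℝ≥0∞ := fun w => ∫⁻ V in Act E ∩ {V | imp V z w < τ}, f w V ∂P with hT2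
    set T3 : Site → ℝ≥0∞ := fun w => ENNReal.ofReal (z.im * α) + ENNReal.ofReal (z.im * β) *
      (ENNReal.ofReal (2 * K * κh) + (ENNReal.ofReal (4 * L / κ) * S w + (p + p))) with hT3
    have h1 : ∀ w, ∫⁻ V in G, f w V ∂P ≤ T1 w + (T2 w + if w ∈ bxx R then T3 w else 0) := by
      intro w
      by_cases hw : w ∈ bxx R
      · rw [if_pos hw]
        exact (hnear w).trans le_add_self
      · exact (hfar w hw).trans le_self_add
    refine (ENNReal.tsum_le_tsum h1).trans ?_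
    rw [ENNReal.tsum_add, ENNReal.tsum_add]
    have s1 : ∑' w, T1 w ≤ ENNReal.ofReal (c / 8) := by
      rw [hT1, ENNReal.tsum_mul_left, ← lintegral_tsum]
      · refine (mul_le_mul_right hnD _).trans ?_
        rw [← ENNReal.ofReal_mul (by positivity)]
        refine ENNReal.ofReal_le_ofReal (le_of_eq ?_)
        field_simp
      · intro w
        have h2 : ∀ V : Site → ℝ, (Res V ((E : ℂ) + (((1 / 2 : ℝ) ^ n : ℝ) : ℂ) * I) (dl 0)) w =
            gg V z (0, 0) w := fun V => gg_def' hzp (0, 0) w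
        simp only [h2]
        exact (((measurable_gg_V hzp (0, 0) w).norm.pow_const 2).const_mul _).ennreal_ofReal.aemeasurable
    have s2 : ∑' w, T2 w ≤ ENNReal.ofReal (c / 8) := hnA
    have s3 : ∑' w, (if w ∈ bxx R then T3 w else 0) = ∑ w ∈ bxx R, T3 w := by
      rw [tsum_eq_sum (s := bxx R) (fun w hw => if_neg hw)]
      exact Finset.sum_congr rfl fun w hw => if_pos hw
    have s4 : ∑ w ∈ bxx R, T3 w ≤ ENNReal.ofReal (c / 8) + (ENNReal.ofReal (c / 8) +
        (ENNReal.ofReal (c / 8) + ENNReal.ofReal (c / 8))) := by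
      have e : ∀ w, T3 w = ENNReal.ofReal (z.im * α) +
          (ENNReal.ofReal (z.im * β) * ENNReal.ofReal (2 * K * κh) +
          (ENNReal.ofReal (z.im * β) * ENNReal.ofReal (4 * L / κ) * S w +
            ENNReal.ofReal (z.im * β) * (p + p))) := by
        intro w
        simp only [hT3]
        rw [mul_add, mul_add, ← mul_assoc (ENNReal.ofReal (z.im * β)) (ENNReal.ofReal (4 * L / κ))]
      rw [Finset.sum_congr rfl fun w _ => e w, Finset.sum_add_distrib, Finset.sum_add_distrib,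
        Finset.sum_add_distrib, Finset.sum_const, Finset.sum_const, Finset.sum_const,
        nsmul_eq_mul, nsmul_eq_mul, nsmul_eq_mul, ← Finset.mul_sum]
      refine add_le_add ?_ (add_le_add ?_ (add_le_add ?_ ?_))
      · refine (hcard' α (by positivity)).trans (le_of_eq ?_)
        rw [hα1]
      · rw [← mul_assoc]
        refine (mul_le_mul_left (hcard' β hβpos.le) _).trans (le_of_eq ?_)
        rw [← ENNReal.ofReal_mul (by positivity), hκh1]
      · have h2 : ∑ w ∈ bxx R, S w ≤ ENNReal.ofReal (Real.pi * K / z'.im) :=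
          (ENNReal.sum_le_tsum _).trans (sum_sq_le hP hzp' (0, 0))
        refine (mul_le_mul_right h2 _).trans ?_
        rw [← ENNReal.ofReal_mul (by positivity), ← ENNReal.ofReal_mul (by positivity)]
        refine ENNReal.ofReal_le_ofReal ?_
        refine le_trans (le_of_eq ?_) hk
        rw [hW, hzz']
        field_simp
      · rw [← mul_assoc]
        refine (mul_le_mul_left (hcard' β hβpos.le) _).trans ?_
        exact hnP
    calc ∑' w, T1 w + (∑' w, T2 w + ∑' w, (if w ∈ bxx R then T3 w else 0)) ≤ _ := by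
          rw [s3]; exact add_le_add s1 (add_le_add s2 s4)
      _ = _ := rfl
  have hfin := hnC.trans_le hsum
  rw [← ENNReal.ofReal_add (by positivity) (by positivity),
    ← ENNReal.ofReal_add (by positivity) (by positivity),
    ← ENNReal.ofReal_add (by positivity) (by positivity),
    ← ENNReal.ofReal_add (by positivity) (by positivity),
    ← ENNReal.ofReal_add (by positivity) (by positivity),
    ENNReal.ofReal_lt_ofReal_iff (by positivity)] at hfin
  linarith

end P365L.E913
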