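import Vale.Agent.P365.E913.Alt
import Vale.Agent.P365.E913.ConvAe

set_option linter.all false

/-!
# P365 T1, soft end: `uniqG` in the form used by `uniq_swap`
-/

namespace P365L.E913

open MeasureTheory ProbabilityTheory Complex Filter Topology P365L.Inf

theorem adj_of_nb {x y : Site} (h : Nb x y) : adj x y = 1 := by
  unfold adj
  unfold Nb at h
  rw [if_pos h]

theorem uniqG (V : Site → ℝ) (x y : Site) (hxy : Nb x y) :
    ∀ᵐ E : ℝ, ¬ Tendsto (fun n => gg V (zz E n) x y) atTop (𝓝 0) :=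
  ae_gg_not_tendsto_zz V (adj_of_nb hxy)

variable {P : Measure (Site → ℝ)} [IsProbabilityMeasure P] {ν : Measure ℝ}
  [IsProbabilityMeasure ν] {K L : ℝ}

/-- the two almost everywhere facts used at a fixed energy -/
theorem good_energy (hP : Law P ν K L) :
    ∀ᵐ E : ℝ, (∀ᵐ V ∂P, Conv E V) ∧
      ∀ᵐ V ∂P, ∀ x, (0 < lf E x V ↔ 0 < lf E (0, 0) V) := by
  filter_upwards [conv_ae_prod hP.bdd, uniq_swap hP fun V _ x y h => uniqG V x y h] with E h1 h2
  exact ⟨h1, all_or_none hP h1 h2⟩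

end P365L.E913
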